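import Vale.Agent.P141.PL.H315.ConcreteProc

/-!
# P141, line W, scale-invariant version: the pair weight

`n2 Q f`, `n4 Q f`: normalised `L²` and `L⁴` norms on a finite set; `nN Q f = (n2 n4)^(1/2)`;
`wP δ Q u = δ |Q| (N₁₂ N₁₃ |a₂₃|₂ + N₁₂ N₂₃ |a₁₃|₂ + N₁₃ N₂₃ |a₁₂|₂)`.
-/

namespace Vale.Agent.P141.H922

open Finset
open Vale.Agent.P141.PL.H315 (avg avg_nonneg e12 e13 e23 Tri Nm wt atm)

noncomputable section

variable {X : Type*}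

/-- the normalised `L²` norm on a finite set -/
def n2 (Q : Finset X) (f : X → ℝ) : ℝ := √(avg Q fun x => f x ^ 2)

/-- the normalised `L⁴` norm on a finite set -/
def n4 (Q : Finset X) (f : X → ℝ) : ℝ := √√(avg Q fun x => f x ^ 4)

/-- the geometric mean of the `L²` and the `L⁴` norm -/
def nN (Q : Finset X) (f : X → ℝ) : ℝ := √(n2 Q f * n4 Q f)

theorem n2_nonneg (Q : Finset X) (f : X → ℝ) : 0 ≤ n2 Q f := Real.sqrt_nonneg _

theorem n4_nonneg (Q : Finset X) (f : X → ℝ) : 0 ≤ n4 Q f := Real.sqrt_nonneg _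

theorem nN_nonneg (Q : Finset X) (f : X → ℝ) : 0 ≤ nN Q f := Real.sqrt_nonneg _

theorem avg_sq_nonneg (Q : Finset X) (f : X → ℝ) : 0 ≤ avg Q fun x => f x ^ 2 :=
  avg_nonneg fun _ _ => sq_nonneg _

theorem avg_four_nonneg (Q : Finset X) (f : X → ℝ) : 0 ≤ avg Q fun x => f x ^ 4 :=
  avg_nonneg fun _ _ => by positivity

theorem n2_sq (Q : Finset X) (f : X → ℝ) : n2 Q f ^ 2 = avg Q fun x => f x ^ 2 :=
  Real.sq_sqrt (avg_sq_nonneg Q f)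

theorem n4_sq (Q : Finset X) (f : X → ℝ) : n4 Q f ^ 2 = √(avg Q fun x => f x ^ 4) :=
  Real.sq_sqrt (Real.sqrt_nonneg _)

theorem n4_four (Q : Finset X) (f : X → ℝ) : n4 Q f ^ 4 = avg Q fun x => f x ^ 4 := by
  rw [show n4 Q f ^ 4 = (n4 Q f ^ 2) ^ 2 by ring, n4_sq, Real.sq_sqrt (avg_four_nonneg Q f)]

theorem nN_sq (Q : Finset X) (f : X → ℝ) : nN Q f ^ 2 = n2 Q f * n4 Q f :=
  Real.sq_sqrt (mul_nonneg (n2_nonneg Q f) (n4_nonneg Q f))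

/-- the normalised `L²` norm is at most the `L⁴` norm -/
theorem n2_le_n4 (Q : Finset X) (f : X → ℝ) : n2 Q f ≤ n4 Q f := by
  unfold n2 n4
  refine Real.sqrt_le_sqrt ?_
  refine Real.le_sqrt_of_sq_le ?_
  rcases Q.eq_empty_or_nonempty with rfl | hQ
  · simp [avg]
  · have hc : (0 : ℝ) < Q.card := by exact_mod_cast hQ.card_pos
    unfold avg
    have h := inner_mul_le_norm_mul_norm_aux Q f
    rw [mul_pow, inv_pow, inv_mul_le_iff₀ (by positivity)]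
    calc (∑ x ∈ Q, f x ^ 2) ^ 2 ≤ Q.card * ∑ x ∈ Q, f x ^ 4 := h
      _ = _ := by field_simp
where
  inner_mul_le_norm_mul_norm_aux (Q : Finset X) (f : X → ℝ) :
      (∑ x ∈ Q, f x ^ 2) ^ 2 ≤ Q.card * ∑ x ∈ Q, f x ^ 4 := by
    have h := Finset.sum_mul_sq_le_sq_mul_sq Q (fun _ => (1 : ℝ)) (fun x => f x ^ 2)
    simp only [one_mul, one_pow, sum_const, nsmul_eq_mul, mul_one] at h
    calc _ ≤ _ := h
      _ = _ := by
        congr 1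
        exact sum_congr rfl fun x _ => by ring

theorem n2_le_nN (Q : Finset X) (f : X → ℝ) : n2 Q f ≤ nN Q f := by
  unfold nN
  refine Real.le_sqrt_of_sq_le ?_
  rw [sq]
  exact mul_le_mul_of_nonneg_left (n2_le_n4 Q f) (n2_nonneg Q f)

/-- the sum over the three pairs -/
def pw3 (Q : Finset (ℤ × ℤ × ℤ)) (u : Tri) : ℝ :=
  nN Q (e12 u.1) * nN Q (e13 u.2.1) * n2 Q (e23 u.2.2) +
    nN Q (e12 u.1) * nN Q (e23 u.2.2) * n2 Q (e13 u.2.1) +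
    nN Q (e13 u.2.1) * nN Q (e23 u.2.2) * n2 Q (e12 u.1)

theorem pw3_nonneg (Q : Finset (ℤ × ℤ × ℤ)) (u : Tri) : 0 ≤ pw3 Q u := by
  unfold pw3
  have h1 := nN_nonneg Q (e12 u.1)
  have h2 := nN_nonneg Q (e13 u.2.1)
  have h3 := nN_nonneg Q (e23 u.2.2)
  have k1 := n2_nonneg Q (e12 u.1)
  have k2 := n2_nonneg Q (e13 u.2.1)
  have k3 := n2_nonneg Q (e23 u.2.2)
  positivity

/-- **the pair weight** of an atom on a finite set -/
def wP (δ : ℝ) (Q : Finset (ℤ × ℤ × ℤ)) (u : Tri) : ℝ := δ * Q.card * pw3 Q u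

theorem wP_nonneg {δ : ℝ} (hδ : 0 ≤ δ) (Q : Finset (ℤ × ℤ × ℤ)) (u : Tri) : 0 ≤ wP δ Q u :=
  mul_nonneg (mul_nonneg hδ (Nat.cast_nonneg _)) (pw3_nonneg Q u)

/-- the weight is at least three times the `L²` weight -/
theorem three_wt_le_wP {δ : ℝ} (hδ : 0 ≤ δ) (Q : Finset (ℤ × ℤ × ℤ)) (u : Tri) :
    3 * (δ * Q.card * (n2 Q (e12 u.1) * n2 Q (e13 u.2.1) * n2 Q (e23 u.2.2))) ≤ wP δ Q u := by
  have h1 := n2_le_nN Q (e12 u.1)
  have h2 := n2_le_nN Q (e13 u.2.1)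
  have h3 := n2_le_nN Q (e23 u.2.2)
  have k1 := n2_nonneg Q (e12 u.1)
  have k2 := n2_nonneg Q (e13 u.2.1)
  have k3 := n2_nonneg Q (e23 u.2.2)
  have m1 := nN_nonneg Q (e12 u.1)
  have m2 := nN_nonneg Q (e13 u.2.1)
  have e1 : n2 Q (e12 u.1) * n2 Q (e13 u.2.1) * n2 Q (e23 u.2.2) ≤
      nN Q (e12 u.1) * nN Q (e13 u.2.1) * n2 Q (e23 u.2.2) := by gcongr
  have e2 : n2 Q (e12 u.1) * n2 Q (e13 u.2.1) * n2 Q (e23 u.2.2) ≤
      nN Q (e12 u.1) * nN Q (e23 u.2.2) * n2 Q (e13 u.2.1) := by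
    calc _ = n2 Q (e12 u.1) * n2 Q (e23 u.2.2) * n2 Q (e13 u.2.1) := by ring
      _ ≤ _ := by gcongr
  have e3 : n2 Q (e12 u.1) * n2 Q (e13 u.2.1) * n2 Q (e23 u.2.2) ≤
      nN Q (e13 u.2.1) * nN Q (e23 u.2.2) * n2 Q (e12 u.1) := by
    calc _ = n2 Q (e13 u.2.1) * n2 Q (e23 u.2.2) * n2 Q (e12 u.1) := by ring
      _ ≤ _ := by gcongr
  have hc : 0 ≤ δ * (Q.card : ℝ) := mul_nonneg hδ (Nat.cast_nonneg _)
  unfold wP pw3
  have := mul_le_mul_of_nonneg_left (add_le_add (add_le_add e1 e2) e3) hc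
  linarith

end

end Vale.Agent.P141.H922
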