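import Vale.Agent.P141.H922.PairW
import Vale.Agent.P141.PL.H318.Sys1

/-!
# P141: superadditivity of the pair weight

`avg_atm_le`: Loomis–Whitney for averages over a dyadic cube; `wP_super`: the pair weight is
superadditive along the tree, constant `1`.
-/

namespace Vale.Agent.P141.H922

open Finset
open Vale.Agent.P141.PL (Pt)
open Vale.Agent.P141.PL.H315 (cube3 mem_cube3 gz card_cube3 avg sum_avg_cubes iv mem_iv
  e12 e13 e23 Tri atm card_iv avg_nonneg loomis_whitney sum_box12 sum_box13 sum_box23 card_pos_iv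
  avg_rpow_le)

noncomputable section

/-! ### Averages -/

theorem avg_mul_le {X : Type*} (Q : Finset X) (f g : X → ℝ) :
    avg Q (fun x => f x * g x) ≤ √(avg Q fun x => f x ^ 2) * √(avg Q fun x => g x ^ 2) := by
  rw [← Real.sqrt_mul (avg_nonneg fun _ _ => sq_nonneg _)]
  refine Real.le_sqrt_of_sq_le ?_
  have h := Finset.sum_mul_sq_le_sq_mul_sq Q f g
  unfold avg
  have hc : 0 ≤ ((Q.card : ℝ)⁻¹) ^ 2 := by positivity
  calc ((Q.card : ℝ)⁻¹ * ∑ x ∈ Q, f x * g x) ^ 2 =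
        ((Q.card : ℝ)⁻¹) ^ 2 * (∑ x ∈ Q, f x * g x) ^ 2 := by ring
    _ ≤ ((Q.card : ℝ)⁻¹) ^ 2 * ((∑ x ∈ Q, f x ^ 2) * ∑ x ∈ Q, g x ^ 2) :=
        mul_le_mul_of_nonneg_left h hc
    _ = _ := by ring

theorem avg_sqrt_le {X : Type*} (Q : Finset X) {h : X → ℝ} (hh : ∀ x ∈ Q, 0 ≤ h x) :
    avg Q (fun x => √(h x)) ≤ √(avg Q h) := by
  rcases Q.eq_empty_or_nonempty with rfl | hQ
  · simp [avg]
  · have h1 := avg_mul_le Q (fun _ => (1 : ℝ)) (fun x => √(h x))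
    have hc : (0 : ℝ) < Q.card := by exact_mod_cast hQ.card_pos
    have e1 : avg Q (fun _ => (1 : ℝ) ^ 2) = 1 := by
      unfold avg
      rw [one_pow, sum_const, nsmul_eq_mul, mul_one, inv_mul_cancel₀ hc.ne']
    have e2 : avg Q (fun x => √(h x) ^ 2) = avg Q h := by
      unfold avg
      congr 1
      exact sum_congr rfl fun x hx => Real.sq_sqrt (hh x hx)
    simp only [one_mul] at h1
    rw [e1, e2, Real.sqrt_one, one_mul] at h1
    exact h1

theorem avg_congr {X : Type*} {Q : Finset X} {f g : X → ℝ} (h : ∀ x ∈ Q, f x = g x) :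
    avg Q f = avg Q g := by
  unfold avg
  rw [sum_congr rfl h]

theorem avg_mono {X : Type*} {Q : Finset X} {f g : X → ℝ} (h : ∀ x ∈ Q, f x ≤ g x) :
    avg Q f ≤ avg Q g := by
  unfold avg
  exact mul_le_mul_of_nonneg_left (sum_le_sum h) (by positivity)

theorem avg_avg_cube {k l : ℕ} (hkl : k ≤ l) (p : Pt) (f : Pt → ℝ) :
    avg (cube3 l p) (fun q => avg (cube3 k q) f) = avg (cube3 l p) f := by
  have h := sum_avg_cubes gz hkl p f
  unfold avg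
  unfold avg at h
  congr 1

/-! ### Edge functions on a cube -/

theorem avg_face12 (k : ℕ) (φ : ℤ × ℤ → ℝ) (p : Pt) :
    avg (cube3 k p) (fun q => φ (q.1, q.2.1)) = avg (iv k p.1 ×ˢ iv k p.2.1) φ := by
  unfold avg cube3
  rw [sum_box12 _ _ _ φ, Finset.card_product, Finset.card_product, Finset.card_product]
  have h1 := card_pos_iv k p.1
  have h2 := card_pos_iv k p.2.1
  have h3 := card_pos_iv k p.2.2
  push_cast
  field_simp

theorem avg_face13 (k : ℕ) (φ : ℤ × ℤ → ℝ) (p : Pt) :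
    avg (cube3 k p) (fun q => φ (q.1, q.2.2)) = avg (iv k p.1 ×ˢ iv k p.2.2) φ := by
  unfold avg cube3
  rw [sum_box13 _ _ _ φ, Finset.card_product, Finset.card_product, Finset.card_product]
  have h1 := card_pos_iv k p.1
  have h2 := card_pos_iv k p.2.1
  have h3 := card_pos_iv k p.2.2
  push_cast
  field_simp

theorem avg_face23 (k : ℕ) (φ : ℤ × ℤ → ℝ) (p : Pt) :
    avg (cube3 k p) (fun q => φ (q.2.1, q.2.2)) = avg (iv k p.2.1 ×ˢ iv k p.2.2) φ := by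
  unfold avg cube3
  rw [sum_box23 _ _ _ φ, Finset.card_product, Finset.card_product]
  have h1 := card_pos_iv k p.1
  have h2 := card_pos_iv k p.2.1
  have h3 := card_pos_iv k p.2.2
  push_cast
  field_simp

theorem n2_e12 (k : ℕ) (v : ℤ × ℤ → ℝ) (p : Pt) :
    n2 (cube3 k p) (e12 v) = n2 (iv k p.1 ×ˢ iv k p.2.1) v := by
  unfold n2; rw [← avg_face12 k (fun w => v w ^ 2) p]; rfl

theorem n2_e13 (k : ℕ) (v : ℤ × ℤ → ℝ) (p : Pt) :
    n2 (cube3 k p) (e13 v) = n2 (iv k p.1 ×ˢ iv k p.2.2) v := by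
  unfold n2; rw [← avg_face13 k (fun w => v w ^ 2) p]; rfl

theorem n2_e23 (k : ℕ) (v : ℤ × ℤ → ℝ) (p : Pt) :
    n2 (cube3 k p) (e23 v) = n2 (iv k p.2.1 ×ˢ iv k p.2.2) v := by
  unfold n2; rw [← avg_face23 k (fun w => v w ^ 2) p]; rfl

theorem n4_e12 (k : ℕ) (v : ℤ × ℤ → ℝ) (p : Pt) :
    n4 (cube3 k p) (e12 v) = n4 (iv k p.1 ×ˢ iv k p.2.1) v := by
  unfold n4; rw [← avg_face12 k (fun w => v w ^ 4) p]; rfl

theorem n4_e13 (k : ℕ) (v : ℤ × ℤ → ℝ) (p : Pt) :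
    n4 (cube3 k p) (e13 v) = n4 (iv k p.1 ×ˢ iv k p.2.2) v := by
  unfold n4; rw [← avg_face13 k (fun w => v w ^ 4) p]; rfl

theorem n4_e23 (k : ℕ) (v : ℤ × ℤ → ℝ) (p : Pt) :
    n4 (cube3 k p) (e23 v) = n4 (iv k p.2.1 ×ˢ iv k p.2.2) v := by
  unfold n4; rw [← avg_face23 k (fun w => v w ^ 4) p]; rfl

theorem nN_e12 (k : ℕ) (v : ℤ × ℤ → ℝ) (p : Pt) :
    nN (cube3 k p) (e12 v) = nN (iv k p.1 ×ˢ iv k p.2.1) v := by
  unfold nN; rw [n2_e12, n4_e12]

theorem nN_e13 (k : ℕ) (v : ℤ × ℤ → ℝ) (p : Pt) :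
    nN (cube3 k p) (e13 v) = nN (iv k p.1 ×ˢ iv k p.2.2) v := by
  unfold nN; rw [n2_e13, n4_e13]

theorem nN_e23 (k : ℕ) (v : ℤ × ℤ → ℝ) (p : Pt) :
    nN (cube3 k p) (e23 v) = nN (iv k p.2.1 ×ˢ iv k p.2.2) v := by
  unfold nN; rw [n2_e23, n4_e23]

/-! ### Loomis–Whitney for averages -/

/-- Loomis–Whitney for averages over a box. -/
theorem avg_box_le (A B C : Finset ℤ) (u : Tri) :
    avg (A ×ˢ B ×ˢ C) (atm u) ≤
      n2 (A ×ˢ B) u.1 * n2 (A ×ˢ C) u.2.1 * n2 (B ×ˢ C) u.2.2 := by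
  have h := loomis_whitney A B C (fun x y => u.1 (x, y)) (fun x z => u.2.1 (x, z))
    (fun y z => u.2.2 (y, z))
  have e0 : ∑ p ∈ A ×ˢ B ×ˢ C, atm u p =
      ∑ x ∈ A, ∑ y ∈ B, ∑ z ∈ C, u.1 (x, y) * u.2.1 (x, z) * u.2.2 (y, z) := by
    rw [sum_product]
    refine sum_congr rfl fun x _ => ?_
    rw [sum_product]
    rfl
  have n0 := mul_nonneg (mul_nonneg (n2_nonneg (A ×ˢ B) u.1) (n2_nonneg (A ×ˢ C) u.2.1))
    (n2_nonneg (B ×ˢ C) u.2.2)
  refine abs_le_of_sq_le_sq' ?_ n0 |>.2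
  rw [mul_pow, mul_pow, n2_sq, n2_sq, n2_sq]
  unfold avg
  rw [e0]
  simp only [card_product]
  push_cast
  rw [← sum_product' A B (fun x y => u.1 (x, y) ^ 2), ← sum_product' A C (fun x z => u.2.1 (x, z) ^ 2),
    ← sum_product' B C (fun y z => u.2.2 (y, z) ^ 2)] at h
  have hc : 0 ≤ (((A.card : ℝ) * (B.card * C.card))⁻¹) ^ 2 := by positivity
  have h2 := mul_le_mul_of_nonneg_left h hc
  calc (((A.card : ℝ) * (B.card * C.card))⁻¹ *
        ∑ x ∈ A, ∑ y ∈ B, ∑ z ∈ C, u.1 (x, y) * u.2.1 (x, z) * u.2.2 (y, z)) ^ 2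
      = (((A.card : ℝ) * (B.card * C.card))⁻¹) ^ 2 *
        (∑ x ∈ A, ∑ y ∈ B, ∑ z ∈ C, u.1 (x, y) * u.2.1 (x, z) * u.2.2 (y, z)) ^ 2 := by ring
    _ ≤ _ := h2
    _ = _ := by
      simp only [mul_inv, mul_pow]
      ring

theorem avg_atm_le (k : ℕ) (p : Pt) (u : Tri) :
    avg (cube3 k p) (atm u) ≤
      n2 (cube3 k p) (e12 u.1) * n2 (cube3 k p) (e13 u.2.1) * n2 (cube3 k p) (e23 u.2.2) := by
  rw [n2_e12, n2_e13, n2_e23]
  exact avg_box_le _ _ _ u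

/-! ### The norms of averages -/

/-- the `L²` norm of the local `L²` norms -/
theorem n2_n2 {k l : ℕ} (hkl : k ≤ l) (p : Pt) (f : Pt → ℝ) :
    n2 (cube3 l p) (fun q => n2 (cube3 k q) f) = n2 (cube3 l p) f := by
  conv_rhs => unfold n2
  unfold n2
  rw [← avg_avg_cube hkl p (fun x => f x ^ 2)]
  congr 1
  refine avg_congr fun q _ => ?_
  exact Real.sq_sqrt (avg_nonneg fun _ _ => sq_nonneg _)

/-- the `L²` norm of the local `N` norms -/
theorem n2_nN {k l : ℕ} (hkl : k ≤ l) (p : Pt) (f : Pt → ℝ) :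
    n2 (cube3 l p) (fun q => nN (cube3 k q) f) ≤ nN (cube3 l p) f := by
  have e1 : n2 (cube3 l p) (fun q => nN (cube3 k q) f) =
      √(avg (cube3 l p) fun q => n2 (cube3 k q) f * n4 (cube3 k q) f) := by
    unfold n2
    congr 1
    exact avg_congr fun q _ => nN_sq _ _
  rw [e1]
  unfold nN
  refine Real.sqrt_le_sqrt ?_
  refine (avg_mul_le _ _ _).trans ?_
  have e2 : √(avg (cube3 l p) fun q => n2 (cube3 k q) f ^ 2) = n2 (cube3 l p) f := n2_n2 hkl p f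
  rw [e2]
  refine mul_le_mul_of_nonneg_left ?_ (n2_nonneg _ _)
  unfold n4
  refine Real.sqrt_le_sqrt ?_
  rw [← avg_avg_cube hkl p (fun x => f x ^ 4)]
  refine le_trans (le_of_eq (avg_congr fun q _ => ?_))
    (avg_sqrt_le (cube3 l p) fun q _ => avg_nonneg fun _ _ => by positivity)
  exact Real.sq_sqrt (Real.sqrt_nonneg _)

/-- the average of the products of local norms -/
theorem avg_prod_le {l : ℕ} (p : Pt) {F12 F13 F23 : ℤ × ℤ → ℝ} {a b c : Pt → ℝ}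
    (h12 : ∀ q, a q = F12 (q.1, q.2.1)) (h13 : ∀ q, b q = F13 (q.1, q.2.2))
    (h23 : ∀ q, c q = F23 (q.2.1, q.2.2)) :
    avg (cube3 l p) (fun q => a q * b q * c q) ≤ n2 (cube3 l p) a * n2 (cube3 l p) b *
      n2 (cube3 l p) c := by
  have h := avg_atm_le l p (F12, F13, F23)
  have e1 : a = e12 F12 := funext h12
  have e2 : b = e13 F13 := funext h13
  have e3 : c = e23 F23 := funext h23
  rw [e1, e2, e3]
  exact h

/-- **Superadditivity of the pair weight.** -/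
theorem avg_pw3_le {k l : ℕ} (hkl : k ≤ l) (p : Pt) (u : Tri) :
    avg (cube3 l p) (fun q => pw3 (cube3 k q) u) ≤ pw3 (cube3 l p) u := by
  have hsum : avg (cube3 l p) (fun q => pw3 (cube3 k q) u) =
      avg (cube3 l p) (fun q => nN (cube3 k q) (e12 u.1) * nN (cube3 k q) (e13 u.2.1) *
        n2 (cube3 k q) (e23 u.2.2)) +
      avg (cube3 l p) (fun q => nN (cube3 k q) (e12 u.1) * nN (cube3 k q) (e23 u.2.2) *
        n2 (cube3 k q) (e13 u.2.1)) +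
      avg (cube3 l p) (fun q => nN (cube3 k q) (e13 u.2.1) * nN (cube3 k q) (e23 u.2.2) *
        n2 (cube3 k q) (e12 u.1)) := by
    unfold avg pw3
    rw [sum_add_distrib, sum_add_distrib]
    ring
  rw [hsum]
  have a1 := n2_nN hkl p (e12 u.1)
  have a2 := n2_nN hkl p (e13 u.2.1)
  have a3 := n2_nN hkl p (e23 u.2.2)
  have b1 := (n2_n2 hkl p (e12 u.1)).le
  have b2 := (n2_n2 hkl p (e13 u.2.1)).le
  have b3 := (n2_n2 hkl p (e23 u.2.2)).le
  have p1 := nN_nonneg (cube3 l p) (e12 u.1)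
  have p2 := nN_nonneg (cube3 l p) (e13 u.2.1)
  have p3 := nN_nonneg (cube3 l p) (e23 u.2.2)
  have q1 := n2_nonneg (cube3 l p) (fun q => nN (cube3 k q) (e12 u.1))
  have q2 := n2_nonneg (cube3 l p) (fun q => nN (cube3 k q) (e13 u.2.1))
  have q3 := n2_nonneg (cube3 l p) (fun q => nN (cube3 k q) (e23 u.2.2))
  have r1 := n2_nonneg (cube3 l p) (fun q => n2 (cube3 k q) (e12 u.1))
  have r2 := n2_nonneg (cube3 l p) (fun q => n2 (cube3 k q) (e13 u.2.1))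
  have r3 := n2_nonneg (cube3 l p) (fun q => n2 (cube3 k q) (e23 u.2.2))
  have c1 : avg (cube3 l p) (fun q => nN (cube3 k q) (e12 u.1) * nN (cube3 k q) (e13 u.2.1) *
        n2 (cube3 k q) (e23 u.2.2)) ≤
      nN (cube3 l p) (e12 u.1) * nN (cube3 l p) (e13 u.2.1) * n2 (cube3 l p) (e23 u.2.2) := by
    refine (avg_prod_le (l := l) p (F12 := fun w => nN (iv k w.1 ×ˢ iv k w.2) u.1)
      (F13 := fun w => nN (iv k w.1 ×ˢ iv k w.2) u.2.1)
      (F23 := fun w => n2 (iv k w.1 ×ˢ iv k w.2) u.2.2)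
      (fun q => nN_e12 k u.1 q) (fun q => nN_e13 k u.2.1 q) (fun q => n2_e23 k u.2.2 q)).trans ?_
    exact mul_le_mul (mul_le_mul a1 a2 q2 p1) b3 r3 (mul_nonneg p1 p2)
  have c2 : avg (cube3 l p) (fun q => nN (cube3 k q) (e12 u.1) * nN (cube3 k q) (e23 u.2.2) *
        n2 (cube3 k q) (e13 u.2.1)) ≤
      nN (cube3 l p) (e12 u.1) * nN (cube3 l p) (e23 u.2.2) * n2 (cube3 l p) (e13 u.2.1) := by
    have h := avg_prod_le (l := l) p (F12 := fun w => nN (iv k w.1 ×ˢ iv k w.2) u.1)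
      (F13 := fun w => n2 (iv k w.1 ×ˢ iv k w.2) u.2.1)
      (F23 := fun w => nN (iv k w.1 ×ˢ iv k w.2) u.2.2)
      (fun q => nN_e12 k u.1 q) (fun q => n2_e13 k u.2.1 q) (fun q => nN_e23 k u.2.2 q)
    have e0 : avg (cube3 l p) (fun q => nN (cube3 k q) (e12 u.1) * nN (cube3 k q) (e23 u.2.2) *
        n2 (cube3 k q) (e13 u.2.1)) = avg (cube3 l p) (fun q => nN (cube3 k q) (e12 u.1) *
        n2 (cube3 k q) (e13 u.2.1) * nN (cube3 k q) (e23 u.2.2)) := avg_congr fun q _ => by ring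
    rw [e0]
    refine h.trans ?_
    calc _ = n2 (cube3 l p) (fun q => nN (cube3 k q) (e12 u.1)) *
          n2 (cube3 l p) (fun q => nN (cube3 k q) (e23 u.2.2)) *
          n2 (cube3 l p) (fun q => n2 (cube3 k q) (e13 u.2.1)) := by ring
      _ ≤ _ := mul_le_mul (mul_le_mul a1 a3 q3 p1) b2 r2 (mul_nonneg p1 p3)
  have c3 : avg (cube3 l p) (fun q => nN (cube3 k q) (e13 u.2.1) * nN (cube3 k q) (e23 u.2.2) *
        n2 (cube3 k q) (e12 u.1)) ≤
      nN (cube3 l p) (e13 u.2.1) * nN (cube3 l p) (e23 u.2.2) * n2 (cube3 l p) (e12 u.1) := by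
    have h := avg_prod_le (l := l) p (F12 := fun w => n2 (iv k w.1 ×ˢ iv k w.2) u.1)
      (F13 := fun w => nN (iv k w.1 ×ˢ iv k w.2) u.2.1)
      (F23 := fun w => nN (iv k w.1 ×ˢ iv k w.2) u.2.2)
      (fun q => n2_e12 k u.1 q) (fun q => nN_e13 k u.2.1 q) (fun q => nN_e23 k u.2.2 q)
    have e0 : avg (cube3 l p) (fun q => nN (cube3 k q) (e13 u.2.1) * nN (cube3 k q) (e23 u.2.2) *
        n2 (cube3 k q) (e12 u.1)) = avg (cube3 l p) (fun q => n2 (cube3 k q) (e12 u.1) *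
        nN (cube3 k q) (e13 u.2.1) * nN (cube3 k q) (e23 u.2.2)) := avg_congr fun q _ => by ring
    rw [e0]
    refine h.trans ?_
    calc _ = n2 (cube3 l p) (fun q => nN (cube3 k q) (e13 u.2.1)) *
          n2 (cube3 l p) (fun q => nN (cube3 k q) (e23 u.2.2)) *
          n2 (cube3 l p) (fun q => n2 (cube3 k q) (e12 u.1)) := by ring
      _ ≤ _ := mul_le_mul (mul_le_mul a2 a3 q3 p2) b1 r1 (mul_nonneg p2 p3)
  unfold pw3
  linarith

theorem wP_super {δ : ℝ} (hδ : 0 ≤ δ) {k l : ℕ} (hkl : k ≤ l) (p : Pt) (u : Tri) :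
    ∑ z ∈ cube3 l p, (8 ^ k : ℝ)⁻¹ * wP δ (cube3 k z) u ≤ wP δ (cube3 l p) u := by
  have hc : (0 : ℝ) < (cube3 l p).card := by
    exact_mod_cast Finset.card_pos.mpr ⟨p, gz.mem l p⟩
  have h5 := avg_pw3_le hkl p u
  unfold avg at h5
  rw [inv_mul_le_iff₀ hc] at h5
  have e1 : ∀ z ∈ cube3 l p, (8 ^ k : ℝ)⁻¹ * wP δ (cube3 k z) u = δ * pw3 (cube3 k z) u := by
    intro z _
    unfold wP
    rw [card_cube3]
    push_cast
    field_simp
  rw [sum_congr rfl e1, ← mul_sum]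
  unfold wP
  calc _ ≤ δ * ((cube3 l p).card * pw3 (cube3 l p) u) := mul_le_mul_of_nonneg_left h5 hδ
    _ = _ := by ring

end

end Vale.Agent.P141.H922
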