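import Vale.Agent.P141.H483.Chain
import Vale.Agent.P141.PL.H560.Transfer2

/-!
# P141, line (A): sums over the nodes with the real ties (sum of the indices `= o - 2`)

Letters of `cosF`: the nodes of the cube `M = (M1, M2, M3)` of scale `K` are the boxes
`bx0 o m`, `m ∈ cbs K M k`, `1 ≤ k ≤ K`; the index of `x₀` is `o - 2 - (m1 + m2 + m3)`.
At fixed `(x₁, x₃)` and fixed scale the `x₀`-cell and the `x₂`-cell determine each other, so a sum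
over the nodes of a function of the `x₂`-cell (and of the points `x₁`, `x₃`) is a sum over the tree
of `x₂` (`H420.tsum`):

* `node_sum` (exact), `node_sum_le` (with a weight of bounded `x₀`-line averages);
* `SS_tree`: `SUM tr (S Sᵀ) ≤ tr G_top / l`, `S = √l K⁻¹ dK K⁻¹`;
* `xi_nodes`, `xi_nodes_le`, `rho_nodes`, `SS_nodes`: the energies of the flow slot over all the
  nodes, `v` with label potentials `≤ P` over `x₃`.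
-/

namespace Vale.Agent.P141.H922

open Finset Matrix
open Vale.Agent.P141.PL (Pt Bx iv ix cx mem_iv card_iv ix_ix)
open Vale.Agent.P141.PL.H560 (cbs bx0)
open Vale.Agent.P141.H420 (Tr)

noncomputable section

/-! ### The bijection -/

theorem iv_iv {k K : ℕ} (hk : k ≤ K) (R : ℤ) {β : Type*} [AddCommMonoid β] (f : ℤ → β) :
    ∑ a ∈ iv (K - k) R, ∑ x ∈ iv k a, f x = ∑ x ∈ iv K R, f x := by
  classical
  have hmap : ∀ x ∈ iv K R, ix k x ∈ iv (K - k) R := by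
    intro x hx
    rw [mem_iv] at hx ⊢
    rw [ix_ix, Nat.add_sub_cancel' hk]
    exact hx
  rw [← sum_fiberwise_of_maps_to hmap]
  refine sum_congr rfl fun a ha => sum_congr ?_ fun _ _ => rfl
  ext x
  rw [mem_filter, mem_iv, mem_iv]
  constructor
  · intro h
    refine ⟨?_, h⟩
    rw [mem_iv] at ha
    rw [← ha, ← h, ix_ix, Nat.add_sub_cancel' hk]
  · exact fun h => h.2

/-- `tsum` in the letters of `iv` -/
theorem tsum_iv (f : ℕ → ℤ → ℝ) (K : ℕ) (m : ℤ) :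
    2 ^ K * H420.tsum f K m = ∑ k ∈ Icc 1 K, 2 ^ k * ∑ i ∈ iv (K - k) m, f k i := by
  rw [H420.tsum_eq, mul_sum]
  refine sum_congr rfl fun k hk => ?_
  have hk' : k ≤ K := (mem_Icc.1 hk).2
  have e : (2 : ℝ) ^ K = 2 ^ k * 2 ^ (K - k) := by rw [← pow_add, Nat.add_sub_cancel' hk']
  rw [e, ← mul_assoc, mul_assoc ((2 : ℝ) ^ k), mul_inv_cancel₀ (by positivity), mul_one]
  rfl

/-- one scale: the nodes of scale `k` -/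
theorem node_scale {k K : ℕ} (hk : k ≤ K) (o : ℤ) (M : Pt) (Φ : ℤ → ℤ → ℤ → ℝ)
    (W : ℤ → ℤ → ℤ → ℝ) :
    ∑ m ∈ cbs K M k, ∑ x0 ∈ iv k (bx0 o m).1, ∑ x1 ∈ iv k m.1, ∑ x3 ∈ iv k m.2.2,
      W x0 x1 x3 * Φ m.2.1 x1 x3 =
    ∑ x1 ∈ iv K M.1, ∑ x3 ∈ iv K M.2.2, ∑ m2 ∈ iv (K - k) M.2.1,
      (∑ x0 ∈ iv k (o - 2 - (ix k x1 + m2 + ix k x3)), W x0 x1 x3) * Φ m2 x1 x3 := by
  have e1 : ∀ m ∈ cbs K M k, (∑ x0 ∈ iv k (bx0 o m).1, ∑ x1 ∈ iv k m.1, ∑ x3 ∈ iv k m.2.2,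
      W x0 x1 x3 * Φ m.2.1 x1 x3) = ∑ x1 ∈ iv k m.1, ∑ x3 ∈ iv k m.2.2,
      (∑ x0 ∈ iv k (o - 2 - (ix k x1 + m.2.1 + ix k x3)), W x0 x1 x3) * Φ m.2.1 x1 x3 := by
    intro m _
    rw [sum_comm]
    refine sum_congr rfl fun x1 h1 => ?_
    rw [sum_comm]
    refine sum_congr rfl fun x3 h3 => ?_
    rw [sum_mul]
    refine sum_congr ?_ fun _ _ => rfl
    rw [mem_iv] at h1 h3
    rw [h1, h3]
    show iv k (o - 2 - (m.1 + m.2.1 + m.2.2)) = _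
    rfl
  rw [sum_congr rfl e1]
  unfold cbs
  rw [sum_product]
  simp only [sum_product]
  -- now `∑ m1, ∑ m2, ∑ m3, ∑ x1 ∈ iv k m1, ∑ x3 ∈ iv k m3`
  have e2 : ∀ m1 ∈ iv (K - k) M.1, (∑ m2 ∈ iv (K - k) M.2.1, ∑ m3 ∈ iv (K - k) M.2.2,
      ∑ x1 ∈ iv k m1, ∑ x3 ∈ iv k m3,
        (∑ x0 ∈ iv k (o - 2 - (ix k x1 + m2 + ix k x3)), W x0 x1 x3) * Φ m2 x1 x3) =
      ∑ x1 ∈ iv k m1, ∑ x3 ∈ iv K M.2.2, ∑ m2 ∈ iv (K - k) M.2.1,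
        (∑ x0 ∈ iv k (o - 2 - (ix k x1 + m2 + ix k x3)), W x0 x1 x3) * Φ m2 x1 x3 := by
    intro m1 _
    have e3 : ∀ m2 ∈ iv (K - k) M.2.1, (∑ m3 ∈ iv (K - k) M.2.2,
        ∑ x1 ∈ iv k m1, ∑ x3 ∈ iv k m3,
          (∑ x0 ∈ iv k (o - 2 - (ix k x1 + m2 + ix k x3)), W x0 x1 x3) * Φ m2 x1 x3) =
        ∑ x1 ∈ iv k m1, ∑ x3 ∈ iv K M.2.2,
          (∑ x0 ∈ iv k (o - 2 - (ix k x1 + m2 + ix k x3)), W x0 x1 x3) * Φ m2 x1 x3 := by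
      intro m2 _
      rw [sum_comm]
      exact sum_congr rfl fun x1 _ => iv_iv hk _ _
    rw [sum_congr rfl e3, sum_comm]
    exact sum_congr rfl fun x1 _ => sum_comm
  rw [sum_congr rfl e2]
  exact iv_iv hk _ _

/-- **The sum over the nodes of a function of the `x₂`-cell**: real ties, exact. -/
theorem node_sum (o : ℤ) (K : ℕ) (M : Pt) (Φ : ℕ → ℤ → ℤ → ℤ → ℝ) :
    ∑ k ∈ Icc 1 K, ∑ m ∈ cbs K M k, ∑ _x0 ∈ iv k (bx0 o m).1, ∑ x1 ∈ iv k m.1,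
      ∑ x3 ∈ iv k m.2.2, Φ k m.2.1 x1 x3 =
    2 ^ K * ∑ x1 ∈ iv K M.1, ∑ x3 ∈ iv K M.2.2,
      H420.tsum (fun k m2 => Φ k m2 x1 x3) K M.2.1 := by
  have e1 : ∀ k ∈ Icc 1 K, (∑ m ∈ cbs K M k, ∑ _x0 ∈ iv k (bx0 o m).1, ∑ x1 ∈ iv k m.1,
      ∑ x3 ∈ iv k m.2.2, Φ k m.2.1 x1 x3) =
      ∑ x1 ∈ iv K M.1, ∑ x3 ∈ iv K M.2.2, 2 ^ k * ∑ m2 ∈ iv (K - k) M.2.1, Φ k m2 x1 x3 := by
    intro k hk
    have h := node_scale (mem_Icc.1 hk).2 o M (Φ k) (fun _ _ _ => 1)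
    simp only [one_mul] at h
    rw [h]
    refine sum_congr rfl fun x1 _ => sum_congr rfl fun x3 _ => ?_
    rw [mul_sum]
    refine sum_congr rfl fun m2 _ => ?_
    rw [sum_const, card_iv, nsmul_eq_mul, mul_one]
    push_cast
    ring
  rw [sum_congr rfl e1, sum_comm, mul_sum]
  refine sum_congr rfl fun x1 _ => ?_
  rw [sum_comm, mul_sum]
  exact sum_congr rfl fun x3 _ => (tsum_iv _ K M.2.1).symm

/-- **The same with a weight** `W (x₀, x₁, x₃) ≥ 0` of `x₀`-line averages at most `e`. -/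
theorem node_sum_le (o : ℤ) (K : ℕ) (M : Pt) {Φ : ℕ → ℤ → ℤ → ℤ → ℝ}
    (hΦ : ∀ k m x1 x3, 0 ≤ Φ k m x1 x3) {W : ℤ → ℤ → ℤ → ℝ} {e : ℝ}
    (hW : ∀ k ≤ K, ∀ j x1 x3, ∑ x0 ∈ iv k j, W x0 x1 x3 ≤ e * 2 ^ k) :
    ∑ k ∈ Icc 1 K, ∑ m ∈ cbs K M k, ∑ x0 ∈ iv k (bx0 o m).1, ∑ x1 ∈ iv k m.1,
      ∑ x3 ∈ iv k m.2.2, W x0 x1 x3 * Φ k m.2.1 x1 x3 ≤
    e * (2 ^ K * ∑ x1 ∈ iv K M.1, ∑ x3 ∈ iv K M.2.2,
      H420.tsum (fun k m2 => Φ k m2 x1 x3) K M.2.1) := by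
  have e1 : ∀ k ∈ Icc 1 K, (∑ m ∈ cbs K M k, ∑ x0 ∈ iv k (bx0 o m).1, ∑ x1 ∈ iv k m.1,
      ∑ x3 ∈ iv k m.2.2, W x0 x1 x3 * Φ k m.2.1 x1 x3) ≤
      ∑ x1 ∈ iv K M.1, ∑ x3 ∈ iv K M.2.2,
        e * (2 ^ k * ∑ m2 ∈ iv (K - k) M.2.1, Φ k m2 x1 x3) := by
    intro k hk
    rw [node_scale (mem_Icc.1 hk).2 o M (Φ k) W]
    refine sum_le_sum fun x1 _ => sum_le_sum fun x3 _ => ?_
    rw [mul_sum, mul_sum]
    refine sum_le_sum fun m2 _ => ?_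
    rw [← mul_assoc]
    exact mul_le_mul_of_nonneg_right (hW k (mem_Icc.1 hk).2 _ _ _) (hΦ _ _ _ _)
  refine (sum_le_sum e1).trans (le_of_eq ?_)
  rw [sum_comm, mul_sum, mul_sum]
  refine sum_congr rfl fun x1 _ => ?_
  rw [sum_comm, mul_sum, mul_sum]
  refine sum_congr rfl fun x3 _ => ?_
  rw [← mul_sum, tsum_iv]

/-! ### The mass of the flow matrix -/

variable {ι : Type*} [Fintype ι] [DecidableEq ι]

/-- `S Sᵀ`, `S = √l K⁻¹ dK K⁻¹`, at one node -/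
theorem SS_node {l : ℝ} {G D K Kp Km : Matrix ι ι ℝ} (h : H420.Nd l G D K Kp Km) :
    l * (K⁻¹ * H420.Nd.dK Kp Km * K⁻¹ * (K⁻¹ * H420.Nd.dK Kp Km * K⁻¹)).trace ≤
      2 * (√l)⁻¹ * (K.trace - (H420.Nd.Kb Kp Km).trace) := by
  have hl := h.l_pos
  have hs : 0 < √l := Real.sqrt_pos.2 hl
  have hKi := h.pdK.inv.isHermitian
  have hd := h.herm_dK
  set d := H420.Nd.dK Kp Km with hdd
  set B := H420.Nd.Kb Kp Km with hB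
  set T := K - B with hT
  have hTps : T.PosSemidef := h.Kb_le
  -- `l K⁻² ≤ 1`
  have e0 : (1 - l • (K⁻¹ * K⁻¹)).PosSemidef := by
    rw [← H420.inv_G_inv h.pdK h.sq]
    have h3 := h.psG.conjTranspose_mul_mul_same (K⁻¹)
    rwa [hKi.eq] at h3
  have e1 : (K⁻¹ * d * (1 - l • (K⁻¹ * K⁻¹)) * (d * K⁻¹)).PosSemidef := by
    have h3 := e0.mul_mul_conjTranspose_same (K⁻¹ * d)
    rwa [conjTranspose_mul, hd.eq, hKi.eq] at h3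
  have e2 : K⁻¹ * d * (1 - l • (K⁻¹ * K⁻¹)) * (d * K⁻¹) =
      K⁻¹ * (d * d) * K⁻¹ - l • (K⁻¹ * d * K⁻¹ * (K⁻¹ * d * K⁻¹)) := by
    simp only [Matrix.mul_sub, Matrix.sub_mul, Matrix.mul_one, Matrix.mul_smul, Matrix.smul_mul,
      Matrix.mul_assoc]
  have e3 := e1.trace_nonneg
  rw [e2, trace_sub, trace_smul, smul_eq_mul] at e3
  -- `dK² = K² - Kb² = K T + T K - T²`
  have e4 : d * d = K * T + T * K - T * T := by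
    have h1 := h.sq_eq
    rw [← hdd, ← hB] at h1
    have h2 : B = K - T := by rw [hT]; abel
    have h3 : d * d = K * K - B * B := by rw [h1]; abel
    rw [h3, h2]
    simp only [Matrix.mul_sub, Matrix.sub_mul]
    abel
  have e5 : (K⁻¹ * (d * d) * K⁻¹).trace ≤ 2 * (K⁻¹ * T).trace := by
    have h1 : K⁻¹ * (K * T + T * K - T * T) * K⁻¹ = T * K⁻¹ + K⁻¹ * T - K⁻¹ * T * (T * K⁻¹) := by
      simp only [Matrix.mul_sub, Matrix.sub_mul, Matrix.mul_add, Matrix.add_mul]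
      have h2 : K⁻¹ * (K * T) * K⁻¹ = T * K⁻¹ := by
        rw [← Matrix.mul_assoc K⁻¹ K T, H420.inv_mul_self' h.pdK, Matrix.one_mul]
      have h3 : K⁻¹ * (T * K) * K⁻¹ = K⁻¹ * T := by
        rw [Matrix.mul_assoc, Matrix.mul_assoc, H420.mul_inv_self' h.pdK, Matrix.mul_one]
      rw [h2, h3]
      simp only [Matrix.mul_assoc]
    have h4 : (K⁻¹ * T * (T * K⁻¹)).PosSemidef := by
      have h5 := posSemidef_self_mul_conjTranspose (K⁻¹ * T)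
      rwa [conjTranspose_mul, hKi.eq, hTps.isHermitian.eq] at h5
    rw [e4, h1, trace_sub, trace_add, trace_mul_comm T K⁻¹]
    have := h4.trace_nonneg
    linarith
  have e6 : (K⁻¹ * T).trace ≤ (√l)⁻¹ * T.trace := by
    have h1 := H420.trace_mul_nonneg (H420.inv_le hl h.psG h.pdK h.sq) hTps
    rw [Matrix.sub_mul, Matrix.smul_mul, Matrix.one_mul, trace_sub, trace_smul,
      smul_eq_mul] at h1
    linarith
  have e7 : T.trace = K.trace - B.trace := by rw [hT, trace_sub]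
  rw [e7] at e6
  linarith

/-- **`SUM tr (S Sᵀ) ≤ tr G_top / l`** on the tree below a cell -/
theorem SS_tree {l : ℝ} {n : ℕ} {G K : ℕ → ℤ → Matrix ι ι ℝ} (h : Tr l n G K) {k : ℕ}
    (hk : k ≤ n) (m : ℤ) :
    H420.tsum (fun j i => l * ((K j i)⁻¹ * H420.Nd.dK (K (j - 1) (2 * i)) (K (j - 1) (2 * i + 1)) *
      (K j i)⁻¹ * ((K j i)⁻¹ * H420.Nd.dK (K (j - 1) (2 * i)) (K (j - 1) (2 * i + 1)) *
      (K j i)⁻¹)).trace) k m ≤ l⁻¹ * (G k m).trace := by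
  have hl := h.l_pos
  have hs : 0 < √l := Real.sqrt_pos.2 hl
  have hss : (√l)⁻¹ * (√l)⁻¹ = l⁻¹ := by rw [← mul_inv, Real.mul_self_sqrt hl.le]
  have key := H420.tsum_le (f := fun j i => l * ((K j i)⁻¹ *
      H420.Nd.dK (K (j - 1) (2 * i)) (K (j - 1) (2 * i + 1)) *
      (K j i)⁻¹ * ((K j i)⁻¹ * H420.Nd.dK (K (j - 1) (2 * i)) (K (j - 1) (2 * i + 1)) *
      (K j i)⁻¹)).trace) (F := fun j i => 2 * (√l)⁻¹ * (K j i).trace)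
    (b := 2 * (√l)⁻¹ * (√l * (Fintype.card ι : ℝ))) (n := n) (fun j hj i => ?_) (fun i => ?_)
    k hk m
  · refine key.trans ?_
    have h1 := H420.trace_K_le h.l_pos (h.pdK k m) (h.sq k m)
    have h2 : l⁻¹ * (2 * √l * ((K k m).trace - √l * (Fintype.card ι : ℝ))) =
        2 * (√l)⁻¹ * (K k m).trace - 2 * (√l)⁻¹ * (√l * (Fintype.card ι : ℝ)) := by
      rw [← hss]
      field_simp
    rw [← h2]
    exact mul_le_mul_of_nonneg_left h1 (inv_pos.2 hl).le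
  · have h1 := SS_node (h.nd hj i)
    have h2 : (H420.Nd.Kb (K j (2 * i)) (K j (2 * i + 1))).trace =
        (1 / 2) * ((K j (2 * i)).trace + (K j (2 * i + 1)).trace) := by
      rw [trace_smul, trace_add, smul_eq_mul]
    rw [h2] at h1
    simp only [Nat.add_sub_cancel]
    linarith
  · have h1 := H420.sqrt_card_le h.l_pos (h.psG 0 i) (h.pdK 0 i) (h.sq 0 i)
    exact mul_le_mul_of_nonneg_left h1 (by positivity)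

/-! ### Label potentials -/

omit [DecidableEq ι] in
/-- a family with label potentials at most `P`: `SUM ⟪v, G v⟫ ≤ P tr G` -/
theorem sum_form_le {X : Type*} (s : Finset X) (v : X → ι → ℝ) {P : ℝ}
    (hv : ∀ θ : ι → ℝ, ∑ x ∈ s, (θ ⬝ᵥ v x) ^ 2 ≤ P * (θ ⬝ᵥ θ)) {G : Matrix ι ι ℝ}
    (hG : G.PosSemidef) : ∑ x ∈ s, v x ⬝ᵥ G *ᵥ v x ≤ P * G.trace := by
  classical
  set R : Matrix ι ι ℝ := ∑ x ∈ s, vecMulVec (v x) (v x) with hR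
  have hRf : ∀ θ : ι → ℝ, θ ⬝ᵥ R *ᵥ θ = ∑ x ∈ s, (θ ⬝ᵥ v x) ^ 2 := by
    intro θ
    rw [hR, sum_mulVec, dotProduct_sum]
    refine sum_congr rfl fun x _ => ?_
    rw [vecMulVec_mulVec, dotProduct_comm (v x) θ]
    simp only [op_smul_eq_smul, dotProduct_smul, smul_eq_mul]
    ring
  have hRs : R.IsHermitian := by
    rw [hR]
    refine isSelfAdjoint_sum _ fun x _ => ?_
    show (vecMulVec (v x) (v x))ᴴ = vecMulVec (v x) (v x)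
    rw [conjTranspose_vecMulVec]
    simp
  have hps : (P • (1 : Matrix ι ι ℝ) - R).PosSemidef := by
    refine PosSemidef.of_dotProduct_mulVec_nonneg ?_ fun θ => ?_
    · exact (isHermitian_one.smul (by simp [IsSelfAdjoint])).sub hRs
    · rw [star_trivial, sub_mulVec, dotProduct_sub, hRf, smul_mulVec, one_mulVec,
        dotProduct_smul, smul_eq_mul]
      linarith [hv θ]
  have h1 := H420.trace_mul_nonneg hG hps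
  rw [Matrix.mul_sub, trace_sub, Matrix.mul_smul, Matrix.mul_one, trace_smul, smul_eq_mul] at h1
  have h2 : (G * R).trace = ∑ x ∈ s, v x ⬝ᵥ G *ᵥ v x := by
    rw [hR, Matrix.mul_sum, trace_sum]
    refine sum_congr rfl fun x _ => ?_
    rw [mul_vecMulVec, trace_vecMulVec, dotProduct_comm]
  linarith

/-! ### The energies over the nodes -/

section nodes

variable {l P : ℝ} {K : ℕ} {M : Pt} {G Kq : ℤ → ℕ → ℤ → Matrix ι ι ℝ} {v : ℤ → ℤ → ι → ℝ}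

/-- **The energy of the flow slot over the nodes, real ties**, weight `K`. -/
theorem xi_nodes (o : ℤ) (hT : ∀ x1 ∈ iv K M.1, Tr l K (G x1) (Kq x1))
    (hv : ∀ x1 ∈ iv K M.1, ∀ θ : ι → ℝ, ∑ x3 ∈ iv K M.2.2, (θ ⬝ᵥ v x1 x3) ^ 2 ≤ P * (θ ⬝ᵥ θ)) :
    ∑ k ∈ Icc 1 K, ∑ m ∈ cbs K M k, ∑ _x0 ∈ iv k (bx0 o m).1, ∑ x1 ∈ iv k m.1,
      ∑ x3 ∈ iv k m.2.2, H483.xiT l (Kq x1) (v x1 x3) k m.2.1 ⬝ᵥ
        Kq x1 k m.2.1 *ᵥ H483.xiT l (Kq x1) (v x1 x3) k m.2.1 ≤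
    2 ^ K * ((2 * √l)⁻¹ * (P * ∑ x1 ∈ iv K M.1, (G x1 K M.2.1).trace)) := by
  rw [node_sum o K M (fun k m2 x1 x3 => H483.xiT l (Kq x1) (v x1 x3) k m2 ⬝ᵥ
        Kq x1 k m2 *ᵥ H483.xiT l (Kq x1) (v x1 x3) k m2)]
  refine mul_le_mul_of_nonneg_left ?_ (by positivity)
  rw [mul_sum, mul_sum]
  refine sum_le_sum fun x1 h1 => ?_
  have h2 : ∀ x3 ∈ iv K M.2.2, H420.tsum (fun k m2 => H483.xiT l (Kq x1) (v x1 x3) k m2 ⬝ᵥ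
      Kq x1 k m2 *ᵥ H483.xiT l (Kq x1) (v x1 x3) k m2) K M.2.1 ≤
      (2 * √l)⁻¹ * (v x1 x3 ⬝ᵥ G x1 K M.2.1 *ᵥ v x1 x3) := fun x3 _ =>
    H483.xi_tree (hT x1 h1) (v x1 x3) le_rfl M.2.1
  refine (sum_le_sum h2).trans ?_
  rw [← mul_sum]
  refine mul_le_mul_of_nonneg_left ?_ (by positivity)
  exact sum_form_le _ _ (hv x1 h1) ((hT x1 h1).psG K M.2.1)

omit [DecidableEq ι] in
theorem dot_self_nonneg (x : ι → ℝ) : 0 ≤ x ⬝ᵥ x := by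
  simpa [dotProduct] using Finset.sum_nonneg fun i _ => mul_self_nonneg (x i)

/-- **The energy of the flow slot on the tree at fixed `(x₁, x₃)`**, no weight:
`SUM |ξ|² ≤ ⟪v, G_top v⟫ / (2 l)`. -/
theorem xi_tree' {l : ℝ} {n : ℕ} {G K : ℕ → ℤ → Matrix ι ι ℝ} (h : Tr l n G K) (v : ι → ℝ)
    {k : ℕ} (hk : k ≤ n) (m : ℤ) :
    H420.tsum (fun j i => H483.xiT l K v j i ⬝ᵥ H483.xiT l K v j i) k m ≤
      (2 * l)⁻¹ * (v ⬝ᵥ G k m *ᵥ v) := by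
  have hl := h.l_pos
  have hs : 0 < √l := Real.sqrt_pos.2 hl
  have h1 : H420.tsum (fun j i => H483.xiT l K v j i ⬝ᵥ H483.xiT l K v j i) k m ≤
      H420.tsum (fun j i => (√l)⁻¹ * (H483.xiT l K v j i ⬝ᵥ K j i *ᵥ H483.xiT l K v j i)) k m := by
    refine H483.tsum_mono (n := n) (fun j _ i => ?_) k hk m
    have h2 := H186.sqrt_le_form (h.pdK (j + 1) i).posSemidef (h.psG (j + 1) i) hl.le
      (h.sq (j + 1) i) (H483.xiT l K v (j + 1) i)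
    rw [le_inv_mul_iff₀ hs]
    exact h2
  refine h1.trans ?_
  have h2 : ∀ (f : ℕ → ℤ → ℝ) (c : ℝ) (k : ℕ) (m : ℤ),
      H420.tsum (fun j i => c * f j i) k m = c * H420.tsum f k m := by
    intro f c k
    induction k with
    | zero => intro m; simp [H420.tsum]
    | succ k ih => intro m; simp only [H420.tsum, ih]; ring
  rw [h2]
  have h3 := mul_le_mul_of_nonneg_left (H483.xi_tree h v hk m) (inv_pos.2 hs).le
  refine h3.trans (le_of_eq ?_)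
  rw [← mul_assoc, ← mul_inv]
  congr 2
  have := Real.mul_self_sqrt hl.le
  calc √l * (2 * √l) = 2 * (√l * √l) := by ring
    _ = 2 * l := by rw [this]

/-- **The energy of the flow slot over the nodes, real ties**, with a weight of bounded
`x₀`-line averages (`W = 1`, `e = 1` or `W = Z²`). -/
theorem xi_nodes_le (o : ℤ) (hT : ∀ x1 ∈ iv K M.1, Tr l K (G x1) (Kq x1))
    (hv : ∀ x1 ∈ iv K M.1, ∀ θ : ι → ℝ, ∑ x3 ∈ iv K M.2.2, (θ ⬝ᵥ v x1 x3) ^ 2 ≤ P * (θ ⬝ᵥ θ))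
    {W : ℤ → ℤ → ℤ → ℝ} {e : ℝ} (he : 0 ≤ e)
    (hW : ∀ k ≤ K, ∀ j x1 x3, ∑ x0 ∈ iv k j, W x0 x1 x3 ≤ e * 2 ^ k) :
    ∑ k ∈ Icc 1 K, ∑ m ∈ cbs K M k, ∑ x0 ∈ iv k (bx0 o m).1, ∑ x1 ∈ iv k m.1,
      ∑ x3 ∈ iv k m.2.2, W x0 x1 x3 * (H483.xiT l (Kq x1) (v x1 x3) k m.2.1 ⬝ᵥ
        H483.xiT l (Kq x1) (v x1 x3) k m.2.1) ≤
    e * (2 ^ K * ((2 * l)⁻¹ * (P * ∑ x1 ∈ iv K M.1, (G x1 K M.2.1).trace))) := by
  refine (node_sum_le o K M (Φ := fun k m2 x1 x3 => H483.xiT l (Kq x1) (v x1 x3) k m2 ⬝ᵥ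
    H483.xiT l (Kq x1) (v x1 x3) k m2) (fun _ _ _ _ => dot_self_nonneg _) hW).trans ?_
  refine mul_le_mul_of_nonneg_left (mul_le_mul_of_nonneg_left ?_ (by positivity)) he
  rw [mul_sum, mul_sum]
  refine sum_le_sum fun x1 h1 => ?_
  have hl := (hT x1 h1).l_pos
  have h2 : ∀ x3 ∈ iv K M.2.2, H420.tsum (fun k m2 => H483.xiT l (Kq x1) (v x1 x3) k m2 ⬝ᵥ
      H483.xiT l (Kq x1) (v x1 x3) k m2) K M.2.1 ≤
      (2 * l)⁻¹ * (v x1 x3 ⬝ᵥ G x1 K M.2.1 *ᵥ v x1 x3) := fun x3 _ =>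
    xi_tree' (hT x1 h1) (v x1 x3) le_rfl M.2.1
  refine (sum_le_sum h2).trans ?_
  rw [← mul_sum]
  refine mul_le_mul_of_nonneg_left ?_ (by positivity)
  exact sum_form_le _ _ (hv x1 h1) ((hT x1 h1).psG K M.2.1)

/-- **The Hilbert-Schmidt mass of the flow matrix over the nodes, real ties.** -/
theorem SS_nodes (o : ℤ) (hT : ∀ x1 ∈ iv K M.1, Tr l K (G x1) (Kq x1)) :
    ∑ k ∈ Icc 1 K, ∑ m ∈ cbs K M k, ∑ _x0 ∈ iv k (bx0 o m).1, ∑ x1 ∈ iv k m.1,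
      ∑ _x3 ∈ iv k m.2.2, l * ((Kq x1 k m.2.1)⁻¹ *
        H420.Nd.dK (Kq x1 (k - 1) (2 * m.2.1)) (Kq x1 (k - 1) (2 * m.2.1 + 1)) *
        (Kq x1 k m.2.1)⁻¹ * ((Kq x1 k m.2.1)⁻¹ *
        H420.Nd.dK (Kq x1 (k - 1) (2 * m.2.1)) (Kq x1 (k - 1) (2 * m.2.1 + 1)) *
        (Kq x1 k m.2.1)⁻¹)).trace ≤
    4 ^ K * (l⁻¹ * ∑ x1 ∈ iv K M.1, (G x1 K M.2.1).trace) := by
  rw [node_sum o K M (fun k m2 x1 _ => l * ((Kq x1 k m2)⁻¹ *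
        H420.Nd.dK (Kq x1 (k - 1) (2 * m2)) (Kq x1 (k - 1) (2 * m2 + 1)) *
        (Kq x1 k m2)⁻¹ * ((Kq x1 k m2)⁻¹ *
        H420.Nd.dK (Kq x1 (k - 1) (2 * m2)) (Kq x1 (k - 1) (2 * m2 + 1)) *
        (Kq x1 k m2)⁻¹)).trace)]
  have e4 : (4 : ℝ) ^ K = 2 ^ K * 2 ^ K := by rw [← mul_pow]; norm_num
  rw [e4, mul_assoc]
  refine mul_le_mul_of_nonneg_left ?_ (by positivity)
  rw [mul_sum, mul_sum]
  refine sum_le_sum fun x1 h1 => ?_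
  refine (sum_le_sum fun x3 _ => SS_tree (hT x1 h1) le_rfl M.2.1).trans (le_of_eq ?_)
  rw [sum_const, card_iv, nsmul_eq_mul]
  push_cast
  ring

/-- **The energy of the increments** `ρ = √l (K⁻¹ - K'⁻¹) v` of `v - √l K⁻¹ v` over the nodes
(weight = the square root of the child), real ties. -/
theorem rho_nodes (o : ℤ) (hT : ∀ x1 ∈ iv K M.1, Tr l K (G x1) (Kq x1))
    (hv : ∀ x1 ∈ iv K M.1, ∀ θ : ι → ℝ, ∑ x3 ∈ iv K M.2.2, (θ ⬝ᵥ v x1 x3) ^ 2 ≤ P * (θ ⬝ᵥ θ)) :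
    ∑ k ∈ Icc 1 K, ∑ m ∈ cbs K M k, ∑ _x0 ∈ iv k (bx0 o m).1, ∑ x1 ∈ iv k m.1,
      ∑ x3 ∈ iv k m.2.2, (1 / 2) *
      ((√l • ((Kq x1 k m.2.1)⁻¹ *ᵥ v x1 x3 - (Kq x1 (k - 1) (2 * m.2.1))⁻¹ *ᵥ v x1 x3)) ⬝ᵥ
          Kq x1 (k - 1) (2 * m.2.1) *ᵥ
          (√l • ((Kq x1 k m.2.1)⁻¹ *ᵥ v x1 x3 - (Kq x1 (k - 1) (2 * m.2.1))⁻¹ *ᵥ v x1 x3)) +
        (√l • ((Kq x1 k m.2.1)⁻¹ *ᵥ v x1 x3 - (Kq x1 (k - 1) (2 * m.2.1 + 1))⁻¹ *ᵥ v x1 x3)) ⬝ᵥ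
          Kq x1 (k - 1) (2 * m.2.1 + 1) *ᵥ
          (√l • ((Kq x1 k m.2.1)⁻¹ *ᵥ v x1 x3 - (Kq x1 (k - 1) (2 * m.2.1 + 1))⁻¹ *ᵥ v x1 x3))) ≤
    2 ^ K * ((2 * √l)⁻¹ * (P * ∑ x1 ∈ iv K M.1, (G x1 K M.2.1).trace)) := by
  rw [node_sum o K M (fun k m2 x1 x3 => (1 / 2) *
      ((√l • ((Kq x1 k m2)⁻¹ *ᵥ v x1 x3 - (Kq x1 (k - 1) (2 * m2))⁻¹ *ᵥ v x1 x3)) ⬝ᵥ
          Kq x1 (k - 1) (2 * m2) *ᵥ
          (√l • ((Kq x1 k m2)⁻¹ *ᵥ v x1 x3 - (Kq x1 (k - 1) (2 * m2))⁻¹ *ᵥ v x1 x3)) +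
        (√l • ((Kq x1 k m2)⁻¹ *ᵥ v x1 x3 - (Kq x1 (k - 1) (2 * m2 + 1))⁻¹ *ᵥ v x1 x3)) ⬝ᵥ
          Kq x1 (k - 1) (2 * m2 + 1) *ᵥ
          (√l • ((Kq x1 k m2)⁻¹ *ᵥ v x1 x3 - (Kq x1 (k - 1) (2 * m2 + 1))⁻¹ *ᵥ v x1 x3))))]
  refine mul_le_mul_of_nonneg_left ?_ (by positivity)
  rw [mul_sum, mul_sum]
  refine sum_le_sum fun x1 h1 => ?_
  refine (sum_le_sum fun x3 _ => H483.rho_tree (hT x1 h1) (v x1 x3) le_rfl M.2.1).trans ?_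
  rw [← mul_sum]
  refine mul_le_mul_of_nonneg_left ?_ (by positivity)
  exact sum_form_le _ _ (hv x1 h1) ((hT x1 h1).psG K M.2.1)

end nodes

end

end Vale.Agent.P141.H922
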