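import Vale.Agent.P141.H347.Cell1

/-!
# P141, line W: heights of the residual paths (module FLOOR, abstract part)

If the atoms of the system are bounded by `K` times the density of their (local) weight, the
residuals are bounded pointwise: `|V k x| ≤ |F x| + K * (local mass at the cell of x)`.
No stopping rule and no maximal function is involved.
-/

namespace Vale.Agent.P141.H922

open Finset Vale.Agent.P141.H315 Vale.Agent.P141.PL.H318 Vale.Agent.P141.H347

noncomputable section

variable {X ι : Type*} {g : Grid X} {S : CSys g ι}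

/-- the atoms are bounded by `K` times the density of their weight -/
def SupB (S : CSys g ι) (K : ℝ) : Prop := ∀ k x i, ∀ y ∈ g.cube k x,
  |S.a k i y| * (g.cube k x).card ≤ K * S.W k (g.cube k x) i

/-- the atoms are bounded by `K` times the density of their local weight -/
def SupW (w : LW S) (K : ℝ) : Prop := ∀ j k x i, k ≤ j → |S.a j i x| ≤ K * w.ω j k x i

theorem abs_cF_le (S : CSys g ι) (k : ℕ) (m : ι →₀ ℝ) (x : X) :
    |cF S k m x| ≤ m.sum fun i b => |b| * |S.a k i x| := by
  have e : cF S k m x = m.sum fun i b => b * S.a k i x := by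
    unfold cF bsum
    rw [Finsupp.sum_apply']
    rfl
  rw [e]
  unfold Finsupp.sum
  refine (Finset.abs_sum_le_sum_abs _ _).trans (le_of_eq ?_)
  exact Finset.sum_congr rfl fun i _ => abs_mul _ _

theorem abs_birth_le {K : ℝ} (h : SupB S K) (k : ℕ) (G : X → ℝ) (x : X) :
    |birth S k G x| ≤ K * den S k G x := by
  have hc : (0 : ℝ) < (g.cube k x).card := by
    exact_mod_cast Finset.card_pos.mpr ⟨x, g.mem k x⟩
  refine (abs_cF_le S k _ x).trans ?_
  unfold den cW bcost
  rw [mul_div_assoc', le_div_iff₀ hc]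
  unfold Finsupp.sum
  rw [Finset.sum_mul, Finset.mul_sum]
  refine Finset.sum_le_sum fun i _ => ?_
  have := mul_le_mul_of_nonneg_left (h k x i x (g.mem k x))
    (abs_nonneg ((bm S k G (g.cube k x)) i))
  calc _ = |(bm S k G (g.cube k x)) i| * (|S.a k i x| * (g.cube k x).card) := by ring
    _ ≤ _ := this
    _ = _ := by ring

theorem abs_birth_le_lden {w : LW S} {K : ℝ} (h : SupW w K) {j k : ℕ} (hkj : k ≤ j) (G : X → ℝ)
    (x : X) : |birth S j G x| ≤ K * lden w j k G x := by
  refine (abs_cF_le S j _ x).trans ?_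
  unfold lden Finsupp.sum
  rw [Finset.mul_sum]
  refine Finset.sum_le_sum fun i _ => ?_
  have := mul_le_mul_of_nonneg_left (h j k x i hkj) (abs_nonneg ((bm S j G (g.cube j x)) i))
  calc _ ≤ _ := this
    _ = _ := by ring

/-- pathwise bound for births-only chains -/
theorem chain_abs_le {K : ℝ} (h : SupB S K) {V : ℕ → X → ℝ} {k l : ℕ} (hV : IsChain' S k l V)
    (hkl : k ≤ l) (x : X) :
    |V k x| ≤ |V l x| + K * ∑ j ∈ Ico k l, den S j (V (j + 1)) x := by
  have e := hV.eq_add_births hkl x
  have e1 : V k x = V l x - ∑ j ∈ Ico k l, birth S j (V (j + 1)) x := by rw [e]; ring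
  rw [e1, mul_sum]
  refine (abs_sub _ _).trans ?_
  refine add_le_add le_rfl ((abs_sum_le_sum_abs _ _).trans ?_)
  exact sum_le_sum fun j _ => abs_birth_le h j _ x

open scoped Classical

section pth

variable {w : LW S} {L : ℕ} {e : ℝ} {F : X → ℝ} {gd : ℕ → X → Prop} {V H : ℕ → X → ℝ}
  {rs : ℕ → X → Prop} {lm : ℕ → X → ℝ}

/-- the residual is the top value minus the births alive -/
theorem pth_eq (P : Pth w L e F gd V H rs lm) (hgd : ∀ k < L, ∀ x, gd k x → gd (k + 1) x) :
    ∀ k ≤ L, ∀ x, gd k x → V k x = F x - ∑ j ∈ Ico k (L + 1),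
      if (∀ i, k ≤ i → i < j → ¬ rs i x) then birth S j (H j) x else 0 := by
  suffices h : ∀ d k, k + d = L → ∀ x, gd k x → V k x = F x - ∑ j ∈ Ico k (L + 1),
      if (∀ i, k ≤ i → i < j → ¬ rs i x) then birth S j (H j) x else 0 from
    fun k hk => h (L - k) k (by omega)
  intro d
  induction d with
  | zero =>
    intro k hk x hx
    obtain rfl : k = L := by omega
    rw [P.step k le_rfl x hx]
    have e1 : Ico k (k + 1) = {k} := by ext j; simp
    rw [e1, sum_singleton, if_pos (fun i h1 h2 => by omega)]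
    unfold T birth
    rw [P.top x]
  | succ d ih =>
    intro k hkd x hx
    have hk : k < L := by omega
    replace ih := ih (k + 1) (by omega)
    have hV : V k x = H k x - birth S k (H k) x := by
      rw [P.step k (by omega) x hx]; rfl
    have hsplit : ∀ f : ℕ → ℝ, ∑ j ∈ Ico k (L + 1), f j = f k + ∑ j ∈ Ico (k + 1) (L + 1), f j :=
      fun f => sum_eq_sum_Ico_succ_bot (by omega) f
    rw [hsplit, if_pos (fun i h1 h2 => by omega), hV]
    by_cases hr : rs k x
    · rw [P.restart k x hr, sum_eq_zero]
      · ring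
      · intro j hj
        rw [mem_Ico] at hj
        rw [if_neg]
        intro h
        exact h k le_rfl (by omega) hr
    · rw [P.keep k (by omega) x hx hr, ih x (hgd k (by omega) x hx)]
      have e2 : ∑ j ∈ Ico (k + 1) (L + 1),
          (if (∀ i, k ≤ i → i < j → ¬ rs i x) then birth S j (H j) x else 0) =
          ∑ j ∈ Ico (k + 1) (L + 1),
          (if (∀ i, k + 1 ≤ i → i < j → ¬ rs i x) then birth S j (H j) x else 0) := by
        refine sum_congr rfl fun j _ => ?_
        congr 1
        apply propext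
        constructor
        · intro h i h1 h2
          exact h i (by omega) h2
        · intro h i h1 h2
          rcases Nat.eq_or_lt_of_le h1 with rfl | h3
          · exact hr
          · exact h i h3 h2
      rw [e2]
      ring

/-- **HEIGHTS.** -/
theorem pth_abs_le (P : Pth w L e F gd V H rs lm) (hgd : ∀ k < L, ∀ x, gd k x → gd (k + 1) x)
    {K : ℝ} (hw : SupW w K) {k : ℕ} (hk : k ≤ L) {x : X} (hx : gd k x) :
    |V k x| ≤ |F x| + K * lm k x := by
  rw [pth_eq P hgd k hk x hx, P.lm_eq k hk x hx, mul_sum]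
  refine (abs_sub _ _).trans (add_le_add le_rfl ((abs_sum_le_sum_abs _ _).trans ?_))
  refine sum_le_sum fun j hj => ?_
  rw [mem_Ico] at hj
  split_ifs
  · exact abs_birth_le_lden hw hj.1 _ x
  · simp

theorem pth_abs_le' (P : Pth w L e F gd V H rs lm) (hgd : ∀ k < L, ∀ x, gd k x → gd (k + 1) x)
    {K : ℝ} (hK : 0 ≤ K) (hw : SupW w K) {k : ℕ} (hk : k ≤ L) {x : X} (hx : gd k x) :
    |V k x| ≤ |F x| + 16 * e * K := by
  have h1 := pth_abs_le P hgd hw hk hx
  have h2 := mul_le_mul_of_nonneg_left (P.mass k hk x hx) hK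
  linarith

end pth

end

end Vale.Agent.P141.H922
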