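import Mathlib

/-!
# P141, line (A): the Haar shift lemma (two dyadic grids on the line)

`S` an antiderivative of `f : ℤ → ℝ`; `F k m` the average of `f` over the cell `(k, m)`; a second
nested grid with the cells `[2 ^ k m + t k, 2 ^ k (m + 1) + t k)`, `|t k| ≤ 2 · 2 ^ k`.

* `haar_shift` : `SUM_(k ≤ n) 2 ^ k SUM_m (F k m - average over the shifted cell) ^ 2 ≤ 700 SUM f ^ 2`.

Proof: neighbour differences contract by `3 / 4` downwards, the half cell sums `Er` (the error of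
the piecewise linear interpolation of `S`) contract by `3 / 4` upwards.
-/

namespace Vale.Agent.P141.H922.Sh

open Finset
open scoped ENNReal

noncomputable section

/-- squares in `[0, ∞]` -/
def sq (x : ℝ) : ℝ≥0∞ := ENNReal.ofReal (x ^ 2)

/-- the sum over the line -/
def sm (h : ℤ → ℝ) : ℝ≥0∞ := ∑' m : ℤ, sq (h m)

theorem sm_shift (h : ℤ → ℝ) (i : ℤ) : sm (fun m => h (m + i)) = sm h :=
  (Equiv.addRight i).tsum_eq (fun m => sq (h m))

theorem sq_nat (c : ℕ) (x : ℝ) : (c : ℝ≥0∞) * sq x = ENNReal.ofReal (c * x ^ 2) := by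
  unfold sq
  rw [ENNReal.ofReal_mul (Nat.cast_nonneg c), ENNReal.ofReal_natCast]

/-- comparison of sums, natural constants -/
theorem sm_le3 {h g r u : ℤ → ℝ} (c a b d : ℕ)
    (H : ∀ m, (c : ℝ) * h m ^ 2 ≤ a * g m ^ 2 + b * r m ^ 2 + d * u m ^ 2) :
    (c : ℝ≥0∞) * sm h ≤ a * sm g + b * sm r + d * sm u := by
  unfold sm
  rw [← ENNReal.tsum_mul_left, ← ENNReal.tsum_mul_left, ← ENNReal.tsum_mul_left,
    ← ENNReal.tsum_mul_left, ← ENNReal.tsum_add, ← ENNReal.tsum_add]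
  refine ENNReal.tsum_le_tsum fun m => ?_
  rw [sq_nat, sq_nat, sq_nat, sq_nat, ← ENNReal.ofReal_add (by positivity) (by positivity),
    ← ENNReal.ofReal_add (by positivity) (by positivity)]
  exact ENNReal.ofReal_le_ofReal (H m)

theorem sm_le2 {h g r : ℤ → ℝ} (c a b : ℕ)
    (H : ∀ m, (c : ℝ) * h m ^ 2 ≤ a * g m ^ 2 + b * r m ^ 2) :
    (c : ℝ≥0∞) * sm h ≤ a * sm g + b * sm r := by
  have := sm_le3 (h := h) (g := g) (r := r) (u := fun _ => 0) c a b 0 fun m => by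
    have := H m
    simpa using this
  simpa using this

theorem tsum_even_odd (h : ℤ → ℝ≥0∞) :
    ∑' m : ℤ, h m = ∑' m : ℤ, h (2 * m) + ∑' m : ℤ, h (2 * m + 1) := by
  have e := (Int.divModEquiv 2).symm.tsum_eq h
  rw [← e, ENNReal.tsum_prod', ← ENNReal.tsum_add]
  refine tsum_congr fun m => ?_
  rw [tsum_fintype, Fin.sum_univ_two]
  simp only [Int.divModEquiv, Equiv.coe_fn_symm_mk]
  congr 2 <;> simp <;> ring

theorem sm_even_odd (h : ℤ → ℝ) :
    sm h = sm (fun m => h (2 * m)) + sm fun m => h (2 * m + 1) :=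
  tsum_even_odd fun m => sq (h m)

theorem sm_inj {h : ℤ → ℝ} {φ : ℤ → ℤ} (hφ : Function.Injective φ) :
    sm (fun m => h (φ m)) ≤ sm h :=
  ENNReal.tsum_comp_le_tsum_of_injective hφ fun m => sq (h m)

/-! ### Averages -/

/-- the average over the cell `(k, m)` -/
def Fa (S : ℤ → ℝ) (k : ℕ) (m : ℤ) : ℝ := (S (2 ^ k * (m + 1)) - S (2 ^ k * m)) / 2 ^ k

/-- the Haar coefficient of the cell `(k + 1, m)` -/
def dF (S : ℤ → ℝ) (k : ℕ) (m : ℤ) : ℝ := (Fa S k (2 * m) - Fa S k (2 * m + 1)) / 2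

theorem Fa_mean (S : ℤ → ℝ) (k : ℕ) (m : ℤ) :
    Fa S (k + 1) m = (Fa S k (2 * m) + Fa S k (2 * m + 1)) / 2 := by
  unfold Fa
  have e1 : (2 : ℤ) ^ (k + 1) * (m + 1) = 2 ^ k * (2 * m + 1 + 1) := by ring
  have e2 : (2 : ℤ) ^ (k + 1) * m = 2 ^ k * (2 * m) := by ring
  rw [e1, e2]
  have : (2 : ℝ) ^ k ≠ 0 := by positivity
  field_simp
  ring

theorem Fa_even (S : ℤ → ℝ) (k : ℕ) (m : ℤ) : Fa S k (2 * m) = Fa S (k + 1) m + dF S k m := by
  rw [Fa_mean, dF]; ring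

theorem Fa_odd (S : ℤ → ℝ) (k : ℕ) (m : ℤ) : Fa S k (2 * m + 1) = Fa S (k + 1) m - dF S k m := by
  rw [Fa_mean, dF]; ring

/-- energies -/
theorem EE (S : ℤ → ℝ) (k : ℕ) : sm (Fa S k) = 2 * sm (Fa S (k + 1)) + 2 * sm (dF S k) := by
  rw [sm_even_odd]
  unfold sm
  rw [← ENNReal.tsum_add, ← ENNReal.tsum_mul_left, ← ENNReal.tsum_mul_left, ← ENNReal.tsum_add]
  refine tsum_congr fun m => ?_
  show sq (Fa S k (2 * m)) + sq (Fa S k (2 * m + 1)) = _
  rw [Fa_even, Fa_odd]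
  have h0 : ∀ x : ℝ, 2 * sq x = ENNReal.ofReal (2 * x ^ 2) := fun x => by
    have := sq_nat 2 x
    push_cast at this
    exact this
  rw [h0, h0]
  unfold sq
  rw [← ENNReal.ofReal_add (by positivity) (by positivity),
    ← ENNReal.ofReal_add (by positivity) (by positivity)]
  congr 1
  ring

/-- neighbour differences -/
def nb (S : ℤ → ℝ) (k : ℕ) (m : ℤ) : ℝ := Fa S k (m + 1) - Fa S k m

theorem NN (S : ℤ → ℝ) (k : ℕ) : 2 * sm (nb S k) ≤ 3 * sm (nb S (k + 1)) + 32 * sm (dF S k) := by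
  rw [sm_even_odd, mul_add]
  have h1 : (2 : ℕ) * sm (fun m => nb S k (2 * m)) ≤ (8 : ℕ) * sm (dF S k) + (0 : ℕ) * sm (dF S k) :=
    sm_le2 2 8 0 fun m => by
      have e : nb S k (2 * m) = -2 * dF S k m := by
        unfold nb; rw [Fa_even, Fa_odd]; ring
      rw [e]; push_cast; nlinarith
  have h2 : (2 : ℕ) * sm (fun m => nb S k (2 * m + 1)) ≤ (3 : ℕ) * sm (nb S (k + 1)) +
      (12 : ℕ) * sm (dF S k) + (12 : ℕ) * sm (fun m => dF S k (m + 1)) :=
    sm_le3 2 3 12 12 fun m => by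
      have e : nb S k (2 * m + 1) = nb S (k + 1) m + (dF S k m + dF S k (m + 1)) := by
        unfold nb
        have e1 : (2 : ℤ) * m + 1 + 1 = 2 * (m + 1) := by ring
        rw [e1, Fa_even, Fa_odd]; ring
      rw [e]
      push_cast
      nlinarith [sq_nonneg (nb S (k + 1) m - 2 * (dF S k m + dF S k (m + 1))),
        sq_nonneg (dF S k m - dF S k (m + 1))]
  rw [sm_shift (dF S k) 1] at h2
  have h3 := add_le_add h1 h2
  push_cast at h3
  refine h3.trans (le_of_eq ?_)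
  ring

theorem NN_top (S : ℤ → ℝ) (k : ℕ) : sm (nb S k) ≤ 4 * sm (Fa S k) := by
  have h : (1 : ℕ) * sm (nb S k) ≤ (2 : ℕ) * sm (fun m => Fa S k (m + 1)) + (2 : ℕ) * sm (Fa S k) :=
    sm_le2 1 2 2 fun m => by
      unfold nb
      push_cast
      nlinarith [sq_nonneg (Fa S k (m + 1) + Fa S k m)]
  rw [sm_shift (Fa S k) 1] at h
  push_cast at h
  rw [one_mul] at h
  refine h.trans (le_of_eq ?_)
  ring

theorem nb2 (S : ℤ → ℝ) (k : ℕ) : sm (fun m => Fa S k (m + 2) - Fa S k m) ≤ 4 * sm (nb S k) := by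
  have h : (1 : ℕ) * sm (fun m => Fa S k (m + 2) - Fa S k m) ≤
      (2 : ℕ) * sm (fun m => nb S k (m + 1)) + (2 : ℕ) * sm (nb S k) :=
    sm_le2 1 2 2 fun m => by
      have e : Fa S k (m + 2) - Fa S k m = nb S k (m + 1) + nb S k m := by
        unfold nb
        have : m + 1 + 1 = m + 2 := by ring
        rw [this]; ring
      rw [e]
      push_cast
      nlinarith [sq_nonneg (nb S k (m + 1) - nb S k m)]
  rw [sm_shift (nb S k) 1] at h
  push_cast at h
  rw [one_mul] at h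
  refine h.trans (le_of_eq ?_)
  ring

theorem sm_neg (h : ℤ → ℝ) : sm (fun m => -h m) = sm h := by
  unfold sm sq; simp

/-- differences of cells at distance at most `2` -/
theorem nbi (S : ℤ → ℝ) (k : ℕ) {i : ℤ} (h1 : -2 ≤ i) (h2 : i ≤ 2) :
    sm (fun m => Fa S k (m + i) - Fa S k m) ≤ 4 * sm (nb S k) := by
  have hle : sm (nb S k) ≤ 4 * sm (nb S k) := by
    calc sm (nb S k) = 1 * sm (nb S k) := (one_mul _).symm
      _ ≤ 4 * sm (nb S k) := by gcongr; norm_num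
  obtain rfl | rfl | rfl | rfl | rfl : i = -2 ∨ i = -1 ∨ i = 0 ∨ i = 1 ∨ i = 2 := by omega
  · have e := sm_shift (fun m => -(Fa S k (m + 2) - Fa S k m)) (-2)
    rw [sm_neg (fun m => Fa S k (m + 2) - Fa S k m)] at e
    have e2 : (fun m : ℤ => -(Fa S k (m + -2 + 2) - Fa S k (m + -2))) =
        fun m => Fa S k (m + -2) - Fa S k m := by
      funext m
      have : m + -2 + 2 = m := by ring
      rw [this]; ring
    rw [e2] at e
    rw [e]; exact nb2 S k
  · have e := sm_shift (fun m => -(nb S k m)) (-1)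
    rw [sm_neg (nb S k)] at e
    have e2 : (fun m : ℤ => -(nb S k (m + -1))) = fun m => Fa S k (m + -1) - Fa S k m := by
      funext m
      unfold nb
      have : m + -1 + 1 = m := by ring
      rw [this]; ring
    rw [e2] at e
    rw [e]; exact hle
  · simp [sm, sq]
  · exact hle
  · exact nb2 S k

/-! ### The half cell sums -/

/-- the error of the linear interpolation of `S` at scale `k` -/
def Er (S : ℤ → ℝ) (k : ℕ) (x : ℤ) : ℝ :=
  S x - (S (2 ^ k * (x / 2 ^ k)) + ((x : ℝ) - 2 ^ k * ((x / 2 ^ k : ℤ) : ℝ)) * Fa S k (x / 2 ^ k))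

theorem Er_zero (S : ℤ → ℝ) (x : ℤ) : Er S 0 x = 0 := by
  unfold Er
  simp

theorem Fa_mul (S : ℤ → ℝ) (k : ℕ) (m : ℤ) :
    S (2 ^ k * (m + 1)) = S (2 ^ k * m) + 2 ^ k * Fa S k m := by
  unfold Fa
  have : (2 : ℝ) ^ k ≠ 0 := by positivity
  field_simp
  ring

theorem Er_succ (S : ℤ → ℝ) (k : ℕ) (x : ℤ) :
    |Er S (k + 1) x| ≤ |Er S k x| + 2 ^ k * |dF S k (x / 2 ^ (k + 1))| := by
  have hp : (0 : ℤ) < 2 ^ k := by positivity
  have hpr : (0 : ℝ) < 2 ^ k := by positivity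
  obtain ⟨a, ha⟩ : ∃ a, a = x / 2 ^ k := ⟨_, rfl⟩
  have hb : x / 2 ^ (k + 1) = a / 2 := by
    rw [ha, Int.ediv_ediv_of_nonneg (by positivity), pow_succ]
  have hr0 : 0 ≤ x - 2 ^ k * a := by
    rw [ha]; have := Int.mul_ediv_self_le (x := x) (k := 2 ^ k) hp.ne'; linarith
  have hr1 : x - 2 ^ k * a < 2 ^ k := by
    rw [ha]; have := Int.lt_mul_ediv_self_add (x := x) (k := 2 ^ k) hp; linarith
  have hr0' : (0 : ℝ) ≤ (x : ℝ) - 2 ^ k * (a : ℝ) := by exact_mod_cast hr0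
  have hr1' : (x : ℝ) - 2 ^ k * (a : ℝ) ≤ 2 ^ k := by exact_mod_cast hr1.le
  obtain ⟨b, hb'⟩ : ∃ b, b = a / 2 := ⟨_, rfl⟩
  have key : ∃ r : ℝ, |r| ≤ 2 ^ k ∧ Er S (k + 1) x = Er S k x + r * dF S k b := by
    rcases Int.even_or_odd' a with ⟨c, hc | hc⟩
    · have hcb : b = c := by omega
      subst hcb
      refine ⟨(x : ℝ) - 2 ^ k * (a : ℝ), by rw [abs_of_nonneg hr0']; exact hr1', ?_⟩
      unfold Er
      rw [hb, ← hb', ← ha, hc]
      have e1 : (2 : ℤ) ^ (k + 1) * b = 2 ^ k * (2 * b) := by ring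
      rw [e1]
      have e2 := Fa_even S k b
      rw [e2]
      push_cast
      ring
    · have hcb : b = c := by omega
      subst hcb
      refine ⟨2 ^ k - ((x : ℝ) - 2 ^ k * (a : ℝ)), ?_, ?_⟩
      · rw [abs_of_nonneg (by linarith)]; linarith
      unfold Er
      rw [hb, ← hb', ← ha, hc]
      have e1 : (2 : ℤ) ^ (k + 1) * b = 2 ^ k * (2 * b) := by ring
      rw [e1]
      have e2 := Fa_mul S k (2 * b)
      have e3 := Fa_even S k b
      have e4 := Fa_odd S k b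
      rw [e3] at e2
      rw [e2, e4]
      push_cast
      ring
  obtain ⟨r, h1, h2⟩ := key
  rw [h2, hb, ← hb']
  calc |Er S k x + r * dF S k b| ≤ |Er S k x| + |r * dF S k b| := abs_add_le _ _
    _ ≤ |Er S k x| + 2 ^ k * |dF S k b| := by
      rw [abs_mul]
      gcongr

/-- the half cell sums at the points of the second grid -/
def hs (S : ℤ → ℝ) (t : ℕ → ℤ) (k : ℕ) (m : ℤ) : ℝ := Er S k (2 ^ k * m + t k) / 2 ^ k

theorem HH (S : ℤ → ℝ) {t : ℕ → ℤ} {k : ℕ} {s : ℤ} (hs' : t k = t (k + 1) + 2 ^ k * s) :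
    8 * sm (hs S t (k + 1)) ≤ 3 * sm (hs S t k) + 6 * sm (dF S k) := by
  have h : (8 : ℕ) * sm (hs S t (k + 1)) ≤ (3 : ℕ) * sm (fun m => hs S t k (2 * m - s)) +
      (6 : ℕ) * sm (fun m => dF S k (m + t (k + 1) / 2 ^ (k + 1))) :=
    sm_le2 8 3 6 fun m => by
      have hpr : (0 : ℝ) < 2 ^ k := by positivity
      have h1 := Er_succ S k (2 ^ (k + 1) * m + t (k + 1))
      have e1 : (2 ^ (k + 1) * m + t (k + 1)) / 2 ^ (k + 1) = m + t (k + 1) / 2 ^ (k + 1) := by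
        rw [Int.add_comm, Int.add_mul_ediv_left _ _ (by positivity)]; ring
      rw [e1] at h1
      have e2 : (2 : ℤ) ^ (k + 1) * m + t (k + 1) = 2 ^ k * (2 * m - s) + t k := by
        rw [hs']; ring
      have e3 : hs S t (k + 1) m = (Er S (k + 1) (2 ^ (k + 1) * m + t (k + 1)) / 2 ^ k) / 2 := by
        unfold hs; rw [pow_succ (2 : ℝ) k]; field_simp
      set w := hs S t (k + 1) m
      set u := hs S t k (2 * m - s) with hu
      set v := dF S k (m + t (k + 1) / 2 ^ (k + 1)) with hv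
      have e4 : |Er S k (2 ^ (k + 1) * m + t (k + 1))| = 2 ^ k * |u| := by
        rw [e2, hu]; unfold hs; rw [abs_div, abs_of_pos hpr]; field_simp
      rw [e4] at h1
      have e5 : |w| ≤ (|u| + |v|) / 2 := by
        rw [e3, abs_div, abs_div, abs_of_pos hpr, abs_of_pos (by norm_num : (0 : ℝ) < 2)]
        have : |Er S (k + 1) (2 ^ (k + 1) * m + t (k + 1))| / 2 ^ k ≤ |u| + |v| := by
          rw [div_le_iff₀ hpr]; linarith
        linarith
      push_cast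
      rw [← sq_abs w, ← sq_abs u, ← sq_abs v]
      have h2 : |w| ^ 2 ≤ ((|u| + |v|) / 2) ^ 2 := pow_le_pow_left₀ (abs_nonneg _) e5 2
      nlinarith [sq_nonneg (|u| - 2 * |v|)]
  rw [sm_shift (dF S k)] at h
  have h2 : sm (fun m => hs S t k (2 * m - s)) ≤ sm (hs S t k) :=
    sm_inj (h := hs S t k) (φ := fun m => 2 * m - s) fun a b hab => by
      simp only at hab; omega
  push_cast at h
  refine h.trans ?_
  gcongr

/-- the average over the shifted cell -/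
def Fs (S : ℤ → ℝ) (t : ℕ → ℤ) (k : ℕ) (m : ℤ) : ℝ :=
  (S (2 ^ k * (m + 1) + t k) - S (2 ^ k * m + t k)) / 2 ^ k

theorem UU (S : ℤ → ℝ) {t : ℕ → ℤ} {k : ℕ} (ht : |t k| ≤ 2 * 2 ^ k) :
    sm (fun m => Fs S t k m - Fa S k m) ≤ 8 * sm (hs S t k) + 20 * sm (nb S k) := by
  have hp : (0 : ℤ) < 2 ^ k := by positivity
  have hpr : (0 : ℝ) < 2 ^ k := by positivity
  obtain ⟨i, hi⟩ : ∃ i, i = t k / 2 ^ k := ⟨_, rfl⟩
  have hi1 : -2 ≤ i := by
    rw [hi, Int.le_ediv_iff_mul_le hp]; have := (abs_le.1 ht).1; linarith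
  have hi2 : i ≤ 2 := by
    rw [hi]
    have h1 : t k < 3 * 2 ^ k := by have := (abs_le.1 ht).2; linarith
    have := Int.ediv_lt_of_lt_mul hp h1
    omega
  obtain ⟨r, hr⟩ : ∃ r, r = t k - 2 ^ k * i := ⟨_, rfl⟩
  have hr0 : 0 ≤ r := by
    rw [hr, hi]; have := Int.mul_ediv_self_le (x := t k) (k := 2 ^ k) hp.ne'; linarith
  have hr1 : r < 2 ^ k := by
    rw [hr, hi]; have := Int.lt_mul_ediv_self_add (x := t k) (k := 2 ^ k) hp; linarith
  have hr0' : (0 : ℝ) ≤ (r : ℝ) := by exact_mod_cast hr0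
  have hr1' : (r : ℝ) ≤ 2 ^ k := by exact_mod_cast hr1.le
  have ek : ∀ m : ℤ, (2 ^ k * m + t k) / 2 ^ k = m + i := by
    intro m
    rw [Int.add_comm, Int.add_mul_ediv_left _ _ hp.ne', hi]; ring
  have e : ∀ m, Fs S t k m - Fa S k m = hs S t k (m + 1) - hs S t k m +
      (Fa S k (m + i) - Fa S k m) + (r : ℝ) / 2 ^ k * (nb S k (m + i)) := by
    intro m
    unfold Fs hs Er nb
    rw [ek, ek]
    have h1 := Fa_mul S k (m + i)
    have e1 : m + 1 + i = m + i + 1 := by ring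
    have e2 : (t k : ℝ) = r + 2 ^ k * i := by rw [hr]; push_cast; ring
    rw [e1, h1]
    push_cast
    rw [e2]
    field_simp
    ring
  have h3 : (1 : ℕ) * sm (fun m => Fs S t k m - Fa S k m) ≤
      (2 : ℕ) * sm (fun m => hs S t k (m + 1) - hs S t k m) +
      (4 : ℕ) * sm (fun m => Fa S k (m + i) - Fa S k m) + (4 : ℕ) * sm (fun m => nb S k (m + i)) :=
    sm_le3 1 2 4 4 fun m => by
      rw [e m]
      have h4 : ((r : ℝ) / 2 ^ k * nb S k (m + i)) ^ 2 ≤ nb S k (m + i) ^ 2 := by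
        rw [mul_pow]
        have h5 : (r : ℝ) / 2 ^ k ≤ 1 := by rw [div_le_one hpr]; exact hr1'
        have h6 : 0 ≤ (r : ℝ) / 2 ^ k := by positivity
        have h7 : ((r : ℝ) / 2 ^ k) ^ 2 ≤ 1 := by nlinarith
        nlinarith [sq_nonneg (nb S k (m + i))]
      set x := hs S t k (m + 1) - hs S t k m
      set y := Fa S k (m + i) - Fa S k m
      set z := (r : ℝ) / 2 ^ k * nb S k (m + i)
      push_cast
      nlinarith [sq_nonneg (x - (y + z)), sq_nonneg (y - z)]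
  have h5 : (1 : ℕ) * sm (fun m => hs S t k (m + 1) - hs S t k m) ≤
      (2 : ℕ) * sm (fun m => hs S t k (m + 1)) + (2 : ℕ) * sm (hs S t k) :=
    sm_le2 1 2 2 fun m => by
      push_cast
      nlinarith [sq_nonneg (hs S t k (m + 1) + hs S t k m)]
  rw [sm_shift (hs S t k) 1] at h5
  rw [sm_shift (nb S k)] at h3
  push_cast at h3 h5
  rw [one_mul] at h3 h5
  have h6 := nbi S k hi1 hi2
  calc _ ≤ _ := h3
    _ ≤ 2 * (2 * sm (hs S t k) + 2 * sm (hs S t k)) + 4 * (4 * sm (nb S k)) + 4 * sm (nb S k) := by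
      gcongr
    _ = _ := by ring

/-! ### The sums over the scales -/

theorem sum_down : ∀ (n : ℕ) (a b : ℕ → ℝ≥0∞), (∀ k < n, 4 * a k ≤ 3 * a (k + 1) + 32 * b k) →
    ∑ k ∈ range n, a k + 3 * a 0 ≤ 3 * a n + 32 * ∑ k ∈ range n, b k := by
  intro n
  induction n with
  | zero => intro a b _; simp
  | succ n ih =>
    intro a b h
    have h1 := ih (fun k => a (k + 1)) (fun k => b (k + 1)) fun k hk => h (k + 1) (by omega)
    have h2 := h 0 (by omega)
    rw [sum_range_succ', sum_range_succ' b]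
    simp only [zero_add] at h1 h2
    calc ∑ k ∈ range n, a (k + 1) + a 0 + 3 * a 0 = ∑ k ∈ range n, a (k + 1) + 4 * a 0 := by ring
      _ ≤ ∑ k ∈ range n, a (k + 1) + (3 * a 1 + 32 * b 0) := by gcongr
      _ = (∑ k ∈ range n, a (k + 1) + 3 * a 1) + 32 * b 0 := by ring
      _ ≤ (3 * a (n + 1) + 32 * ∑ k ∈ range n, b (k + 1)) + 32 * b 0 := by gcongr
      _ = _ := by ring

theorem sum_up (n : ℕ) (a b : ℕ → ℝ≥0∞) (h0 : a 0 = 0)
    (h : ∀ k < n, 4 * a (k + 1) ≤ 3 * a k + 3 * b k) :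
    ∑ k ∈ range (n + 1), a k + 3 * a n ≤ 3 * ∑ k ∈ range n, b k := by
  induction n with
  | zero => simp [h0]
  | succ n ih =>
    have h1 := ih fun k hk => h k (by omega)
    have h2 := h n (by omega)
    rw [sum_range_succ, sum_range_succ b]
    calc ∑ k ∈ range (n + 1), a k + a (n + 1) + 3 * a (n + 1) =
        ∑ k ∈ range (n + 1), a k + 4 * a (n + 1) := by ring
      _ ≤ ∑ k ∈ range (n + 1), a k + (3 * a n + 3 * b n) := by gcongr
      _ = (∑ k ∈ range (n + 1), a k + 3 * a n) + 3 * b n := by ring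
      _ ≤ 3 * ∑ k ∈ range n, b k + 3 * b n := by gcongr
      _ = _ := by ring

theorem sum_energy (S : ℤ → ℝ) (n : ℕ) :
    sm (Fa S 0) = 2 ^ n * sm (Fa S n) + ∑ k ∈ range n, 2 ^ (k + 1) * sm (dF S k) := by
  induction n with
  | zero => simp
  | succ n ih =>
    rw [ih, EE S n, sum_range_succ]
    ring

/-- **The Haar shift lemma**, sums over the line. -/
theorem haar_shift_top (S : ℤ → ℝ) {t : ℕ → ℤ} (n : ℕ)
    (ht : ∀ k ≤ n, |t k| ≤ 2 * 2 ^ k) (hn : ∀ k < n, ∃ s, t k = t (k + 1) + 2 ^ k * s) :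
    ∑ k ∈ range (n + 1), 2 ^ k * sm (fun m => Fs S t k m - Fa S k m) ≤ 700 * sm (Fa S 0) := by
  set D := ∑ k ∈ range n, 2 ^ (k + 1) * sm (dF S k) with hD
  have h1 : ∑ k ∈ range n, 2 ^ k * sm (nb S k) + 3 * (2 ^ 0 * sm (nb S 0)) ≤
      3 * (2 ^ n * sm (nb S n)) + 32 * D := by
    refine sum_down n (fun k => 2 ^ k * sm (nb S k)) (fun k => 2 ^ (k + 1) * sm (dF S k))
      fun k _ => ?_
    have := NN S k
    calc 4 * (2 ^ k * sm (nb S k)) = 2 ^ k * 2 * (2 * sm (nb S k)) := by ring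
      _ ≤ 2 ^ k * 2 * (3 * sm (nb S (k + 1)) + 32 * sm (dF S k)) := by gcongr
      _ = _ := by ring
  have h2 : ∑ k ∈ range (n + 1), 2 ^ k * sm (hs S t k) + 3 * (2 ^ n * sm (hs S t n)) ≤ 3 * D := by
    refine sum_up n (fun k => 2 ^ k * sm (hs S t k)) (fun k => 2 ^ (k + 1) * sm (dF S k)) ?_
      fun k hk => ?_
    · have : hs S t 0 = fun _ => 0 := by
        funext m; unfold hs; rw [Er_zero]; simp
      simp [this, sm, sq]
    · obtain ⟨s, hs'⟩ := hn k hk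
      have := HH S hs'
      calc 4 * (2 ^ (k + 1) * sm (hs S t (k + 1))) = 2 ^ k * (8 * sm (hs S t (k + 1))) := by ring
        _ ≤ 2 ^ k * (3 * sm (hs S t k) + 6 * sm (dF S k)) := by gcongr
        _ = _ := by ring
  have h3 := NN_top S n
  have h4 := sum_energy S n
  rw [← hD] at h4
  calc ∑ k ∈ range (n + 1), 2 ^ k * sm (fun m => Fs S t k m - Fa S k m)
      ≤ ∑ k ∈ range (n + 1), (8 * (2 ^ k * sm (hs S t k)) + 20 * (2 ^ k * sm (nb S k))) := by
        refine sum_le_sum fun k hk => ?_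
        have := UU S (ht k (by have := mem_range.1 hk; omega))
        calc 2 ^ k * sm (fun m => Fs S t k m - Fa S k m)
            ≤ 2 ^ k * (8 * sm (hs S t k) + 20 * sm (nb S k)) := by gcongr
          _ = _ := by ring
    _ = 8 * ∑ k ∈ range (n + 1), 2 ^ k * sm (hs S t k) +
        20 * (∑ k ∈ range n, 2 ^ k * sm (nb S k) + 2 ^ n * sm (nb S n)) := by
        rw [sum_add_distrib, ← mul_sum, ← mul_sum, sum_range_succ _ n]
        congr 2
        rw [sum_range_succ]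
    _ ≤ 8 * (3 * D) + 20 * ((3 * (2 ^ n * sm (nb S n)) + 32 * D) + 2 ^ n * sm (nb S n)) := by
        gcongr
        · exact le_self_add.trans h2
        · exact le_self_add.trans h1
    _ = 664 * D + 80 * (2 ^ n * sm (nb S n)) := by ring
    _ ≤ 664 * D + 80 * (2 ^ n * (4 * sm (Fa S n))) := by gcongr
    _ = 664 * D + 320 * (2 ^ n * sm (Fa S n)) := by ring
    _ ≤ 700 * D + 700 * (2 ^ n * sm (Fa S n)) := by
        gcongr <;> norm_num
    _ = 700 * sm (Fa S 0) := by rw [h4]; ring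

/-! ### Real form -/

theorem exists_anti {f : ℤ → ℝ} {X : Finset ℤ} (hf : ∀ x, x ∉ X → f x = 0) :
    ∃ S : ℤ → ℝ, ∀ x, S (x + 1) - S x = f x := by
  obtain ⟨b, hb⟩ : ∃ b : ℤ, ∀ x ∈ X, b ≤ x := by
    rcases X.eq_empty_or_nonempty with h | h
    · exact ⟨0, by simp [h]⟩
    · exact ⟨X.min' h, fun x hx => X.min'_le x hx⟩
  refine ⟨fun x => ∑ y ∈ Ico b x, f y, fun x => ?_⟩
  rcases lt_or_ge x b with h | h
  · have e1 : Ico b (x + 1) = ∅ := Finset.Ico_eq_empty (by omega)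
    have e2 : Ico b x = ∅ := Finset.Ico_eq_empty (by omega)
    simp only [e1, e2, sum_empty, sub_zero]
    exact (hf x fun hx => absurd (hb x hx) (by omega)).symm
  · have e1 : Ico b (x + 1) = insert x (Ico b x) := by
      ext y; simp only [mem_Ico, mem_insert]; omega
    simp only [e1]
    rw [sum_insert (by simp)]
    ring

theorem sum_anti {f S : ℤ → ℝ} (hS : ∀ x, S (x + 1) - S x = f x) (a : ℤ) (n : ℕ) :
    ∑ x ∈ Ico a (a + n), f x = S (a + n) - S a := by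
  induction n with
  | zero => simp
  | succ n ih =>
    have e1 : Ico a (a + (n + 1 : ℕ)) = insert (a + n) (Ico a (a + n)) := by
      ext y; simp only [mem_Ico, mem_insert]; push_cast; omega
    rw [e1, sum_insert (by simp), ih, ← hS]
    push_cast
    have : a + ((n : ℤ) + 1) = a + n + 1 := by ring
    rw [this]
    ring

theorem sm_eq {h : ℤ → ℝ} {X : Finset ℤ} (hX : ∀ x, x ∉ X → h x = 0) :
    sm h = ENNReal.ofReal (∑ x ∈ X, h x ^ 2) := by
  unfold sm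
  rw [tsum_eq_sum (s := X) (fun x hx => by rw [hX x hx]; simp [sq]),
    ENNReal.ofReal_sum_of_nonneg fun _ _ => sq_nonneg _]
  rfl

theorem le_sm (h : ℤ → ℝ) (X : Finset ℤ) : ENNReal.ofReal (∑ x ∈ X, h x ^ 2) ≤ sm h := by
  unfold sm
  rw [ENNReal.ofReal_sum_of_nonneg fun _ _ => sq_nonneg _]
  exact ENNReal.sum_le_tsum X

/-- the average over `[a, a + 2 ^ k)` -/
def avI (f : ℤ → ℝ) (k : ℕ) (a : ℤ) : ℝ := (2 ^ k)⁻¹ * ∑ x ∈ Ico a (a + 2 ^ k), f x

/-- **The Haar shift lemma**: `f` with finite support, second grid `[2 ^ k m + t k, ..)` nested and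
`|t k| ≤ 2 · 2 ^ k`. -/
theorem haar_shift {f : ℤ → ℝ} {X : Finset ℤ} (hf : ∀ x, x ∉ X → f x = 0) {t : ℕ → ℤ} (n : ℕ)
    (ht : ∀ k ≤ n, |t k| ≤ 2 * 2 ^ k) (hn : ∀ k < n, ∃ s, t k = t (k + 1) + 2 ^ k * s)
    (W : ℕ → Finset ℤ) :
    ∑ k ∈ range (n + 1), 2 ^ k * ∑ m ∈ W k,
      (avI f k (2 ^ k * m + t k) - avI f k (2 ^ k * m)) ^ 2 ≤ 700 * ∑ x ∈ X, f x ^ 2 := by
  obtain ⟨S, hS⟩ := exists_anti hf
  have hI : ∀ k a, avI f k a = (S (a + 2 ^ k) - S a) / 2 ^ k := by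
    intro k a
    have := sum_anti hS a (2 ^ k)
    push_cast at this
    unfold avI
    rw [this]
    ring
  have e1 : ∀ k m, avI f k (2 ^ k * m + t k) = Fs S t k m := by
    intro k m
    rw [hI]; unfold Fs
    have : (2 : ℤ) ^ k * m + t k + 2 ^ k = 2 ^ k * (m + 1) + t k := by ring
    rw [this]
  have e2 : ∀ k m, avI f k (2 ^ k * m) = Fa S k m := by
    intro k m
    rw [hI]; unfold Fa
    have : (2 : ℤ) ^ k * m + 2 ^ k = 2 ^ k * (m + 1) := by ring
    rw [this]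
  simp only [e1, e2]
  have h1 := haar_shift_top S n ht hn
  have e3 : Fa S 0 = f := by
    funext x
    unfold Fa
    simp only [pow_zero, one_mul, div_one]
    exact hS x
  rw [e3, sm_eq hf] at h1
  have h2 : ENNReal.ofReal (∑ k ∈ range (n + 1), 2 ^ k * ∑ m ∈ W k,
      (Fs S t k m - Fa S k m) ^ 2) ≤ ENNReal.ofReal (700 * ∑ x ∈ X, f x ^ 2) := by
    rw [ENNReal.ofReal_sum_of_nonneg fun _ _ =>
      mul_nonneg (by positivity) (sum_nonneg fun _ _ => sq_nonneg _)]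
    rw [ENNReal.ofReal_mul (by norm_num : (0 : ℝ) ≤ 700)]
    have e4 : ENNReal.ofReal 700 = 700 := by norm_num
    rw [e4]
    refine le_trans (sum_le_sum fun k _ => ?_) h1
    rw [ENNReal.ofReal_mul (by positivity), ENNReal.ofReal_pow (by norm_num)]
    have e5 : ENNReal.ofReal 2 = 2 := by norm_num
    rw [e5]
    gcongr
    exact le_sm (fun m => Fs S t k m - Fa S k m) (W k)
  exact (ENNReal.ofReal_le_ofReal_iff (mul_nonneg (by norm_num)
    (sum_nonneg fun _ _ => sq_nonneg _))).1 h2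

/-- **The Haar shift lemma**, vectors. -/
theorem haar_shift_vec {ι : Type*} [Fintype ι] {f : ℤ → ι → ℝ} {X : Finset ℤ}
    (hf : ∀ x, x ∉ X → f x = 0) {t : ℕ → ℤ} (n : ℕ)
    (ht : ∀ k ≤ n, |t k| ≤ 2 * 2 ^ k) (hn : ∀ k < n, ∃ s, t k = t (k + 1) + 2 ^ k * s)
    (W : ℕ → Finset ℤ) :
    ∑ k ∈ range (n + 1), 2 ^ k * ∑ m ∈ W k, ∑ i,
      (avI (fun x => f x i) k (2 ^ k * m + t k) - avI (fun x => f x i) k (2 ^ k * m)) ^ 2 ≤
      700 * ∑ x ∈ X, ∑ i, f x i ^ 2 := by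
  have h := fun i => haar_shift (f := fun x => f x i) (X := X)
    (fun x hx => by rw [hf x hx]; rfl) n ht hn W
  have h2 := Finset.sum_le_sum fun i (_ : i ∈ (univ : Finset ι)) => h i
  have e1 : ∑ i, 700 * ∑ x ∈ X, f x i ^ 2 = 700 * ∑ x ∈ X, ∑ i, f x i ^ 2 := by
    rw [← mul_sum, sum_comm]
  rw [← e1]
  refine le_trans (le_of_eq ?_) h2
  rw [sum_comm]
  refine sum_congr rfl fun k _ => ?_
  rw [← mul_sum, sum_comm]

end

end Vale.Agent.P141.H922.Sh
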