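import Vale.Agent.P141.H483.MoveB
import Vale.Agent.P141.H922.HaarSh
import Vale.Agent.P141.H922.TieSum

/-!
# P141, line (A): the moving lemma with the real ties

At fixed `(x₁, x₃)` the nodes of scale `k` are the pairs `(m₀, c_k - m₀)` of an `x₀`-cell and an
`x₂`-cell, `c_k = o - 2 - ix k x₁ - ix k x₃`.  The slot `V k m₀` is the martingale of `x₀`
(averages of its values at scale `0`), the matrices `M = √l K⁻¹ dK K⁻¹` live on the tree of `x₂`.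

* `tie_shift` : the reflected `x₂`-grid on the line of `x₀`;
* `move_real` : `SUM_(1 ≤ k ≤ n) 2 ^ k SUM_(m₀) |M_(k, c_k - m₀) (V k m₀)|² ≤ 1408 SUM_(x₀) |V_END|²`;
* `move_nodes` : the same over the nodes of `cosF`, with a weight of bounded `x₀`-line averages.
-/

namespace Vale.Agent.P141.H922

open Finset Matrix
open Vale.Agent.P141.PL (Pt Bx iv ix cx mem_iv card_iv ix_ix)
open Vale.Agent.P141.PL.H560 (cbs bx0)
open Vale.Agent.P141.H420 (Tr)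
open Vale.Agent.P141.H922.Sh (avI haar_shift_vec)

noncomputable section

variable {ι : Type*} [Fintype ι] [DecidableEq ι]

/-- the index of the tie at scale `k` -/
def ck (o x1 x3 : ℤ) (k : ℕ) : ℤ := o - 2 - ix k x1 - ix k x3

/-- the shift of the reflected `x₂`-grid at scale `k` -/
def tk (o x1 x3 : ℤ) (k : ℕ) : ℤ := ck o x1 x3 0 - 2 ^ k * ck o x1 x3 k - 2 ^ k + 1

theorem tk_step (o x1 x3 : ℤ) (k : ℕ) :
    ∃ s, tk o x1 x3 k = tk o x1 x3 (k + 1) + 2 ^ k * s :=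
  ⟨2 * ck o x1 x3 (k + 1) - ck o x1 x3 k + 1, by unfold tk; ring⟩

theorem tk_le {o : ℤ} (ho : o = 1 ∨ o = -1) (x1 x3 : ℤ) (k : ℕ) :
    |tk o x1 x3 k| ≤ 2 * 2 ^ k := by
  have hp : (0 : ℤ) < 2 ^ k := by positivity
  unfold tk ck
  rw [PL.ix_zero, PL.ix_zero]
  have h1 : 0 ≤ x1 - 2 ^ k * ix k x1 := by
    unfold ix; have := Int.mul_ediv_self_le (x := x1) (k := 2 ^ k) hp.ne'; linarith
  have h2 : x1 - 2 ^ k * ix k x1 < 2 ^ k := by
    unfold ix; have := Int.lt_mul_ediv_self_add (x := x1) (k := 2 ^ k) hp; linarith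
  have h3 : 0 ≤ x3 - 2 ^ k * ix k x3 := by
    unfold ix; have := Int.mul_ediv_self_le (x := x3) (k := 2 ^ k) hp.ne'; linarith
  have h4 : x3 - 2 ^ k * ix k x3 < 2 ^ k := by
    unfold ix; have := Int.lt_mul_ediv_self_add (x := x3) (k := 2 ^ k) hp; linarith
  rcases ho with rfl | rfl
  · have e : (1 : ℤ) - 2 - x1 - x3 - 2 ^ k * (1 - 2 - ix k x1 - ix k x3) - 2 ^ k + 1 =
        -(x1 - 2 ^ k * ix k x1) - (x3 - 2 ^ k * ix k x3) := by ring
    rw [e, abs_le]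
    constructor <;> linarith
  · have e : (-1 : ℤ) - 2 - x1 - x3 - 2 ^ k * (-1 - 2 - ix k x1 - ix k x3) - 2 ^ k + 1 =
        2 * 2 ^ k - 2 - (x1 - 2 ^ k * ix k x1) - (x3 - 2 ^ k * ix k x3) := by ring
    rw [e, abs_le]
    constructor <;> linarith

/-- the martingale of `x₀` -/
def V0m (f : ℤ → ι → ℝ) (k : ℕ) (m : ℤ) : ι → ℝ := fun i => (2 ^ k)⁻¹ * ∑ x ∈ iv k m, f x i

/-- the martingale of `x₂` of the same values, `c₀ = o - 2 - x₁ - x₃` -/
def V2m (f : ℤ → ι → ℝ) (c : ℤ) (k : ℕ) (m : ℤ) : ι → ℝ :=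
  fun i => (2 ^ k)⁻¹ * ∑ x ∈ iv k m, f (c - x) i

omit [Fintype ι] [DecidableEq ι] in
theorem V0m_eq (f : ℤ → ι → ℝ) (k : ℕ) (m : ℤ) (i : ι) :
    V0m f k m i = avI (fun x => f x i) k (2 ^ k * m) := rfl

omit [Fintype ι] [DecidableEq ι] in
theorem V2m_eq (f : ℤ → ι → ℝ) (o x1 x3 : ℤ) (k : ℕ) (m : ℤ) (i : ι) :
    V2m f (ck o x1 x3 0) k (ck o x1 x3 k - m) i =
      avI (fun x => f x i) k (2 ^ k * m + tk o x1 x3 k) := by
  unfold V2m avI
  congr 1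
  refine sum_bij' (fun x _ => ck o x1 x3 0 - x) (fun x _ => ck o x1 x3 0 - x) ?_ ?_ ?_ ?_ ?_
  · intro x hx
    unfold iv at hx
    rw [mem_Ico] at hx ⊢
    unfold tk
    constructor
    · have := hx.2
      have e : (2 : ℤ) ^ k * (ck o x1 x3 k - m) = 2 ^ k * ck o x1 x3 k - 2 ^ k * m := by ring
      rw [e] at this
      omega
    · have := hx.1
      have e : (2 : ℤ) ^ k * (ck o x1 x3 k - m) = 2 ^ k * ck o x1 x3 k - 2 ^ k * m := by ring
      rw [e] at this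
      omega
  · intro x hx
    unfold iv
    rw [mem_Ico] at hx ⊢
    unfold tk at hx
    have e : (2 : ℤ) ^ k * (ck o x1 x3 k - m) = 2 ^ k * ck o x1 x3 k - 2 ^ k * m := by ring
    rw [e]
    omega
  · intro x _; ring
  · intro x _; ring
  · intro x _; rfl

omit [Fintype ι] [DecidableEq ι] in
theorem V2m_mart (f : ℤ → ι → ℝ) (c : ℤ) (n : ℕ) : H483.Mart n (V2m f c) := by
  intro k _ m
  funext i
  have h1 := iv_iv (k := k) (K := k + 1) (by omega) m (fun x => f (c - x) i)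
  have e : iv (k + 1 - k) m = {2 * m, 2 * m + 1} := by
    have : k + 1 - k = 1 := by omega
    rw [this]
    ext y
    rw [mem_insert, mem_singleton]
    unfold iv
    rw [mem_Ico]
    constructor
    · intro h; simp at h; omega
    · intro h; simp; omega
  rw [e, sum_pair (by omega)] at h1
  simp only [V2m, Pi.smul_apply, Pi.add_apply, smul_eq_mul]
  rw [← h1, pow_succ, mul_inv]
  ring

theorem iv_succ_sum (k : ℕ) (m : ℤ) (g : ℤ → ℝ) :
    ∑ x ∈ iv (k + 1) m, g x = ∑ x ∈ iv k (2 * m), g x + ∑ x ∈ iv k (2 * m + 1), g x := by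
  have h1 := iv_iv (k := k) (K := k + 1) (by omega) m g
  have e : iv (k + 1 - k) m = {2 * m, 2 * m + 1} := by
    have : k + 1 - k = 1 := by omega
    rw [this]
    ext y
    rw [mem_insert, mem_singleton]
    unfold iv
    rw [mem_Ico]
    constructor
    · intro h; simp at h; omega
    · intro h; simp; omega
  rw [e, sum_pair (by omega)] at h1
  exact h1.symm

theorem tmean_iv (g : ℤ → ℝ) (k : ℕ) (m : ℤ) :
    2 ^ k * H483.tmean g k m = ∑ x ∈ iv k m, g x := by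
  induction k generalizing m with
  | zero =>
    have : iv 0 m = {m} := by
      ext y; unfold iv; rw [mem_Ico, mem_singleton]; simp; omega
    rw [this]
    simp [H483.tmean]
  | succ k ih =>
    rw [iv_succ_sum, ← ih, ← ih]
    simp only [H483.tmean]
    ring

omit [Fintype ι] [DecidableEq ι] in
/-- a martingale is the average of its values at scale `0` -/
theorem mart_eq {n : ℕ} {V : ℕ → ℤ → ι → ℝ} (hV : H483.Mart n V) {k : ℕ} (hk : k ≤ n) (m : ℤ) :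
    V k m = V0m (V 0) k m := by
  induction k generalizing m with
  | zero =>
    funext i
    have : iv 0 m = {m} := by
      ext y; unfold iv; rw [mem_Ico, mem_singleton]; simp; omega
    unfold V0m
    rw [this]
    simp
  | succ k ih =>
    rw [hV k (by omega) m, ih (by omega), ih (by omega)]
    funext i
    simp only [V0m, Pi.smul_apply, Pi.add_apply, smul_eq_mul, iv_succ_sum, pow_succ, mul_inv]
    ring

theorem biU_sum (k : ℕ) (Ts : Finset ℤ) (g : ℤ → ℝ) :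
    ∑ T ∈ Ts, ∑ x ∈ iv k T, g x = ∑ x ∈ Ts.biUnion (iv k), g x := by
  classical
  refine (sum_biUnion fun a _ b _ hab => ?_).symm
  rw [Function.onFun, disjoint_left]
  intro x hx hy
  rw [mem_iv] at hx hy
  exact hab (hx.symm.trans hy)

/-- **The moving lemma with the real ties** (fixed `x₁, x₃`): `V` any martingale of `x₀`. -/
theorem move_real {l : ℝ} {n : ℕ} {G K : ℕ → ℤ → Matrix ι ι ℝ} (h : Tr l n G K) {o : ℤ}
    (ho : o = 1 ∨ o = -1) (x1 x3 : ℤ) {V : ℕ → ℤ → ι → ℝ} (hV : H483.Mart n V) {X : Finset ℤ}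
    (hX : ∀ x, x ∉ X → V 0 x = 0) (W : ℕ → Finset ℤ) :
    ∑ k ∈ Icc 1 n, 2 ^ k * ∑ m ∈ W k,
      H483.mT l K k m (V k (ck o x1 x3 k - m)) ⬝ᵥ H483.mT l K k m (V k (ck o x1 x3 k - m)) ≤
      1408 * ∑ x ∈ X, V 0 x ⬝ᵥ V 0 x := by
  classical
  set f := V 0 with hf
  set c := ck o x1 x3 0 with hc
  obtain ⟨Ts, hTs⟩ : ∃ Ts : Finset ℤ, ∀ k ∈ Icc 1 n, W k ⊆ Ts.biUnion (iv (n - k)) := by
    refine ⟨(Icc 1 n).biUnion fun k => (W k).image (ix (n - k)), fun k hk x hx => ?_⟩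
    rw [mem_biUnion]
    exact ⟨ix (n - k) x, mem_biUnion.2 ⟨k, hk, mem_image_of_mem _ hx⟩, mem_iv.2 rfl⟩
  set w2 : ℕ → ℤ → ι → ℝ := fun k m => V k (ck o x1 x3 k - m) with hw2
  have h1 := fun T : ℤ => H483.near_move h (V2m_mart f c n) w2 (le_refl n) T
  have h2 := Finset.sum_le_sum fun T (_ : T ∈ Ts) =>
    mul_le_mul_of_nonneg_left (h1 T) (by positivity : (0 : ℝ) ≤ 2 ^ n)
  -- the left side
  have h3 : ∑ k ∈ Icc 1 n, 2 ^ k * ∑ m ∈ W k, H483.mT l K k m (w2 k m) ⬝ᵥ H483.mT l K k m (w2 k m) ≤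
      ∑ T ∈ Ts, 2 ^ n * H420.tsum (fun j i => H483.mT l K j i (w2 j i) ⬝ᵥ
        H483.mT l K j i (w2 j i)) n T := by
    simp only [tsum_iv]
    rw [sum_comm]
    refine sum_le_sum fun k hk => ?_
    rw [← mul_sum, biU_sum]
    refine mul_le_mul_of_nonneg_left ?_ (by positivity)
    exact sum_le_sum_of_subset_of_nonneg (hTs k hk) fun _ _ _ => dot_self_nonneg _
  -- the end values
  have h4 : ∑ T ∈ Ts, 2 ^ n * H483.tmean (fun i => V2m f c 0 i ⬝ᵥ V2m f c 0 i) n T ≤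
      ∑ x ∈ X, f x ⬝ᵥ f x := by
    simp only [tmean_iv]
    rw [biU_sum]
    have e1 : ∀ x, V2m f c 0 x = f (c - x) := by
      intro x
      funext i
      have : iv 0 x = {x} := by
        ext y; unfold iv; rw [mem_Ico, mem_singleton]; simp; omega
      unfold V2m
      rw [this]
      simp
    simp only [e1]
    have e2 : ∑ x ∈ Ts.biUnion (iv n), f (c - x) ⬝ᵥ f (c - x) =
        ∑ y ∈ (Ts.biUnion (iv n)).image fun x => c - x, f y ⬝ᵥ f y := by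
      rw [sum_image]
      intro a _ b _ hab
      simp only at hab
      omega
    rw [e2]
    set Y := (Ts.biUnion (iv n)).image fun x => c - x
    have e3 : ∑ y ∈ Y, f y ⬝ᵥ f y = ∑ y ∈ Y ∩ X, f y ⬝ᵥ f y := by
      refine (sum_subset inter_subset_left fun x hx hx2 => ?_).symm
      have : x ∉ X := fun h' => hx2 (mem_inter.2 ⟨hx, h'⟩)
      rw [hX x this]
      simp
    rw [e3]
    exact sum_le_sum_of_subset_of_nonneg inter_subset_right fun _ _ _ => dot_self_nonneg _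
  -- the shift
  have h5 : ∑ T ∈ Ts, 2 ^ n * H420.tsum (fun j i => (w2 j i - V2m f c j i) ⬝ᵥ
      (w2 j i - V2m f c j i)) n T ≤ 700 * ∑ x ∈ X, f x ⬝ᵥ f x := by
    have h6 := haar_shift_vec (f := f) hX (t := tk o x1 x3) n (fun k _ => tk_le ho x1 x3 k)
      (fun k _ => tk_step o x1 x3 k)
      (fun k => (Ts.biUnion (iv (n - k))).image fun x => ck o x1 x3 k - x)
    have e0 : ∑ x ∈ X, f x ⬝ᵥ f x = ∑ x ∈ X, ∑ i, f x i ^ 2 := by
      refine sum_congr rfl fun x _ => ?_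
      simp only [dotProduct, sq]
    rw [e0]
    refine le_trans ?_ h6
    simp only [tsum_iv]
    rw [sum_comm]
    refine le_trans (sum_le_sum fun k hk => ?_) (sum_le_sum_of_subset_of_nonneg
      (s := Icc 1 n) (t := range (n + 1)) ?_ fun k _ _ => ?_)
    · rw [← mul_sum, biU_sum, sum_image]
      · refine mul_le_mul_of_nonneg_left (sum_le_sum fun x _ => ?_) (by positivity)
        refine le_of_eq ?_
        simp only [dotProduct, Pi.sub_apply]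
        refine sum_congr rfl fun i _ => ?_
        rw [← V0m_eq, ← V2m_eq, hw2]
        have e1 := mart_eq hV (mem_Icc.1 hk).2 (ck o x1 x3 k - x)
        have e2 : ck o x1 x3 k - (ck o x1 x3 k - x) = x := by ring
        simp only [e1, e2]
        ring
      · intro a _ b _ hab
        simp only at hab
        omega
    · intro k hk
      rw [mem_Icc] at hk
      rw [mem_range]
      omega
    · exact mul_nonneg (by positivity) (sum_nonneg fun _ _ => sum_nonneg fun _ _ => sq_nonneg _)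
  refine h3.trans (h2.trans ?_)
  have e1 : ∑ T ∈ Ts, 2 ^ n * (8 * H483.tmean (fun i => V2m f c 0 i ⬝ᵥ V2m f c 0 i) n T +
      2 * H420.tsum (fun j i => (w2 j i - V2m f c j i) ⬝ᵥ (w2 j i - V2m f c j i)) n T) =
      8 * ∑ T ∈ Ts, 2 ^ n * H483.tmean (fun i => V2m f c 0 i ⬝ᵥ V2m f c 0 i) n T +
      2 * ∑ T ∈ Ts, 2 ^ n * H420.tsum (fun j i => (w2 j i - V2m f c j i) ⬝ᵥ
        (w2 j i - V2m f c j i)) n T := by
    rw [mul_sum, mul_sum, ← sum_add_distrib]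
    refine sum_congr rfl fun T _ => ?_
    ring
  rw [e1]
  linarith

/-- **The moving lemma over the nodes of `cosF`**, real ties, weight `W (x₀, x₁, x₃) ≥ 0` of
`x₀`-line averages at most `e`; `V x₁ x₃` any martingale of `x₀`. -/
theorem move_nodes {l e : ℝ} {K : ℕ} {M : Pt} {G Kq : ℤ → ℕ → ℤ → Matrix ι ι ℝ} {o : ℤ}
    (ho : o = 1 ∨ o = -1) (hT : ∀ x1 ∈ iv K M.1, Tr l K (G x1) (Kq x1))
    {V : ℤ → ℤ → ℕ → ℤ → ι → ℝ}
    (hV : ∀ x1 ∈ iv K M.1, ∀ x3 ∈ iv K M.2.2, H483.Mart K (V x1 x3)) {X : Finset ℤ}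
    (hX : ∀ x1 ∈ iv K M.1, ∀ x3 ∈ iv K M.2.2, ∀ x, x ∉ X → V x1 x3 0 x = 0)
    {W : ℤ → ℤ → ℤ → ℝ} (he : 0 ≤ e)
    (hW : ∀ k ≤ K, ∀ j x1 x3, ∑ x0 ∈ iv k j, W x0 x1 x3 ≤ e * 2 ^ k) :
    ∑ k ∈ Icc 1 K, ∑ m ∈ cbs K M k, ∑ x0 ∈ iv k (bx0 o m).1, ∑ x1 ∈ iv k m.1,
      ∑ x3 ∈ iv k m.2.2, W x0 x1 x3 *
        (H483.mT l (Kq x1) k m.2.1 (V x1 x3 k (bx0 o m).1) ⬝ᵥ
          H483.mT l (Kq x1) k m.2.1 (V x1 x3 k (bx0 o m).1)) ≤
    e * (1408 * ∑ x1 ∈ iv K M.1, ∑ x3 ∈ iv K M.2.2, ∑ x ∈ X, V x1 x3 0 x ⬝ᵥ V x1 x3 0 x) := by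
  set Φ : ℕ → ℤ → ℤ → ℤ → ℝ := fun k m2 x1 x3 =>
    H483.mT l (Kq x1) k m2 (V x1 x3 k (ck o x1 x3 k - m2)) ⬝ᵥ
      H483.mT l (Kq x1) k m2 (V x1 x3 k (ck o x1 x3 k - m2)) with hΦ
  have hΦ0 : ∀ k m x1 x3, 0 ≤ Φ k m x1 x3 := fun _ _ _ _ => dot_self_nonneg _
  have e1 : ∀ k ∈ Icc 1 K, (∑ m ∈ cbs K M k, ∑ x0 ∈ iv k (bx0 o m).1, ∑ x1 ∈ iv k m.1,
      ∑ x3 ∈ iv k m.2.2, W x0 x1 x3 *
        (H483.mT l (Kq x1) k m.2.1 (V x1 x3 k (bx0 o m).1) ⬝ᵥ
          H483.mT l (Kq x1) k m.2.1 (V x1 x3 k (bx0 o m).1))) ≤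
      ∑ x1 ∈ iv K M.1, ∑ x3 ∈ iv K M.2.2,
        e * (2 ^ k * ∑ m2 ∈ iv (K - k) M.2.1, Φ k m2 x1 x3) := by
    intro k hk
    have e2 : (∑ m ∈ cbs K M k, ∑ x0 ∈ iv k (bx0 o m).1, ∑ x1 ∈ iv k m.1,
        ∑ x3 ∈ iv k m.2.2, W x0 x1 x3 *
        (H483.mT l (Kq x1) k m.2.1 (V x1 x3 k (bx0 o m).1) ⬝ᵥ
          H483.mT l (Kq x1) k m.2.1 (V x1 x3 k (bx0 o m).1))) =
        ∑ m ∈ cbs K M k, ∑ x0 ∈ iv k (bx0 o m).1, ∑ x1 ∈ iv k m.1,
        ∑ x3 ∈ iv k m.2.2, W x0 x1 x3 * Φ k m.2.1 x1 x3 := by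
      refine sum_congr rfl fun m _ => sum_congr rfl fun x0 _ => sum_congr rfl fun x1 h1 =>
        sum_congr rfl fun x3 h3 => ?_
      rw [mem_iv] at h1 h3
      have e3 : ck o x1 x3 k - m.2.1 = (bx0 o m).1 := by
        unfold ck
        rw [h1, h3]
        show o - 2 - m.1 - m.2.2 - m.2.1 = o - 2 - (m.1 + m.2.1 + m.2.2)
        ring
      simp only [hΦ, e3]
    rw [e2, node_scale (mem_Icc.1 hk).2 o M (Φ k) W]
    refine sum_le_sum fun x1 _ => sum_le_sum fun x3 _ => ?_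
    rw [mul_sum, mul_sum]
    refine sum_le_sum fun m2 _ => ?_
    rw [← mul_assoc]
    exact mul_le_mul_of_nonneg_right (hW k (mem_Icc.1 hk).2 _ _ _) (hΦ0 _ _ _ _)
  refine (sum_le_sum e1).trans ?_
  rw [sum_comm, mul_sum, mul_sum]
  refine sum_le_sum fun x1 h1 => ?_
  rw [sum_comm, mul_sum, mul_sum]
  refine sum_le_sum fun x3 h3 => ?_
  rw [← mul_sum]
  exact mul_le_mul_of_nonneg_left (move_real (hT x1 h1) ho x1 x3 (hV x1 h1 x3 h3)
    (hX x1 h1 x3 h3) fun k => iv (K - k) M.2.1) he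

end

end Vale.Agent.P141.H922
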