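import Vale.Agent.P141.H922.FloorAbs
import Vale.Agent.P141.H782.Glue

/-!
# P141, line W: the scalar system with a floor (module FLOOR)

`wtF δ e φ Q u = wt δ e Q u + φ |Q| ‖a12‖_∞ ‖a13‖_∞ ‖a23‖_∞`.

* `sysF`: the system of tests of `H318.sys1` with this weight, inheritance constant `2`;
* `glueF`, `glueF_dot`: mixed glue of `H782.Glue` for `wtF`, the same constant `Cg e`;
* `supB_sysF`, `supW_floor`: the atoms are bounded by `2 ^ c0 / φ` times the density of the weight.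
-/

namespace Vale.Agent.P141.H922

open Finset
open Vale.Agent.P141.H315 (Grid dot)
open Vale.Agent.P141.PL (Pt el)
open Vale.Agent.P141.PL.H315 (cube3 mem_cube3 gz card_cube3 avg sum_avg_cubes iv mem_iv self_mem_iv
  e12 e13 e23 wt wt_nonneg Nm Nm_nonneg Tri mx mx_nonneg abs_le_mx mx_mono atm card_iv
  avg_prod_Nm_le)
open Vale.Agent.P141.PL.H95 (gr mem_gr card_gr)
open Vale.Agent.P141.PL.H318
open Vale.Agent.P141.H782 (Cg Cg_nonneg MM MM_nonneg wt_le_MM sum_MM bl3 card_bl3 cube3_sub glue_abs)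

noncomputable section

/-- the product of the sup norms of the three edges -/
def mx3 (Q : Finset Pt) (u : Tri) : ℝ := mx Q (e12 u.1) * mx Q (e13 u.2.1) * mx Q (e23 u.2.2)

theorem mx3_nonneg (Q : Finset Pt) (u : Tri) : 0 ≤ mx3 Q u :=
  mul_nonneg (mul_nonneg (mx_nonneg _ _) (mx_nonneg _ _)) (mx_nonneg _ _)

theorem mx3_mono {Q Q' : Finset Pt} (h : Q ⊆ Q') (u : Tri) : mx3 Q u ≤ mx3 Q' u := by
  unfold mx3
  have h1 := mx_mono h (e12 u.1)
  have h2 := mx_mono h (e13 u.2.1)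
  have h3 := mx_mono h (e23 u.2.2)
  have p1 := mx_nonneg Q (e12 u.1)
  have p2 := mx_nonneg Q (e13 u.2.1)
  have p3 := mx_nonneg Q (e23 u.2.2)
  exact mul_le_mul (mul_le_mul h1 h2 p2 (p1.trans h1)) h3 p3 (mul_nonneg (p1.trans h1) (p2.trans h2))

theorem abs_atm_le {Q : Finset Pt} {y : Pt} (hy : y ∈ Q) (u : Tri) : |atm u y| ≤ mx3 Q u := by
  unfold atm mx3
  rw [abs_mul, abs_mul]
  exact mul_le_mul (mul_le_mul (abs_le_mx hy _) (abs_le_mx hy _) (abs_nonneg _) (mx_nonneg _ _))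
    (abs_le_mx hy _) (abs_nonneg _) (mul_nonneg (mx_nonneg _ _) (mx_nonneg _ _))

/-- the weight with a floor -/
def wtF (δ e φ : ℝ) (Q : Finset Pt) (u : Tri) : ℝ := wt δ e Q u + φ * Q.card * mx3 Q u

theorem wtF_nonneg {δ φ : ℝ} (hδ : 0 ≤ δ) (hφ : 0 ≤ φ) (e : ℝ) (Q : Finset Pt) (u : Tri) :
    0 ≤ wtF δ e φ Q u :=
  add_nonneg (wt_nonneg hδ e Q u)
    (mul_nonneg (mul_nonneg hφ (Nat.cast_nonneg _)) (mx3_nonneg Q u))

theorem wt_le_wtF {φ : ℝ} (hφ : 0 ≤ φ) (δ e : ℝ) (Q : Finset Pt) (u : Tri) :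
    wt δ e Q u ≤ wtF δ e φ Q u :=
  le_add_of_nonneg_right (mul_nonneg (mul_nonneg hφ (Nat.cast_nonneg _)) (mx3_nonneg Q u))

/-- for edges of sup norm `≤ B` times the norm the floor is harmless -/
theorem wtF_le {δ e φ B : ℝ} (hφ : 0 ≤ φ) (hB : 0 ≤ B) {Q : Finset Pt} {u : Tri}
    (h1 : mx Q (e12 u.1) ≤ B * Nm e Q (e12 u.1)) (h2 : mx Q (e13 u.2.1) ≤ B * Nm e Q (e13 u.2.1))
    (h3 : mx Q (e23 u.2.2) ≤ B * Nm e Q (e23 u.2.2)) (hb : φ * B ^ 3 ≤ δ) :
    wtF δ e φ Q u ≤ 2 * wt δ e Q u := by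
  have p1 := mx_nonneg Q (e12 u.1)
  have p2 := mx_nonneg Q (e13 u.2.1)
  have p3 := mx_nonneg Q (e23 u.2.2)
  have n1 := Nm_nonneg e Q (e12 u.1)
  have n2 := Nm_nonneg e Q (e13 u.2.1)
  have n3 := Nm_nonneg e Q (e23 u.2.2)
  have h : mx3 Q u ≤ B ^ 3 * (Nm e Q (e12 u.1) * Nm e Q (e13 u.2.1) * Nm e Q (e23 u.2.2)) := by
    unfold mx3
    calc _ ≤ (B * Nm e Q (e12 u.1)) * (B * Nm e Q (e13 u.2.1)) * (B * Nm e Q (e23 u.2.2)) :=
          mul_le_mul (mul_le_mul h1 h2 p2 (by positivity)) h3 p3 (by positivity)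
      _ = _ := by ring
  have h4 : φ * Q.card * mx3 Q u ≤ wt δ e Q u := by
    unfold wt
    calc φ * Q.card * mx3 Q u ≤ φ * Q.card *
          (B ^ 3 * (Nm e Q (e12 u.1) * Nm e Q (e13 u.2.1) * Nm e Q (e23 u.2.2))) := by gcongr
      _ = (φ * B ^ 3) * Q.card * (Nm e Q (e12 u.1) * Nm e Q (e13 u.2.1) * Nm e Q (e23 u.2.2)) := by
          ring
      _ ≤ _ := by gcongr
  unfold wtF
  linarith

/-- superadditivity of the weight with a floor -/
theorem wtF_super {δ e φ : ℝ} (hδ : 0 ≤ δ) (h0 : 0 ≤ e) (h1 : e ≤ 1) (hφ : 0 ≤ φ) {k l : ℕ}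
    (hkl : k ≤ l) (p : Pt) (u : Tri) :
    ∑ z ∈ cube3 l p, (8 ^ k : ℝ)⁻¹ * wtF δ e φ (cube3 k z) u ≤ wtF δ e φ (cube3 l p) u := by
  have hc : (0 : ℝ) < (cube3 l p).card := by
    exact_mod_cast Finset.card_pos.mpr ⟨p, gz.mem l p⟩
  have h5 := avg_prod_Nm_le hkl h0 h1 u p
  unfold avg at h5
  rw [inv_mul_le_iff₀ hc] at h5
  have e1 : ∀ z ∈ cube3 l p, (8 ^ k : ℝ)⁻¹ * wtF δ e φ (cube3 k z) u ≤
      δ * (Nm e (cube3 k z) (e12 u.1) * Nm e (cube3 k z) (e13 u.2.1) *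
        Nm e (cube3 k z) (e23 u.2.2)) + φ * mx3 (cube3 l p) u := by
    intro z hz
    have h2 := mul_le_mul_of_nonneg_left (mx3_mono (cube3_sub hkl hz) u) hφ
    unfold wtF wt
    rw [card_cube3]
    push_cast
    have h8 : (8 : ℝ) ^ k ≠ 0 := by positivity
    have e2 : (8 ^ k : ℝ)⁻¹ * (δ * 8 ^ k * (Nm e (cube3 k z) (e12 u.1) *
        Nm e (cube3 k z) (e13 u.2.1) * Nm e (cube3 k z) (e23 u.2.2)) +
        φ * 8 ^ k * mx3 (cube3 k z) u) =
        δ * (Nm e (cube3 k z) (e12 u.1) * Nm e (cube3 k z) (e13 u.2.1) *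
          Nm e (cube3 k z) (e23 u.2.2)) + φ * mx3 (cube3 k z) u := by
      field_simp
    rw [e2]
    linarith
  refine (sum_le_sum e1).trans ?_
  rw [sum_add_distrib, ← mul_sum, sum_const, nsmul_eq_mul]
  have h6 := mul_le_mul_of_nonneg_left h5 hδ
  unfold wtF wt
  calc _ ≤ δ * ((cube3 l p).card * (Nm e (cube3 l p) (e12 u.1) * Nm e (cube3 l p) (e13 u.2.1) *
        Nm e (cube3 l p) (e23 u.2.2))) + (cube3 l p).card * (φ * mx3 (cube3 l p) u) :=
        add_le_add h6 le_rfl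
    _ = _ := by ring

/-! ### Uniformity on all cubes, arbitrary weights -/

open Classical in
/-- Uniformity of `1_A G` on the cubes of scale `k`, if `G` is uniform on the cells of scale `k`
in `A`. -/
theorem cube_unif_w {c0 : ℕ} {σ : ℤ} {c : Pt} (hc : csz c ≤ 2 ^ c0) (k : ℕ) {G : ℤ → ℝ}
    {A : ℤ → Prop} (hA : ∀ s s', ixs c0 σ k s' = ixs c0 σ k s → (A s' ↔ A s)) (q : Pt) (u : Tri)
    {w : ℝ} (hw : 0 ≤ w)
    (hG : ∀ s, A s → |dot ((gr c0 σ).cube k s) G (a1 c k (q, u))| ≤ w) :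
    |∑ y ∈ cube3 k q, (if A (el c y) then G (el c y) else 0) * atm u y| ≤ 2 * w := by
  obtain ⟨m, hm⟩ := two_cells_el (c0 := c0) (σ := σ) hc k q
  -- one cell
  have key : ∀ m' : ℤ, |∑ y ∈ cube3 k q, (if ixs c0 σ k (el c y) = m' then
      (if A (el c y) then G (el c y) else 0) * atm u y else 0)| ≤ w := by
    intro m'
    by_cases hex : ∃ s, ixs c0 σ k s = m' ∧ A s
    · obtain ⟨s, hs, hAs⟩ := hex
      have h1 := hG s hAs
      rw [dot_a1] at h1
      refine le_trans (le_of_eq ?_) h1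
      congr 1
      refine Finset.sum_congr rfl fun y _ => ?_
      by_cases hy : ixs c0 σ k (el c y) = m'
      · have h2 : el c y ∈ (gr c0 σ).cube k s := mem_gs.mpr (by rw [hy, hs])
        have h3 : A (el c y) := (hA s (el c y) (by rw [hy, hs])).mpr hAs
        rw [if_pos hy, if_pos h2, if_pos h3]
      · have h2 : el c y ∉ (gr c0 σ).cube k s := fun h => hy (by rw [mem_gs.mp h, hs])
        rw [if_neg hy, if_neg h2]
    · have h1 : ∑ y ∈ cube3 k q, (if ixs c0 σ k (el c y) = m' then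
          (if A (el c y) then G (el c y) else 0) * atm u y else 0) = 0 := by
        refine Finset.sum_eq_zero fun y _ => ?_
        by_cases hy : ixs c0 σ k (el c y) = m'
        · have h3 : ¬ A (el c y) := fun h => hex ⟨el c y, hy, h⟩
          rw [if_pos hy, if_neg h3, zero_mul]
        · rw [if_neg hy]
      rw [h1, abs_zero]; exact hw
  have hsplit : ∑ y ∈ cube3 k q, (if A (el c y) then G (el c y) else 0) * atm u y =
      (∑ y ∈ cube3 k q, (if ixs c0 σ k (el c y) = m then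
        (if A (el c y) then G (el c y) else 0) * atm u y else 0)) +
      (∑ y ∈ cube3 k q, (if ixs c0 σ k (el c y) = m + 1 then
        (if A (el c y) then G (el c y) else 0) * atm u y else 0)) := by
    rw [← Finset.sum_add_distrib]
    refine Finset.sum_congr rfl fun y hy => ?_
    rcases hm y hy with h | h
    · have h' : ixs c0 σ k (el c y) ≠ m + 1 := by omega
      rw [if_pos (c := ixs c0 σ k (el c y) = m) h,
        if_neg (c := ixs c0 σ k (el c y) = m + 1) h', add_zero]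
    · have h' : ixs c0 σ k (el c y) ≠ m := by omega
      rw [if_neg (c := ixs c0 σ k (el c y) = m) h',
        if_pos (c := ixs c0 σ k (el c y) = m + 1) h, zero_add]
  rw [hsplit]
  refine (abs_add_le _ _).trans ?_
  have := key m
  have := key (m + 1)
  linarith

/-- From cubes of scale `k` to cubes of scale `l ≥ k`, any superadditive weight. -/
theorem cube_unif_coarse_w {k l : ℕ} (hkl : k ≤ l) {φ : Pt → ℝ} {u : Tri} {w : Pt → ℝ} {W C : ℝ}
    (hC : 0 ≤ C) (p : Pt) (h : ∀ q ∈ cube3 l p, |∑ y ∈ cube3 k q, φ y * atm u y| ≤ C * w q)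
    (hs : ∑ z ∈ cube3 l p, (8 ^ k : ℝ)⁻¹ * w z ≤ W) :
    |∑ y ∈ cube3 l p, φ y * atm u y| ≤ C * W := by
  have e1 := sum_avg_cubes gz hkl p (fun y => φ y * atm u y)
  rw [← show gz.cube l p = cube3 l p from rfl, ← e1]
  refine (abs_sum_le_sum_abs _ _).trans ?_
  have h8 : (0 : ℝ) < (8 ^ k : ℝ)⁻¹ := by positivity
  calc ∑ z ∈ gz.cube l p, |avg (gz.cube k z) fun y => φ y * atm u y|
      ≤ ∑ z ∈ cube3 l p, C * ((8 ^ k : ℝ)⁻¹ * w z) := by
        refine sum_le_sum fun z hz => ?_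
        unfold avg
        rw [show gz.cube k z = cube3 k z from rfl, card_cube3]
        push_cast
        rw [abs_mul, abs_of_pos h8]
        have := mul_le_mul_of_nonneg_left (h z hz) h8.le
        linarith
    _ = C * ∑ z ∈ cube3 l p, (8 ^ k : ℝ)⁻¹ * w z := by rw [mul_sum]
    _ ≤ C * W := mul_le_mul_of_nonneg_left hs hC

/-- **The scalar system with a floor.** -/
def sysF (c0 : ℕ) (σ : ℤ) (c : Pt) (hc : csz c ≤ 2 ^ c0) (δ e φ : ℝ) (hδ : 0 < δ)
    (h0 : 0 ≤ e) (h1 : e ≤ 1) (hφ : 0 ≤ φ) : CSys (gr c0 σ) (Pt × Tri) where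
  a := a1 c
  W := fun k _ i => wtF δ e φ (cube3 k i.1) i.2
  W_nonneg := fun k _ i => wtF_nonneg hδ.le hφ e _ _
  nondeg := fun k x => by
    obtain ⟨β, hβ, h⟩ := nondeg_a1 hδ h0 h1 c k ((gr c0 σ).cube k x)
    exact ⟨β, hβ, fun i => (h i).trans
      (pow_le_pow_left₀ (wt_nonneg hδ.le e _ _) (wt_le_wtF hφ δ e _ _) 2)⟩
  C := 2
  C_nonneg := by norm_num
  inherit := by
    intro k l hkl x i G hG
    rw [dot_a1]
    have h2 := cube_unif_coarse_w (C := 2) (u := i.2) (w := fun z => wtF δ e φ (cube3 k z) i.2)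
      hkl (by norm_num) (φ := fun y => @ite _ (el c y ∈ (gr c0 σ).cube l x)
        (Classical.propDecidable _) (G (el c y)) 0) i.1
      (fun q _ => cube_unif_w (c0 := c0) (σ := σ) hc k (G := G)
        (A := fun s => s ∈ (gr c0 σ).cube l x)
        (by
          intro s s' hs
          have h3 : s' ∈ (gr c0 σ).cube k s := mem_gs.mpr hs
          have h4 : s' ∈ (gr c0 σ).cube l s := (gr c0 σ).sub_le hkl s h3
          rw [mem_gs, mem_gs, mem_gs.mp h4])
        q i.2 (wtF_nonneg hδ.le hφ e _ _)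
        (fun s hs => hG s hs (q, i.2)))
      (wtF_super hδ.le h0 h1 hφ hkl i.1 i.2)
    refine le_trans (le_of_eq ?_) h2
    congr 1
    refine Finset.sum_congr rfl fun y _ => ?_
    by_cases h : el c y ∈ (gr c0 σ).cube l x
    · simp [h]
    · simp [h]

/-! ### Mixed glue -/

theorem sqrt_bound {e : ℝ} (h0 : 0 < e) (h1 : e ≤ 1) : 27 ≤ √(45 / e) ^ 3 := by
  have h2 : (9 : ℝ) ≤ 45 / e := by rw [le_div_iff₀ h0]; linarith
  have h3 : (3 : ℝ) ≤ √(45 / e) := by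
    rw [show (3 : ℝ) = √9 by rw [show (9 : ℝ) = 3 ^ 2 by norm_num, Real.sqrt_sq (by norm_num)]]
    exact Real.sqrt_le_sqrt h2
  calc (27 : ℝ) = 3 ^ 3 := by norm_num
    _ ≤ _ := pow_le_pow_left₀ (by norm_num) h3 3

open Classical in
/-- **MIXED GLUE for the weights with a floor.** -/
theorem glueF {c0 : ℕ} {σ : ℤ} {c : Pt} (hc : csz c ≤ 2 ^ c0) {δ e φ : ℝ} (hδ : 0 ≤ δ)
    (h0 : 0 < e) (h1 : e ≤ 1) (hφ : 0 ≤ φ) {l : ℕ} {m : ℤ → ℕ} {A : ℤ → Prop}
    (hm : ∀ x y, A x → ixs c0 σ (m x) y = ixs c0 σ (m x) x → A y ∧ m y = m x)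
    (hml : ∀ x, A x → m x ≤ l) {G : ℤ → ℝ} (q : Pt) (u : Tri)
    (h : ∀ x, A x → ∀ z ∈ cube3 l q,
      |dot ((gr c0 σ).cube (m x) x) G (a1 c (m x) (z, u))| ≤ wtF δ e φ (cube3 (m x) z) u) :
    |∑ y ∈ cube3 l q, (if A (el c y) then G (el c y) else 0) * atm u y| ≤
      Cg e * wtF δ e φ (cube3 l q) u := by
  have key := glue_abs hc (l := l) (q := q) hm hml (φ := fun y => G (el c y) * atm u y)
    (w := fun k z => wtF δ e φ (cube3 k z) u) (fun k z => wtF_nonneg hδ hφ _ _ _)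
    (fun x hx z hz => by
      have h2 := h x hx z hz
      rw [dot_a1] at h2
      refine le_trans (le_of_eq ?_) h2
      congr 1
      refine sum_congr rfl fun y _ => ?_
      by_cases hy : ixs c0 σ (m x) (el c y) = ixs c0 σ (m x) x
      · rw [if_pos hy, if_pos (mem_gs.2 hy)]
      · rw [if_neg hy, if_neg (fun h' => hy (mem_gs.1 h'))])
    (M := fun y => MM δ e l q u y + φ * mx3 (cube3 l q) u)
    (fun y => add_nonneg (MM_nonneg hδ e l q u y) (mul_nonneg hφ (mx3_nonneg _ _)))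
    (fun k hk z hz y hy => by
      have h2 := wt_le_MM hδ h0.le h1 hk hz hy u
      have h3 := mul_le_mul_of_nonneg_left (mx3_mono (cube3_sub hk hz) u) hφ
      have h4 : φ * ((cube3 k z).card : ℝ) * mx3 (cube3 k z) u ≤
          8 ^ k * (φ * mx3 (cube3 l q) u) := by
        rw [card_cube3]
        push_cast
        calc φ * 8 ^ k * mx3 (cube3 k z) u = 8 ^ k * (φ * mx3 (cube3 k z) u) := by ring
          _ ≤ _ := mul_le_mul_of_nonneg_left h3 (by positivity)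
      unfold wtF
      linarith)
  have hsum : 432 * ∑ y ∈ bl3 l q, (MM δ e l q u y + φ * mx3 (cube3 l q) u) ≤
      Cg e * wtF δ e φ (cube3 l q) u := by
    rw [sum_add_distrib, sum_const, nsmul_eq_mul, card_bl3]
    have h2 := sum_MM hδ h0 h1 l q u
    have h3 : 432 * (((27 * 8 ^ l : ℕ) : ℝ) * (φ * mx3 (cube3 l q) u)) ≤
        Cg e * (φ * (cube3 l q).card * mx3 (cube3 l q) u) := by
      rw [card_cube3]
      push_cast
      unfold Cg
      have h4 := sqrt_bound h0 h1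
      have h5 : 0 ≤ φ * 8 ^ l * mx3 (cube3 l q) u :=
        mul_nonneg (mul_nonneg hφ (by positivity)) (mx3_nonneg _ _)
      calc 432 * (27 * 8 ^ l * (φ * mx3 (cube3 l q) u)) =
            432 * 27 * (φ * 8 ^ l * mx3 (cube3 l q) u) := by ring
        _ ≤ 432 * √(45 / e) ^ 3 * (φ * 8 ^ l * mx3 (cube3 l q) u) := by gcongr
    unfold wtF
    rw [mul_add, mul_add]
    linarith
  refine le_trans (le_of_eq ?_) (key.trans hsum)
  congr 1
  refine sum_congr rfl fun y _ => ?_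
  by_cases hy : A (el c y)
  · rw [if_pos hy, if_pos hy]
  · rw [if_neg hy, if_neg hy, zero_mul]

open Classical in
/-- **MIXED GLUE on a cell**, weights with a floor: the tests of `sysF`. -/
theorem glueF_dot {c0 : ℕ} {σ : ℤ} {c : Pt} (hc : csz c ≤ 2 ^ c0) {δ e φ : ℝ} (hδ : 0 ≤ δ)
    (h0 : 0 < e) (h1 : e ≤ 1) (hφ : 0 ≤ φ) {l : ℕ} {x0 : ℤ} {m : ℤ → ℕ} {A : ℤ → Prop}
    (hm : ∀ x ∈ (gr c0 σ).cube l x0, ∀ y, A x → ixs c0 σ (m x) y = ixs c0 σ (m x) x →
      A y ∧ m y = m x)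
    (hml : ∀ x ∈ (gr c0 σ).cube l x0, A x → m x ≤ l) {G : ℤ → ℝ} (q : Pt) (u : Tri)
    (h : ∀ x ∈ (gr c0 σ).cube l x0, A x → ∀ z ∈ cube3 l q,
      |dot ((gr c0 σ).cube (m x) x) G (a1 c (m x) (z, u))| ≤ wtF δ e φ (cube3 (m x) z) u) :
    |dot ((gr c0 σ).cube l x0) (fun y => if A y then G y else 0) (a1 c l (q, u))| ≤
      Cg e * wtF δ e φ (cube3 l q) u := by
  have key := glueF hc hδ h0 h1 hφ (l := l) (m := m)
    (A := fun x => x ∈ (gr c0 σ).cube l x0 ∧ A x)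
    (fun x y hx hy => by
      obtain ⟨h2, h3⟩ := hm x hx.1 y hx.2 hy
      have hl := hml x hx.1 hx.2
      have h4 : y ∈ (gr c0 σ).cube l x := (gr c0 σ).sub_le hl x (mem_gs.2 hy)
      have h5 : (gr c0 σ).cube l x = (gr c0 σ).cube l x0 := (gr c0 σ).eq_of_mem l x0 x hx.1
      exact ⟨⟨h5 ▸ h4, h2⟩, h3⟩)
    (fun x hx => hml x hx.1 hx.2) (G := G) q u (fun x hx => h x hx.1 hx.2)
  rw [dot_a1]
  refine le_trans (le_of_eq ?_) key
  congr 1
  refine sum_congr rfl fun y _ => ?_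
  by_cases hy : el c y ∈ (gr c0 σ).cube l x0
  · by_cases hA : A (el c y)
    · rw [if_pos hy, if_pos hA, if_pos ⟨hy, hA⟩]
    · rw [if_pos hy, if_neg hA, if_neg (fun h' => hA h'.2)]
  · rw [if_neg hy, if_neg (fun h' => hy h'.1), zero_mul]

/-! ### Heights of the atoms -/

/-- the points of a cube on a plane -/
theorem card_fibre_le {c : Pt} (hc : c.1 ≠ 0) (k : ℕ) (q : Pt) (s : ℤ) :
    ((cube3 k q).filter fun y => el c y = s).card ≤ 4 ^ k := by
  classical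
  have h1 : ((cube3 k q).filter fun y => el c y = s).card ≤
      (iv k q.2.1 ×ˢ iv k q.2.2).card := by
    refine card_le_card_of_injOn (fun y => y.2) ?_ ?_
    · intro y hy
      rw [mem_coe, mem_filter, mem_cube3] at hy
      exact mem_coe.2 (mem_product.2 ⟨hy.1.2.1, hy.1.2.2⟩)
    · intro y hy y' hy' hyy
      rw [mem_coe, mem_filter] at hy hy'
      have e1 := hy.2.trans hy'.2.symm
      simp only at hyy
      unfold el at e1
      rw [hyy] at e1
      have e2 : c.1 * y.1 = c.1 * y'.1 := by linarith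
      exact Prod.ext (mul_left_cancel₀ hc e2) hyy
  refine h1.trans (le_of_eq ?_)
  rw [card_product, card_iv, card_iv, ← mul_pow]
  norm_num

theorem abs_a1_le {c : Pt} (hc : c.1 ≠ 0) (k : ℕ) (i : Pt × Tri) (s : ℤ) :
    |a1 c k i s| ≤ 4 ^ k * mx3 (cube3 k i.1) i.2 := by
  classical
  unfold a1
  rw [← sum_filter]
  refine (abs_sum_le_sum_abs _ _).trans ?_
  have h1 : ∑ y ∈ (cube3 k i.1).filter (fun y => el c y = s), |atm i.2 y| ≤
      ∑ y ∈ (cube3 k i.1).filter (fun y => el c y = s), mx3 (cube3 k i.1) i.2 :=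
    sum_le_sum fun y hy => abs_atm_le (mem_filter.1 hy).1 i.2
  refine h1.trans ?_
  rw [sum_const, nsmul_eq_mul]
  refine mul_le_mul_of_nonneg_right ?_ (mx3_nonneg _ _)
  have := card_fibre_le hc k i.1 s
  exact_mod_cast this

/-- the density of the floor part of the weight on a cell -/
def flr (c0 : ℕ) (φ : ℝ) (j : ℕ) (i : Pt × Tri) : ℝ :=
  φ * 8 ^ j * mx3 (cube3 j i.1) i.2 / 2 ^ (j + c0)

theorem flr_nonneg {φ : ℝ} (hφ : 0 ≤ φ) (c0 j : ℕ) (i : Pt × Tri) : 0 ≤ flr c0 φ j i :=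
  div_nonneg (mul_nonneg (mul_nonneg hφ (by positivity)) (mx3_nonneg _ _)) (by positivity)

theorem abs_a1_le_flr {c : Pt} (hc : c.1 ≠ 0) {φ : ℝ} (hφ : 0 < φ) (c0 j : ℕ) (i : Pt × Tri)
    (s : ℤ) : |a1 c j i s| ≤ 2 ^ c0 / φ * flr c0 φ j i := by
  refine (abs_a1_le hc j i s).trans (le_of_eq ?_)
  unfold flr
  have e1 : (8 : ℝ) ^ j = 2 ^ j * 4 ^ j := by rw [← mul_pow]; norm_num
  rw [pow_add, e1]
  field_simp

/-- the number of points of a cell -/
theorem card_cell (c0 : ℕ) (σ : ℤ) (k : ℕ) (x : ℤ) :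
    (((gr c0 σ).cube k x).card : ℝ) = 2 ^ (k + c0) := by
  rw [card_gr]; push_cast; rfl

/-- the atoms of `sysF` are bounded by `2 ^ c0 / φ` times the density of their weight -/
theorem supB_sysF {c0 : ℕ} {σ : ℤ} {c : Pt} (hc : csz c ≤ 2 ^ c0) (hc1 : c.1 ≠ 0) {δ e φ : ℝ}
    (hδ : 0 < δ) (h0 : 0 ≤ e) (h1 : e ≤ 1) (hφ : 0 < φ) :
    SupB (sysF c0 σ c hc δ e φ hδ h0 h1 hφ.le) (2 ^ c0 / φ) := by
  intro k x i y _
  have h2 := abs_a1_le_flr hc1 hφ c0 k i y
  have h3 : flr c0 φ k i * (((gr c0 σ).cube k x).card : ℝ) ≤ wtF δ e φ (cube3 k i.1) i.2 := by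
    rw [card_cell]
    unfold flr wtF
    rw [div_mul_cancel₀ _ (by positivity), card_cube3]
    push_cast
    have := wt_nonneg hδ.le e (cube3 k i.1) i.2
    linarith
  have hp : (0 : ℝ) ≤ 2 ^ c0 / φ := by positivity
  calc |a1 c k i y| * (((gr c0 σ).cube k x).card : ℝ)
      ≤ (2 ^ c0 / φ * flr c0 φ k i) * (((gr c0 σ).cube k x).card : ℝ) :=
        mul_le_mul_of_nonneg_right h2 (Nat.cast_nonneg _)
    _ = 2 ^ c0 / φ * (flr c0 φ k i * (((gr c0 σ).cube k x).card : ℝ)) := by ring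
    _ ≤ 2 ^ c0 / φ * wtF δ e φ (cube3 k i.1) i.2 := mul_le_mul_of_nonneg_left h3 hp

open Vale.Agent.P141.H347 (LW Fam) in
open scoped Classical in
/-- local weights of `sysF` from local weights of the same tests with the weight `wt`: the floor
part has a constant density on the cell of the birth -/
def lwF {c0 : ℕ} {σ : ℤ} {c : Pt} (hc : csz c ≤ 2 ^ c0) {δ e φ : ℝ}
    (hδ : 0 < δ) (h0 : 0 ≤ e) (h1 : e ≤ 1) (hφ : 0 ≤ φ) (w : LW (sys1 c0 σ c hc δ e hδ h0 h1)) :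
    LW (sysF c0 σ c hc δ e φ hδ h0 h1 hφ) where
  ω := fun j k x i => w.ω j k x i + flr c0 φ j i
  nonneg := fun j k x i => add_nonneg (w.nonneg j k x i) (flr_nonneg hφ c0 j i)
  const := fun j k x y i hy => by rw [w.const j k x y i hy]
  pack := by
    intro j x i A m hF hm
    have h2 := w.pack j x i A m hF hm
    have h3 : ∑ z ∈ (gr c0 σ).cube j x, (if A z then flr c0 φ j i else 0) ≤
        φ * (cube3 j i.1).card * mx3 (cube3 j i.1) i.2 := by
      have h4 : ∑ z ∈ (gr c0 σ).cube j x, (if A z then flr c0 φ j i else 0) ≤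
          ∑ z ∈ (gr c0 σ).cube j x, flr c0 φ j i := by
        refine sum_le_sum fun z _ => ?_
        split_ifs
        · exact le_rfl
        · exact flr_nonneg hφ c0 j i
      refine h4.trans (le_of_eq ?_)
      rw [sum_const, nsmul_eq_mul, card_cell, card_cube3]
      unfold flr
      rw [mul_div_cancel₀ _ (by positivity)]
      push_cast
      ring
    have e1 : ∀ z ∈ (gr c0 σ).cube j x, (if A z then w.ω j (m z) z i + flr c0 φ j i else 0) =
        (if A z then w.ω j (m z) z i else 0) + (if A z then flr c0 φ j i else 0) := by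
      intro z _
      split_ifs <;> simp
    rw [sum_congr rfl e1, sum_add_distrib]
    exact add_le_add h2 h3

theorem supW_lwF {c0 : ℕ} {σ : ℤ} {c : Pt} (hc : csz c ≤ 2 ^ c0) (hc1 : c.1 ≠ 0) {δ e φ : ℝ}
    (hδ : 0 < δ) (h0 : 0 ≤ e) (h1 : e ≤ 1) (hφ : 0 < φ)
    (w : Vale.Agent.P141.H347.LW (sys1 c0 σ c hc δ e hδ h0 h1)) :
    SupW (lwF hc hδ h0 h1 hφ.le w) (2 ^ c0 / φ) := by
  intro j k x i _
  refine (abs_a1_le_flr hc1 hφ c0 j i x).trans ?_
  have hp : (0 : ℝ) ≤ 2 ^ c0 / φ := by positivity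
  exact mul_le_mul_of_nonneg_left (le_add_of_nonneg_left (w.nonneg j k x i)) hp

end

end Vale.Agent.P141.H922
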