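import Vale.Agent.P141.H922.PairGl
import Vale.Agent.P141.H922.Floor
import Vale.Agent.P141.H736.TfSum
import Vale.Agent.P141.H297.Win1

/-!
# P141: the scalar system with the pair weight, the total system

* `sysP`: tests `a1 c`, weights `wP δ (cube3 k i.1) i.2`, inheritance constant `2`;
* `mix_sysP`: mixed inheritance, constant `CgP`;
* `sysPT = sumS (sysP ..) P.toC`: the total system with a packed system `P`; `mix_sysPT`, `unifPT`.
-/

namespace Vale.Agent.P141.H922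

open Finset
open Vale.Agent.P141.H315 (Grid dot dot_self_nonneg)
open Vale.Agent.P141.PL (Pt el)
open Vale.Agent.P141.PL.H315 (cube3 mem_cube3 gz card_cube3 avg iv mem_iv e12 e13 e23 wt wt_nonneg
  Nm Tri mx atm)
open Vale.Agent.P141.PL.H95 (gr mem_gr card_gr)
open Vale.Agent.P141.PL.H318
open Vale.Agent.P141.H347 (LW Fam)
open Vale.Agent.P141.H297 (Mix)
open Vale.Agent.P141.H736 (sumS sumLW PSys)

noncomputable section

/-! ### Mixed inheritance of sums and of packed systems -/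

section abs

open scoped Classical

variable {X ι κ : Type*} {g : Grid X}

theorem Mix.mono {S : CSys g ι} {C C' : ℝ} (h : Mix S C) (hC : C ≤ C') : Mix S C' :=
  fun l x m G h1 h2 h3 i => (h l x m G h1 h2 h3 i).trans
    (mul_le_mul_of_nonneg_right hC (S.W_nonneg _ _ _))

theorem mix_sum {S : CSys g ι} {S' : CSys g κ} {C : ℝ} (h : Mix S C) (h' : Mix S' C) :
    Mix (sumS S S') C := by
  rintro l x m G h1 h2 h3 (i | i)
  · exact h l x m G h1 h2 (fun y hy i => h3 y hy (Sum.inl i)) i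
  · exact h' l x m G h1 h2 (fun y hy i => h3 y hy (Sum.inr i)) i

/-- mixed inheritance of a packed system -/
theorem mix_psys (P : PSys g ι) : Mix P.toC P.C := by
  intro l x m G h1 h2 h3 i
  by_cases hl : P.live l i
  · -- the family: the points of the cube `l`
    have hA : Fam g (fun y => y ∈ g.cube l x) m := by
      intro z hz y hy
      refine ⟨?_, h2 z hz y hy⟩
      have h4 := g.sub_le (h1 z hz) z hy
      rwa [g.eq_of_mem l x z hz] at h4
    have h5 := P.glue hA (j := l) (x := x) (fun z hz _ => h1 z hz) G i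
      (fun z hz _ => by
        have h6 := h3 z hz i
        rwa [P.toC_a, if_pos (P.live_mono _ _ i (h1 z hz) hl)] at h6)
    rw [P.toC_a, if_pos hl]
    refine le_trans (le_of_eq ?_) h5
    congr 1
    unfold dot
    exact sum_congr rfl fun y hy => by dsimp only; rw [if_pos hy]
  · rw [P.toC_a, if_neg hl, Vale.Agent.P141.H736.dot_zero_right, abs_zero]
    exact mul_nonneg (zero_le_one.trans P.one_le) (P.W_nonneg _ _ _)

end abs

theorem Nm_zero {X : Type*} (Q : Finset X) (f : X → ℝ) : Nm 0 Q f = n2 Q f := by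
  unfold Nm n2
  rw [Real.rpow_zero, mul_one, Real.sqrt_eq_rpow]
  norm_num

theorem wt_zero_eq (δ : ℝ) (Q : Finset Pt) (u : Tri) :
    wt δ 0 Q u = δ * Q.card * (n2 Q (e12 u.1) * n2 Q (e13 u.2.1) * n2 Q (e23 u.2.2)) := by
  unfold wt
  rw [Nm_zero, Nm_zero, Nm_zero]

theorem wt_zero_le_wP {δ : ℝ} (hδ : 0 ≤ δ) (Q : Finset Pt) (u : Tri) :
    3 * wt δ 0 Q u ≤ wP δ Q u := by
  rw [wt_zero_eq]
  exact three_wt_le_wP hδ Q u

theorem wP_mul (δ δ' : ℝ) (Q : Finset Pt) (u : Tri) : wP (δ * δ') Q u = δ * wP δ' Q u := by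
  unfold wP; ring

theorem wP_eq (δ : ℝ) (Q : Finset Pt) (u : Tri) : wP δ Q u = δ * wP 1 Q u := by
  unfold wP; ring

/-- **The scalar system with the pair weight.** -/
def sysP (c0 : ℕ) (σ : ℤ) (c : Pt) (hc : csz c ≤ 2 ^ c0) (δ : ℝ) (hδ : 0 < δ) :
    CSys (gr c0 σ) (Pt × Tri) where
  a := a1 c
  W := fun k _ i => wP δ (cube3 k i.1) i.2
  W_nonneg := fun k _ i => wP_nonneg hδ.le _ _
  nondeg := fun k x => by
    obtain ⟨β, hβ, h⟩ := nondeg_a1 hδ le_rfl zero_le_one c k ((gr c0 σ).cube k x)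
    refine ⟨β, hβ, fun i => (h i).trans ?_⟩
    have h0 := wt_nonneg hδ.le 0 (cube3 k i.1) i.2
    have h1 := wt_zero_le_wP hδ.le (cube3 k i.1) i.2
    exact pow_le_pow_left₀ h0 (by linarith) 2
  C := 2
  C_nonneg := by norm_num
  inherit := by
    intro k l hkl x i G hG
    rw [dot_a1]
    have h2 := cube_unif_coarse_w (C := 2) (u := i.2) (w := fun z => wP δ (cube3 k z) i.2)
      hkl (by norm_num) (φ := fun y => @ite _ (el c y ∈ (gr c0 σ).cube l x)
        (Classical.propDecidable _) (G (el c y)) 0) i.1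
      (fun q _ => cube_unif_w (c0 := c0) (σ := σ) hc k (G := G)
        (A := fun s => s ∈ (gr c0 σ).cube l x)
        (by
          intro s s' hs
          have h3 : s' ∈ (gr c0 σ).cube k s := mem_gs.mpr hs
          have h4 : s' ∈ (gr c0 σ).cube l s := (gr c0 σ).sub_le hkl s h3
          rw [mem_gs, mem_gs, mem_gs.mp h4])
        q i.2 (wP_nonneg hδ.le _ _)
        (fun s hs => hG s hs (q, i.2)))
      (wP_super hδ.le hkl i.1 i.2)
    refine le_trans (le_of_eq ?_) h2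
    congr 1
    refine Finset.sum_congr rfl fun y _ => ?_
    by_cases h : el c y ∈ (gr c0 σ).cube l x
    · simp [h]
    · simp [h]

section

variable (c0 : ℕ) (σ : ℤ) (c : Pt) (hc : csz c ≤ 2 ^ c0) (δ : ℝ) (hδ : 0 < δ)

@[simp] theorem sysP_a (k : ℕ) (i : Pt × Tri) : (sysP c0 σ c hc δ hδ).a k i = a1 c k i := rfl

@[simp] theorem sysP_W (k : ℕ) (Q : Finset ℤ) (i : Pt × Tri) :
    (sysP c0 σ c hc δ hδ).W k Q i = wP δ (cube3 k i.1) i.2 := rfl

theorem two_le_CgP : (2 : ℝ) ≤ CgP := by unfold CgP; norm_num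

theorem CgP_nonneg : (0 : ℝ) ≤ CgP := by unfold CgP; norm_num

/-- **mixed inheritance of the pair system**, absolute constant -/
theorem mix_sysP : Mix (sysP c0 σ c hc δ hδ) CgP := by
  classical
  intro l x m F g1 g2 g3 i
  have h := glueP_dot hc hδ.le (l := l) (x0 := x) (m := m)
    (A := fun _ => True)
    (fun y hy z _ hz => ⟨trivial, g2 y hy z (mem_gs.2 hz)⟩)
    (fun y hy _ => g1 y hy) (G := F) i.1 i.2 (fun y hy _ z _ => g3 y hy (z, i.2))
  simpa using h

open Classical in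
/-- mixed glue on a part of a cell -/
theorem gluePs_dot {l : ℕ} {x0 : ℤ} {m : ℤ → ℕ} {A : ℤ → Prop}
    (hm : ∀ x ∈ (gr c0 σ).cube l x0, ∀ y, A x → ixs c0 σ (m x) y = ixs c0 σ (m x) x →
      A y ∧ m y = m x)
    (hml : ∀ x ∈ (gr c0 σ).cube l x0, A x → m x ≤ l) {F : ℤ → ℝ}
    (h : ∀ x ∈ (gr c0 σ).cube l x0, A x → ∀ i,
      |dot ((gr c0 σ).cube (m x) x) F ((sysP c0 σ c hc δ hδ).a (m x) i)| ≤
        (sysP c0 σ c hc δ hδ).W (m x) ((gr c0 σ).cube (m x) x) i)
    (i : Pt × Tri) :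
    |dot ((gr c0 σ).cube l x0) (fun y => if A y then F y else 0)
        ((sysP c0 σ c hc δ hδ).a l i)| ≤
      CgP * (sysP c0 σ c hc δ hδ).W l ((gr c0 σ).cube l x0) i :=
  glueP_dot hc hδ.le hm hml (G := F) i.1 i.2 (fun x hx hA z _ => h x hx hA (z, i.2))

variable {ι : Type*}

/-- **The total system**: the pair system and a packed system. -/
def sysPT (P : PSys (gr c0 σ) ι) : CSys (gr c0 σ) ((Pt × Tri) ⊕ ι) :=
  sumS (sysP c0 σ c hc δ hδ) P.toC

/-- **mixed inheritance of the total system** -/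
theorem mix_sysPT (P : PSys (gr c0 σ) ι) {C : ℝ} (hC : CgP ≤ C) (hC' : P.C ≤ C) :
    Mix (sysPT c0 σ c hc δ hδ P) C :=
  mix_sum (Mix.mono (mix_sysP c0 σ c hc δ hδ) hC) (Mix.mono (mix_psys P) hC')

/-- its local weights -/
def lwPT (w : LW (sysP c0 σ c hc δ hδ)) (P : PSys (gr c0 σ) ι) :
    LW (sysPT c0 σ c hc δ hδ P) :=
  sumLW w P.lw

/-- uniformity for the total system: the scalar tests -/
theorem unifPT (P : PSys (gr c0 σ) ι) {k : ℕ} {Q : Finset ℤ} {F : ℤ → ℝ}
    (h : ∀ i, |dot Q F ((sysPT c0 σ c hc δ hδ P).a k i)| ≤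
      (sysPT c0 σ c hc δ hδ P).W k Q i) (q : Pt) (u : Tri) :
    |dot Q F (a1 c k (q, u))| ≤ wP δ (cube3 k q) u :=
  h (Sum.inl (q, u))

/-- uniformity for the total system: the packed tests -/
theorem unifPT_gen (P : PSys (gr c0 σ) ι) {k : ℕ} {Q : Finset ℤ} {F : ℤ → ℝ}
    (h : ∀ i, |dot Q F ((sysPT c0 σ c hc δ hδ P).a k i)| ≤
      (sysPT c0 σ c hc δ hδ P).W k Q i) (i : ι) (hi : P.live k i) :
    |dot Q F (P.ψ i)| ≤ P.W k Q i := by
  have h1 := h (Sum.inr i)
  change |dot Q F (P.toC.a k i)| ≤ P.W k Q i at h1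
  rwa [P.toC_a, if_pos hi] at h1

end

end

end Vale.Agent.P141.H922
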