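import Vale.Agent.P141.H922.NbAB2

/-!
# P141, line (A): neighbour differences of `(A, b)`, sum over all scales

`Chg` : the change numbers of the functions of time `t → t + 1` at middle scale `t + j`.
`nb_total` : the sum over all scales and all tied nodes.
-/

namespace Vale.Agent.P141.H922.NB

open Finset Matrix
open Vale.Agent.P141.PL (iv hs ix mem_iv)
open Vale.Agent.P141.PL.H103
open Vale.Agent.P141.PL
open Vale.Agent.P141.H103
open Vale.Agent.P141.H652
open Vale.Agent.P075 (Ix val)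
open Vale.Agent.P141.H352 (nd pc rs gp Avg nd_chain pc_q_le)

noncomputable section

variable {κ : Type*} [Fintype κ] [DecidableEq κ]

/-- change numbers: functions of time `t → t + 1` at middle scale `t + j` -/
structure Chg (N : ℕ) (R S T : ℤ) (c : ℕ → ℤ) (A : ℕ → ℤ → ℤ → ℝ) (b : ℕ → ℤ → ℤ → κ → ℝ)
    (dE dF : ℕ → ℕ → ℕ → ℝ) (xM : ℕ → ℕ → ℝ) : Prop where
  hA : ∀ j t, 1 ≤ j → 1 ≤ t → t + j < N → ∀ a, t + 1 ≤ a → a ≤ N →
    EW N R S (t + j) (PA (A (t + 1)) (t + j)) a ≤ EW N R S (t + j) (PA (A t) (t + j)) a + dE j t a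
  hB : ∀ j t, 1 ≤ j → 1 ≤ t → t + j < N → ∀ a, t + 1 ≤ a → a ≤ N →
    EW N T S (t + j) (QU (b (t + 1)) (t + j)) a ≤ EW N T S (t + j) (QU (b t) (t + j)) a + dF j t a
  hM : ∀ j t, 1 ≤ j → 1 ≤ t → t + j < N →
    MW N R S T (t + j) (c (t + j)) (PA (A (t + 1)) (t + j) (t + j)) (QU (b (t + 1)) (t + j) (t + j))
      ≤ MW N R S T (t + j) (c (t + j)) (PA (A t) (t + j) (t + j)) (QU (b t) (t + j) (t + j))
        + xM j t

/-- static functions have no changes -/
theorem Chg.static (N : ℕ) (R S T : ℤ) (c : ℕ → ℤ) (A : ℤ → ℤ → ℝ) (b : ℤ → ℤ → κ → ℝ) :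
    Chg N R S T c (fun _ => A) (fun _ => b) (fun _ _ _ => 0) (fun _ _ _ => 0) (fun _ _ => 0) where
  hA := fun _ _ _ _ _ _ _ _ => by rw [add_zero]
  hB := fun _ _ _ _ _ _ _ _ => by rw [add_zero]
  hM := fun _ _ _ _ _ => by rw [add_zero]

theorem WW_mono {N k : ℕ} (hk : k ≤ N) {e e' d : ℕ → ℝ} (h : ∀ a, k ≤ a → a ≤ N → e a ≤ e' a + d a) :
    WW N k e ≤ WW N k e' + WW N k d := by
  unfold WW
  rw [← sum_add_distrib]
  refine sum_le_sum fun r hr => ?_
  have := mem_range.1 hr
  rw [← mul_add]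
  exact mul_le_mul_of_nonneg_left (h _ (by omega) (by omega)) (by positivity)

/-- the gains at distance `j` -/
theorem gains {N j D : ℕ} (hj1 : 1 ≤ j) (hj : j ≤ N) {R S T : ℤ} {c : ℕ → ℤ} (hc : PlD D c)
    {A : ℕ → ℤ → ℤ → ℝ} {b : ℕ → ℤ → ℤ → κ → ℝ} {dE dF : ℕ → ℕ → ℕ → ℝ} {xM : ℕ → ℕ → ℝ}
    (H : Chg N R S T c A b dE dF xM) :
    ∑ l ∈ Ico (j + 1) (N + 1), MW N R S T l (c l) (PA (sg l (A (l - j))) l l) (QU (b (l - j)) l l)
      ≤ (16 * D + 5) * (EW N R S j (PA (A 1) j) j + EW N T S j (QU (b 1) j) j)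
        + ∑ t ∈ Ico 1 (N - j), (xM j t
          + (4 * D + 1) * (WW N (t + j) (dE j t) + WW N (t + j) (dF j t))) := by
  have h := totalR (k₀ := j) (N := N) (r := 0) (D := D) (by omega) (R := R) (S := S) (T := T) hc
    (P := fun k => PA (A (max 1 (k - j))) k) (P' := fun k => PA (A (k + 1 - j)) k)
    (Q := fun k => QU (b (max 1 (k - j))) k) (Q' := fun k => QU (b (k + 1 - j)) k)
    (g := fun k n n' m => (PA (sg (k + 1) (A (k + 1 - j))) (k + 1) (k + 1) n m
      * QU (b (k + 1 - j)) (k + 1) (k + 1) n' m).trace)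
    (dE := fun _ _ => 0) (dF := fun _ _ => 0)
    (x := fun k => if k = j then 0 else xM j (k - j)
      + (4 * D + 1) * (WW N k (dE j (k - j)) + WW N k (dF j (k - j))))
    (fun k _ _ => PA_outA N _ k _) (fun k _ _ => QU_out N _ k _)
    (fun k _ _ => PA_outA N _ k _) (fun k _ _ => QU_out N _ k _)
    (fun k a n m => PA_symm _ k a n m) (fun k a n m => QU_symm _ k a n m)
    (fun k a n m => PA_symm _ k a n m) (fun k a n m => QU_symm _ k a n m)
    (fun k h1 h2 n n' m => by
      have e : max 1 (k + 1 - j) = k + 1 - j := by omega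
      simp only [e, add_zero]
      exact (mid_eq (k + 1) (k + 1) k (A (k + 1 - j)) (b (k + 1 - j)) n n' m).le)
    (fun k h1 h2 a _ _ => by
      have e : max 1 (k + 1 - j) = k + 1 - j := by omega
      simp only [e, add_zero]
      exact PA_own (by omega) R S _ a)
    (fun k h1 h2 a _ _ => by
      have e : max 1 (k + 1 - j) = k + 1 - j := by omega
      simp only [e, add_zero]
      exact QU_own (by omega) T S _ a)
    (fun k h1 h2 => by
      simp only [add_zero] at h2 ⊢
      rcases Nat.eq_or_lt_of_le h1 with rfl | hlt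
      · have e1 : max 1 (j - j) = 1 := by omega
        have e2 : j + 1 - j = 1 := by omega
        simp only [e1, e2, if_true, add_zero]
        exact le_rfl
      · obtain ⟨t, rfl⟩ : ∃ t, k = t + j := ⟨k - j, by omega⟩
        have ht : 1 ≤ t := by omega
        have e1 : t + j - j = t := by omega
        have e2 : max 1 t = t := by omega
        have e3 : t + j + 1 - j = t + 1 := by omega
        rw [if_neg (by omega)]
        simp only [e1, e2, e3]
        have q1 := H.hM j t hj1 ht h2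
        have q2 := WW_mono (N := N) (k := t + j) (by omega)
          (e := EW N R S (t + j) (PA (A (t + 1)) (t + j))) (e' := EW N R S (t + j) (PA (A t) (t + j)))
          (d := dE j t) fun a h3 h4 => H.hA j t hj1 ht h2 a (by omega) h4
        have q3 := WW_mono (N := N) (k := t + j) (by omega)
          (e := EW N T S (t + j) (QU (b (t + 1)) (t + j))) (e' := EW N T S (t + j) (QU (b t) (t + j)))
          (d := dF j t) fun a h3 h4 => H.hB j t hj1 ht h2 a (by omega) h4
        have hD0 : (0 : ℝ) ≤ 4 * D + 1 := by positivity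
        have q4 := mul_le_mul_of_nonneg_left (add_le_add q2 q3) hD0
        rw [MR_zero, MR_zero]
        simp only [mul_add] at q4 ⊢
        linarith)
  have e0 : max 1 (j - j) = 1 := by omega
  have hW0 : ∀ k, WW N k (fun _ => (0 : ℝ)) = 0 := fun k => by
    unfold WW
    simp
  simp only [e0, add_zero, Nat.sub_zero, GR_zero, hW0, sum_const_zero, mul_zero] at h
  have e4 : ∑ l ∈ Ico (j + 1) (N + 1), MW N R S T l (c l) (PA (sg l (A (l - j))) l l)
      (QU (b (l - j)) l l) = ∑ k ∈ Ico j N, GW N R S T (k + 1) (c (k + 1)) (fun n n' m =>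
        (PA (sg (k + 1) (A (k + 1 - j))) (k + 1) (k + 1) n m
          * QU (b (k + 1 - j)) (k + 1) (k + 1) n' m).trace) := by
    rw [← Finset.sum_Ico_add' (fun l => MW N R S T l (c l) (PA (sg l (A (l - j))) l l)
      (QU (b (l - j)) l l)) j N 1]
    rfl
  rw [e4]
  refine h.trans (add_le_add_right (le_of_eq ?_) _)
  rcases Nat.eq_or_lt_of_le hj with rfl | hlt
  · simp
  · rw [Finset.sum_eq_sum_Ico_succ_bot hlt]
    simp only [if_true, zero_add]
    have e5 := Finset.sum_Ico_add' (fun k => if k = j then (0 : ℝ) else xM j (k - j)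
      + (4 * D + 1) * (WW N k (dE j (k - j)) + WW N k (dF j (k - j)))) 1 (N - j) j
    rw [show N - j + j = N by omega, add_comm 1 j] at e5
    rw [← e5]
    refine sum_congr rfl fun t ht => ?_
    have := mem_Ico.1 ht
    rw [if_neg (by omega), Nat.add_sub_cancel]

/-- shift energies are at most the first own energy -/
theorem SEW_le {N k : ℕ} (hk : k ≤ N) {e : ℕ → ℝ} (h : ∀ a, k ≤ a → a < N → e (a + 1) ≤ e a)
    (hN : 0 ≤ e N) : SEW N k e ≤ e k := by
  unfold SEW
  have h1 : ∑ r ∈ range (N - k), (3 / 4 : ℝ) ^ r * (e (k + r) - e (k + r + 1))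
      ≤ ∑ r ∈ range (N - k), (e (k + r) - e (k + (r + 1))) := by
    refine sum_le_sum fun r hr => ?_
    have := mem_range.1 hr
    have h2 := h (k + r) (by omega) (by omega)
    have h3 : (3 / 4 : ℝ) ^ r ≤ 1 := pow_le_one₀ (by norm_num) (by norm_num)
    rw [← add_assoc]
    nlinarith
  rw [Finset.sum_range_sub' (fun r => e (k + r))] at h1
  have h4 : (3 / 4 : ℝ) ^ (N - k) * e N ≤ e N := by
    have h3 : (3 / 4 : ℝ) ^ (N - k) ≤ 1 := pow_le_one₀ (by norm_num) (by norm_num)
    nlinarith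
  rw [show k + (N - k) = N by omega, add_zero] at h1
  linarith

/-- right side at distance `j` -/
def BB (N : ℕ) (R S T : ℤ) (D : ℕ) (A : ℕ → ℤ → ℤ → ℝ) (b : ℕ → ℤ → ℤ → κ → ℝ)
    (dE dF : ℕ → ℕ → ℕ → ℝ) (xM : ℕ → ℕ → ℝ) (E0 : ℝ) (j : ℕ) : ℝ :=
  (16 * D + 5) * (EW N R S 1 (PA (A 1) 1) 1 + EW N T S 1 (QU (b 1) 1) 1)
    + ∑ t ∈ Ico 1 (N - j), (xM j t + (4 * D + 1) * (WW N (t + j) (dE j t) + WW N (t + j) (dF j t)))
    + (4 * D + 1) * (4 * j * (EW N R S 1 (PA (A 1) 1) 1 + EW N T S 1 (QU (b 1) 1) 1)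
      + ∑ i ∈ range j, ∑ k ∈ Ico 1 (N - j),
        (WW N (k + i + 1) (dE j k) + WW N (k + i + 1) (dF j k)) + j * E0)

theorem PA_own_le {N : ℕ} (R S : ℤ) (A : ℤ → ℤ → ℝ) (a : ℕ) {k l : ℕ} (hkl : k ≤ l) (hl : l ≤ N) :
    EW N R S l (PA A l) a ≤ EW N R S k (PA A k) a := by
  induction l, hkl using Nat.le_induction with
  | base => exact le_rfl
  | succ l hkl ih => exact (PA_own (by omega) R S A a).trans (ih (by omega))

theorem QU_own_le {N : ℕ} (R S : ℤ) (b : ℤ → ℤ → κ → ℝ) (a : ℕ) {k l : ℕ} (hkl : k ≤ l)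
    (hl : l ≤ N) : EW N R S l (QU b l) a ≤ EW N R S k (QU b k) a := by
  induction l, hkl using Nat.le_induction with
  | base => exact le_rfl
  | succ l hkl ih => exact (QU_own (by omega) R S b a).trans (ih (by omega))

/-- **The tubes at distance `j`**, all scales. -/
theorem tubes {N j D : ℕ} (hj1 : 1 ≤ j) (hj : j < N) {R S T : ℤ} {c : ℕ → ℤ} (hc : PlD D c)
    {s : ℤ} (hs : 0 ≤ s) (hs' : s < 2 ^ j)
    {A : ℕ → ℤ → ℤ → ℝ} {b : ℕ → ℤ → ℤ → κ → ℝ} {dE dF : ℕ → ℕ → ℕ → ℝ} {xM : ℕ → ℕ → ℝ}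
    (H : Chg N R S T c A b dE dF xM) {E0 : ℝ}
    (h0 : ∀ k, 1 ≤ k → k ≤ N → EW N R S N (PA (A k) N) k + EW N T S N (QU (b k) N) k ≤ E0) :
    ∑ K ∈ Ico 1 (N - j + 1), TW N R S T K j s (c K) (fun n n' M =>
        (PA (sg (K + j) (A K)) (K + j) K n M * QU (b K) (K + j) K n' M).trace)
      ≤ (2 ^ j)⁻¹ * BB N R S T D A b dE dF xM E0 j := by
  have t1 := tube_sum (k₀ := 1) (N := N) (j := j) (D := D) (by omega) (R := R) (S := S) (T := T) hc
    hs hs' (P := fun l => PA (sg l (A (l - j))) l) (Q := fun l => QU (b (l - j)) l)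
    (dE := fun l => dE j (l - j)) (dF := fun l => dF j (l - j))
    (fun l _ _ => PA_outA N _ l _) (fun l _ _ => QU_out N _ l _)
    (fun l a n m => PA_symm _ l a n m) (fun l a n m => QU_symm _ l a n m)
    (fun l h1 h2 a h3 h4 => by
      rw [EW_sg, EW_sg]
      obtain ⟨t, rfl⟩ : ∃ t, l = t + j := ⟨l - j, by omega⟩
      rw [show t + j + 1 - j = t + 1 by omega, Nat.add_sub_cancel]
      exact (PA_own (by omega) R S _ a).trans
        (H.hA j t hj1 (by omega) h2 a (by omega) h4))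
    (fun l h1 h2 a h3 h4 => by
      obtain ⟨t, rfl⟩ : ∃ t, l = t + j := ⟨l - j, by omega⟩
      rw [show t + j + 1 - j = t + 1 by omega, Nat.add_sub_cancel]
      exact (QU_own (by omega) T S _ a).trans
        (H.hB j t hj1 (by omega) h2 a (by omega) h4))
  have t2 := tube (N := N) (k := N - j) (j := j) (D := D) (by omega) (R := R) (S := S) (T := T) hc
    hs hs' (P := PA (sg N (A (N - j))) N) (Q := QU (b (N - j)) N)
    (PA_outA N _ N _) (QU_out N _ N _) (PA_symm _ N) (QU_symm _ N)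
  have g := gains hj1 hj.le (R := R) (S := S) (T := T) hc H
  rw [Finset.sum_Ico_succ_top (by omega : j + 1 ≤ N)] at g
  rw [show N - j + j = N by omega] at t2
  rw [Finset.sum_Ico_succ_top (by omega : 1 ≤ N - j), show N - j + j = N by omega]
  simp only [Nat.add_sub_cancel, EW_sg] at t1
  -- the shift energies at the top
  have u1 : ∀ i ∈ range j, SEW N (N - j + i) (EW N R S N (PA (sg N (A (N - j))) N))
      + SEW N (N - j + i) (EW N T S N (QU (b (N - j)) N)) ≤ E0 := by
    intro i hi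
    have hi' := mem_range.1 hi
    have a1 := SEW_le (N := N) (k := N - j + i) (by omega)
      (e := EW N R S N (PA (sg N (A (N - j))) N))
      (fun a h1 h2 => EW_antiR (PA_outA N 0 N _) (PA_symm _ N) (Nat.zero_le _) h2)
      (EW_nonneg (PA_symm _ N) N)
    have a2 := SEW_le (N := N) (k := N - j + i) (by omega)
      (e := EW N T S N (QU (b (N - j)) N))
      (fun a h1 h2 => EW_antiR (QU_out N 0 N _) (QU_symm _ N) (Nat.zero_le _) h2)
      (EW_nonneg (QU_symm _ N) N)
    have a3 := EW_antiR' (K := N - j) (R := R) (S := S) (PA_outA N _ N (sg N (A (N - j))))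
      (PA_symm _ N) (a := N - j + i) (by omega) (by omega) (k := N)
    have a4 := EW_antiR' (K := N - j) (R := T) (S := S) (QU_out N _ N (b (N - j)))
      (QU_symm _ N) (a := N - j + i) (by omega) (by omega) (k := N)
    simp only [EW_sg] at a1 a3
    have a5 := h0 (N - j) (by omega) (by omega)
    linarith
  have u2 : ∑ i ∈ range j, (SEW N (N - j + i) (EW N R S N (PA (sg N (A (N - j))) N))
      + SEW N (N - j + i) (EW N T S N (QU (b (N - j)) N))) ≤ j * E0 := by
    refine (sum_le_sum u1).trans (le_of_eq ?_)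
    rw [sum_const, card_range, nsmul_eq_mul]
  -- own energies at the start
  have v1 := PA_own_le (N := N) R S (A 1) 1 (k := 1) (l := 1 + j) (by omega) (by omega)
  have v2 := QU_own_le (N := N) T S (b 1) 1 (k := 1) (l := 1 + j) (by omega) (by omega)
  have v3 := PA_own_le (N := N) R S (A 1) j (k := 1) (l := j) hj1 hj.le
  have v4 := QU_own_le (N := N) T S (b 1) j (k := 1) (l := j) hj1 hj.le
  have v5 := EW_antiR' (K := 1) (R := R) (S := S) (PA_outA N 1 1 (A 1)) (PA_symm _ 1) (a := j)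
    (by omega) (by omega) (k := 1)
  have v6 := EW_antiR' (K := 1) (R := T) (S := S) (QU_out N 1 1 (b 1)) (QU_symm _ 1) (a := j)
    (by omega) (by omega) (k := 1)
  have hD : (0 : ℝ) ≤ 4 * D + 1 := by positivity
  have hD2 : (0 : ℝ) ≤ 16 * D + 5 := by positivity
  have hjr : (0 : ℝ) ≤ 4 * j := by positivity
  have w1 := mul_le_mul_of_nonneg_left u2 hD
  have w2 := mul_le_mul_of_nonneg_left (mul_le_mul_of_nonneg_left (add_le_add v1 v2) hjr) hD
  have w3 := mul_le_mul_of_nonneg_left (add_le_add (v3.trans v5) (v4.trans v6)) hD2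
  refine (add_le_add t1 t2).trans ?_
  rw [← mul_add]
  refine mul_le_mul_of_nonneg_left ?_ (by positivity)
  unfold BB
  rw [add_comm 1 j] at *
  simp only [mul_add] at g w1 w2 w3 ⊢
  linarith

end

end Vale.Agent.P141.H922.NB
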