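import Vale.Agent.P141.H922.NbAB3

/-!
# P141, line (A): neighbour differences of `(A, b)`, the total

`nb_total` : the square sum of the neighbour differences of `Vz (A K) (b K)` over all scales `K`
and all tied nodes; `nb_static` : the same for static functions.
-/

namespace Vale.Agent.P141.H922.NB

open Finset Matrix
open Vale.Agent.P141.PL (iv hs ix mem_iv)
open Vale.Agent.P141.PL.H103
open Vale.Agent.P141.PL
open Vale.Agent.P141.H103
open Vale.Agent.P141.H652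
open Vale.Agent.P075 (Ix val)
open Vale.Agent.P141.H352 (nd pc rs gp Avg nd_chain pc_q_le)

noncomputable section

variable {κ : Type*} [Fintype κ] [DecidableEq κ]

omit [Fintype κ] [DecidableEq κ] in
theorem Phi_shift (N : ℕ) (R T : ℤ) (K : ℕ) (c m m' : ℤ) (hm : m' = m - 1) (h : ℤ → ℤ → ℝ) :
    Phi N R T K c m h = Phi N R T K (c - 1) m' h := by
  unfold Phi
  refine sum_congr rfl fun n _ => ?_
  rw [show c - 1 - m' - n = c - m - n by rw [hm]; ring]

theorem PlD_succ {D : ℕ} {c : ℕ → ℤ} (h : PlD D c) : PlD (D + 1) c := fun k => by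
  have := h k
  push_cast
  omega

theorem PlD_pred {D : ℕ} {c : ℕ → ℤ} (h : PlD D c) : PlD (D + 1) (fun k => c k - 1) := fun k => by
  have := h k
  push_cast
  omega

theorem half_geo (n : ℕ) : ∑ r ∈ range n, ((2 : ℝ) ^ r)⁻¹ ≤ 2 := by
  have : ∀ n : ℕ, ∑ r ∈ range n, ((2 : ℝ) ^ r)⁻¹ = 2 - 2 * ((2 : ℝ) ^ n)⁻¹ := by
    intro n
    induction n with
    | zero => simp
    | succ n ih => rw [sum_range_succ, ih, pow_succ, mul_inv]; ring
  rw [this]
  have : (0 : ℝ) < ((2 : ℝ) ^ n)⁻¹ := by positivity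
  linarith

theorem half_geo1 (n : ℕ) : ∑ r ∈ range n, ((2 : ℝ) ^ r)⁻¹ * r ≤ 2 := by
  have : ∀ n : ℕ, ∑ r ∈ range n, ((2 : ℝ) ^ r)⁻¹ * r = 2 - (2 * n + 2) * ((2 : ℝ) ^ n)⁻¹ := by
    intro n
    induction n with
    | zero => simp
    | succ n ih =>
      rw [sum_range_succ, ih, pow_succ, mul_inv]
      push_cast
      ring
  rw [this]
  have : (0 : ℝ) ≤ (2 * n + 2) * ((2 : ℝ) ^ n)⁻¹ := by positivity
  linarith

/-- the top cell at one scale -/
theorem top_le {N K D : ℕ} (hK : K ≤ N) {R S T : ℤ} {c : ℕ → ℤ} (hc : PlD D c) {s : ℤ}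
    (hs : 0 ≤ s) (hs' : s < 2 ^ (N - K)) (A : ℤ → ℤ → ℝ) (b : ℤ → ℤ → κ → ℝ) {E0 : ℝ}
    (h0 : EW N R S N (PA A N) K + EW N T S N (QU b N) K ≤ E0) :
    TW N R S T K (N - K) s (c K) (fun n n' M => (PA A N K n M * QU b N K n' M).trace)
      ≤ (2 ^ (N - K))⁻¹ * (E0 + (4 * D + 1) * ((N - K : ℕ) * E0)) := by
  have t := tube (N := N) (k := K) (j := N - K) (D := D) (by omega) (R := R) (S := S) (T := T) hc
    hs hs' (P := PA A N) (Q := QU b N) (PA_outA N _ N _) (QU_out N _ N _) (PA_symm _ N)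
    (QU_symm _ N)
  refine t.trans (mul_le_mul_of_nonneg_left ?_ (by positivity))
  rw [show K + (N - K) = N by omega]
  have m := (abs_le.1 (abs_MW_le N R S T N (c N) (P := PA A N) (Q := QU b N) (PA_symm _ N)
    (QU_symm _ N))).2
  have a1 := EW_antiR' (K := K) (R := R) (S := S) (PA_outA N _ N A)
    (PA_symm _ N) (a := N) hK le_rfl (k := N)
  have a2 := EW_antiR' (K := K) (R := T) (S := S) (QU_out N _ N b)
    (QU_symm _ N) (a := N) hK le_rfl (k := N)
  have p1 := EW_nonneg (N := N) (R := R) (S := S) (k := N) (P := PA A N) (PA_symm _ N) K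
  have p2 := EW_nonneg (N := N) (R := T) (S := S) (k := N) (P := QU b N) (QU_symm _ N) K
  have u1 : ∀ i ∈ range (N - K), SEW N (K + i) (EW N R S N (PA A N))
      + SEW N (K + i) (EW N T S N (QU b N)) ≤ E0 := by
    intro i hi
    have hi' := mem_range.1 hi
    have b1 := SEW_le (N := N) (k := K + i) (by omega) (e := EW N R S N (PA A N))
      (fun a h1 h2 => EW_antiR (PA_outA N 0 N _) (PA_symm _ N) (Nat.zero_le _) h2)
      (EW_nonneg (PA_symm _ N) N)
    have b2 := SEW_le (N := N) (k := K + i) (by omega) (e := EW N T S N (QU b N))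
      (fun a h1 h2 => EW_antiR (QU_out N 0 N _) (QU_symm _ N) (Nat.zero_le _) h2)
      (EW_nonneg (QU_symm _ N) N)
    have b3 := EW_antiR' (K := K) (R := R) (S := S) (PA_outA N _ N A)
      (PA_symm _ N) (a := K + i) (by omega) (by omega) (k := N)
    have b4 := EW_antiR' (K := K) (R := T) (S := S) (QU_out N _ N b)
      (QU_symm _ N) (a := K + i) (by omega) (by omega) (k := N)
    linarith
  have u2 : ∑ i ∈ range (N - K), (SEW N (K + i) (EW N R S N (PA A N))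
      + SEW N (K + i) (EW N T S N (QU b N))) ≤ (N - K : ℕ) * E0 := by
    refine (sum_le_sum u1).trans (le_of_eq ?_)
    rw [sum_const, card_range, nsmul_eq_mul]
  have hD : (0 : ℝ) ≤ 4 * D + 1 := by positivity
  have := mul_le_mul_of_nonneg_left u2 hD
  linarith

/-- **The neighbour differences of the pair `(A, b)`.** -/
theorem nb_total {N D : ℕ} {R S T : ℤ} {c : ℕ → ℤ} (hc : PlD D c)
    {A : ℕ → ℤ → ℤ → ℝ} {b : ℕ → ℤ → ℤ → κ → ℝ} {dE dF : ℕ → ℕ → ℕ → ℝ} {xM : ℕ → ℕ → ℝ}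
    (H : Chg N R S T c A b dE dF xM) (H' : Chg N R S T (fun k => c k - 1) A b dE dF xM) {E0 : ℝ}
    (hE0 : 0 ≤ E0)
    (h0 : ∀ k, 1 ≤ k → k ≤ N → EW N R S N (PA (A k) N) k + EW N T S N (QU (b k) N) k ≤ E0) :
    ∑ K ∈ Icc 1 N, ∑ m ∈ Wd N K S, Phi N R T K (c K) m
        (fun z x => sqv (nd (Vz N S (A K) (b K) z x) K m))
      ≤ 48 * ∑ i ∈ range (N - 1), (2 / 3) ^ i * BB N R S T (D + 1) A b dE dF xM E0 (i + 1)
        + 8 * (8 * D + 12) * E0 := by
  have c1 := PlD_succ hc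
  have c2 := PlD_pred hc
  -- one scale
  have h1 : ∀ K ∈ Icc 1 N, ∑ m ∈ Wd N K S, Phi N R T K (c K) m
        (fun z x => sqv (nd (Vz N S (A K) (b K) z x) K m))
      ≤ ∑ i ∈ range (N - K), 32 * (4 / 3) ^ i *
        (TW N R S T K (i + 1) 0 (c K) (fun n n' M => (PA (sg (K + (i + 1)) (A K)) (K + (i + 1)) K n M
            * QU (b K) (K + (i + 1)) K n' M).trace)
        + TW N R S T K (i + 1) (2 ^ i) (c K) (fun n n' M =>
            (PA (sg (K + (i + 1)) (A K)) (K + (i + 1)) K n M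
            * QU (b K) (K + (i + 1)) K n' M).trace)
        + TW N R S T K (i + 1) (2 ^ (i + 1) - 1) (c K - 1) (fun n n' M =>
            (PA (sg (K + (i + 1)) (A K)) (K + (i + 1)) K n M
            * QU (b K) (K + (i + 1)) K n' M).trace))
      + 8 * ((2 ^ (N - K))⁻¹ * (E0 + (4 * (D + 1 : ℕ) + 1) * ((N - K : ℕ) * E0))) := by
    intro K hK
    have hK' := mem_Icc.1 hK
    refine (nbK hK'.2 R S T (c K) (A K) (b K)).trans ?_
    refine add_le_add (le_of_eq ?_) ?_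
    · rw [mul_sum]
      refine sum_congr rfl fun i _ => ?_
      rw [← TG_eq, ← TG_eq, ← TG_eq, ← sum_add_distrib, ← sum_add_distrib, mul_assoc]
      congr 2
      refine sum_congr rfl fun M _ => ?_
      rw [add_zero, Phi_shift N R T K (c K) (2 ^ (i + 1) * M + 2 ^ (i + 1))
        (2 ^ (i + 1) * M + (2 ^ (i + 1) - 1)) (by ring)]
    · have q1 := top_le (N := N) (K := K) (D := D + 1) hK'.2 (R := R) (S := S) (T := T) c1
        (s := 0) le_rfl (by positivity) (A K) (b K) (h0 K hK'.1 hK'.2)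
      have q2 := top_le (N := N) (K := K) (D := D + 1) hK'.2 (R := R) (S := S) (T := T) c2
        (s := 2 ^ (N - K) - 1) (by
          have : (0 : ℤ) < 2 ^ (N - K) := by positivity
          omega) (by omega) (A K) (b K) (h0 K hK'.1 hK'.2)
      rw [← TT_eq hK'.2, add_zero] at q1
      rw [← TT_eq hK'.2, ← Phi_shift N R T K (c K) (2 ^ (N - K) * S + 2 ^ (N - K))
        (2 ^ (N - K) * S + (2 ^ (N - K) - 1)) (by ring)] at q2
      linarith
  refine (sum_le_sum h1).trans ?_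
  rw [sum_add_distrib]
  refine add_le_add ?_ ?_
  · -- the tubes
    rw [Finset.sum_comm' (t' := range (N - 1)) (s' := fun i => Ico 1 (N - (i + 1) + 1)) (by
      intro K i
      simp only [mem_Icc, mem_range, mem_Ico]
      omega)]
    rw [mul_sum]
    refine sum_le_sum fun i hi => ?_
    have hi' := mem_range.1 hi
    have hp : (2 : ℤ) ^ (i + 1) = 2 * 2 ^ i := pow_succ' 2 i
    have hp0 : (0 : ℤ) < 2 ^ i := by positivity
    have k1 := tubes (N := N) (j := i + 1) (D := D + 1) (by omega) (by omega) c1 (s := 0) le_rfl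
      (by positivity) H h0
    have k2 := tubes (N := N) (j := i + 1) (D := D + 1) (by omega) (by omega) c1 (s := 2 ^ i)
      hp0.le (by omega) H h0
    have k3 := tubes (N := N) (j := i + 1) (D := D + 1) (by omega) (by omega) c2
      (s := 2 ^ (i + 1) - 1) (by omega) (by omega) H' h0
    rw [← mul_sum, sum_add_distrib, sum_add_distrib]
    have k4 := mul_le_mul_of_nonneg_left (add_le_add (add_le_add k1 k2) k3)
      (show (0 : ℝ) ≤ 32 * (4 / 3) ^ i by positivity)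
    refine k4.trans (le_of_eq ?_)
    have e : (2 / 3 : ℝ) ^ i = (4 / 3) ^ i * ((2 : ℝ) ^ i)⁻¹ := by
      rw [← inv_pow, ← mul_pow]
      norm_num
    rw [e, pow_succ, mul_inv]
    ring
  · -- the top
    have e : ∑ K ∈ Icc 1 N, 8 * (((2 : ℝ) ^ (N - K))⁻¹ * (E0 + (4 * (D + 1 : ℕ) + 1)
        * ((N - K : ℕ) * E0))) = ∑ r ∈ range N, 8 * (((2 : ℝ) ^ r)⁻¹ * (E0 + (4 * (D + 1 : ℕ) + 1)
        * ((r : ℕ) * E0))) := by
      refine Finset.sum_nbij' (fun K => N - K) (fun r => N - r) ?_ ?_ ?_ ?_ ?_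
      · intro K hK
        rw [mem_Icc] at hK
        rw [mem_range]
        omega
      · intro r hr
        rw [mem_range] at hr
        rw [mem_Icc]
        omega
      · intro K hK
        rw [mem_Icc] at hK
        omega
      · intro r hr
        rw [mem_range] at hr
        omega
      · intro K _
        rfl
    rw [e]
    have g1 := half_geo N
    have g2 := half_geo1 N
    have e2 : ∑ r ∈ range N, 8 * (((2 : ℝ) ^ r)⁻¹ * (E0 + (4 * (D + 1 : ℕ) + 1) * ((r : ℕ) * E0)))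
        = 8 * E0 * (∑ r ∈ range N, ((2 : ℝ) ^ r)⁻¹)
          + 8 * E0 * (4 * (D + 1 : ℕ) + 1) * ∑ r ∈ range N, ((2 : ℝ) ^ r)⁻¹ * r := by
      rw [mul_sum, mul_sum, ← sum_add_distrib]
      refine sum_congr rfl fun r _ => ?_
      ring
    rw [e2]
    have f1 := mul_le_mul_of_nonneg_left g1 (show 0 ≤ 8 * E0 by positivity)
    have f2 := mul_le_mul_of_nonneg_left g2
      (show 0 ≤ 8 * E0 * (4 * ((D + 1 : ℕ) : ℝ) + 1) by positivity)
    refine (add_le_add f1 f2).trans (le_of_eq ?_)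
    push_cast
    ring

theorem two_thirds (n : ℕ) : ∑ i ∈ range n, (2 / 3 : ℝ) ^ i ≤ 3 := by
  have : ∀ n : ℕ, ∑ i ∈ range n, (2 / 3 : ℝ) ^ i = 3 - 3 * (2 / 3) ^ n := by
    intro n
    induction n with
    | zero => simp
    | succ n ih => rw [sum_range_succ, ih, pow_succ]; ring
  rw [this]
  have : (0 : ℝ) ≤ (2 / 3) ^ n := by positivity
  linarith

theorem two_thirds1 (n : ℕ) : ∑ i ∈ range n, (2 / 3 : ℝ) ^ i * (i + 1) ≤ 9 := by
  have : ∀ n : ℕ, ∑ i ∈ range n, (2 / 3 : ℝ) ^ i * (i + 1) = 9 - (3 * n + 9) * (2 / 3) ^ n := by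
    intro n
    induction n with
    | zero => simp
    | succ n ih =>
      rw [sum_range_succ, ih, pow_succ]
      push_cast
      ring
  rw [this]
  have : (0 : ℝ) ≤ (3 * n + 9) * (2 / 3) ^ n := by positivity
  linarith

/-- the changes at distance `j` -/
def XX (N D : ℕ) (dE dF : ℕ → ℕ → ℕ → ℝ) (xM : ℕ → ℕ → ℝ) (j : ℕ) : ℝ :=
  ∑ t ∈ Ico 1 (N - j), (xM j t + (4 * D + 1) * (WW N (t + j) (dE j t) + WW N (t + j) (dF j t)
    + ∑ i ∈ range j, (WW N (t + i + 1) (dE j t) + WW N (t + i + 1) (dF j t))))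

/-- **The neighbour differences of the pair `(A, b)`**, closed form. `W0` : own energies of
`A 1`, `b 1` at the finest scale; `E0` : own energies on the top cell. -/
theorem nb_closed {N D : ℕ} {R S T : ℤ} {c : ℕ → ℤ} (hc : PlD D c)
    {A : ℕ → ℤ → ℤ → ℝ} {b : ℕ → ℤ → ℤ → κ → ℝ} {dE dF : ℕ → ℕ → ℕ → ℝ} {xM : ℕ → ℕ → ℝ}
    (H : Chg N R S T c A b dE dF xM) (H' : Chg N R S T (fun k => c k - 1) A b dE dF xM) {E0 : ℝ}
    (hW : EW N R S 1 (PA (A 1) 1) 1 + EW N T S 1 (QU (b 1) 1) 1 ≤ E0)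
    (h0 : ∀ k, 1 ≤ k → k ≤ N → EW N R S N (PA (A k) N) k + EW N T S N (QU (b k) N) k ≤ E0) :
    ∑ K ∈ Icc 1 N, ∑ m ∈ Wd N K S, Phi N R T K (c K) m
        (fun z x => sqv (nd (Vz N S (A K) (b K) z x) K m))
      ≤ (11008 * D + 13920) * E0
        + 48 * ∑ i ∈ range (N - 1), (2 / 3) ^ i * XX N (D + 1) dE dF xM (i + 1) := by
  set W0 := EW N R S 1 (PA (A 1) 1) 1 + EW N T S 1 (QU (b 1) 1) 1 with hW0
  have hW0n : 0 ≤ W0 := add_nonneg (EW_nonneg (PA_symm _ 1) 1) (EW_nonneg (QU_symm _ 1) 1)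
  have hE0 : 0 ≤ E0 := hW0n.trans hW
  refine (nb_total hc H H' hE0 h0).trans ?_
  have h1 : ∀ i ∈ range (N - 1), (2 / 3 : ℝ) ^ i * BB N R S T (D + 1) A b dE dF xM E0 (i + 1)
      ≤ (16 * (D + 1 : ℕ) + 5) * E0 * (2 / 3) ^ i
        + (4 * (D + 1 : ℕ) + 1) * 5 * E0 * ((2 / 3) ^ i * (i + 1))
        + (2 / 3) ^ i * XX N (D + 1) dE dF xM (i + 1) := by
    intro i _
    have e : XX N (D + 1) dE dF xM (i + 1) = ∑ t ∈ Ico 1 (N - (i + 1)), (xM (i + 1) t
        + (4 * (D + 1 : ℕ) + 1) * (WW N (t + (i + 1)) (dE (i + 1) t)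
          + WW N (t + (i + 1)) (dF (i + 1) t)))
        + (4 * (D + 1 : ℕ) + 1) * ∑ i' ∈ range (i + 1), ∑ k ∈ Ico 1 (N - (i + 1)),
          (WW N (k + i' + 1) (dE (i + 1) k) + WW N (k + i' + 1) (dF (i + 1) k)) := by
      unfold XX
      rw [Finset.sum_comm (s := range (i + 1)), mul_sum, ← sum_add_distrib]
      refine sum_congr rfl fun t _ => ?_
      ring
    rw [e]
    unfold BB
    rw [← hW0]
    have hD : (0 : ℝ) ≤ 4 * (D + 1 : ℕ) + 1 := by positivity
    have hD2 : (0 : ℝ) ≤ 16 * (D + 1 : ℕ) + 5 := by positivity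
    have p : (0 : ℝ) ≤ (2 / 3) ^ i := by positivity
    have q1 := mul_le_mul_of_nonneg_left (mul_le_mul_of_nonneg_left hW hD2) p
    have q2 := mul_le_mul_of_nonneg_left (mul_le_mul_of_nonneg_left
      (mul_le_mul_of_nonneg_left hW (show (0 : ℝ) ≤ 4 * ((i + 1 : ℕ) : ℝ) by positivity)) hD) p
    push_cast at q1 q2 ⊢
    simp only [mul_add] at q1 q2 ⊢
    nlinarith [q1, q2]
  have h2 := mul_le_mul_of_nonneg_left (sum_le_sum h1) (show (0 : ℝ) ≤ 48 by norm_num)
  rw [sum_add_distrib, sum_add_distrib, ← mul_sum, ← mul_sum] at h2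
  have g1 := mul_le_mul_of_nonneg_left (two_thirds (N - 1))
    (show (0 : ℝ) ≤ (16 * (D + 1 : ℕ) + 5) * E0 by positivity)
  have g2 := mul_le_mul_of_nonneg_left (two_thirds1 (N - 1))
    (show (0 : ℝ) ≤ (4 * (D + 1 : ℕ) + 1) * 5 * E0 by positivity)
  push_cast at g1 g2 h2 ⊢
  linarith

/-- **Static functions.** -/
theorem nb_static {N D : ℕ} (hN : 1 ≤ N) {R S T : ℤ} {c : ℕ → ℤ} (hc : PlD D c)
    (A : ℤ → ℤ → ℝ) (b : ℤ → ℤ → κ → ℝ) :
    ∑ K ∈ Icc 1 N, ∑ m ∈ Wd N K S, Phi N R T K (c K) m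
        (fun z x => sqv (nd (Vz N S A b z x) K m))
      ≤ (11008 * D + 13920) * (EW N R S 1 (PA A 1) 1 + EW N T S 1 (QU b 1) 1) := by
  have h := nb_closed hc (Chg.static N R S T c A b) (Chg.static N R S T (fun k => c k - 1) A b)
    (E0 := EW N R S 1 (PA A 1) 1 + EW N T S 1 (QU b 1) 1) le_rfl
    (fun k h1 h2 => add_le_add
      ((PA_own_le R S A k (k := 1) hN le_rfl).trans
        (EW_antiR' (K := 1) (PA_outA N 1 1 A) (PA_symm _ 1) (a := k) h1 h2 (k := 1)))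
      ((QU_own_le T S b k (k := 1) hN le_rfl).trans
        (EW_antiR' (K := 1) (QU_out N 1 1 b) (QU_symm _ 1) (a := k) h1 h2 (k := 1))))
  have e : ∀ j, XX N (D + 1) (fun _ _ _ => 0) (fun _ _ _ => 0) (fun _ _ => 0) j = 0 := by
    intro j
    unfold XX WW
    simp
  simp only [e, mul_zero, sum_const_zero, add_zero] at h
  exact h

/-! ### Any window of middle positions -/

omit [Fintype κ] [DecidableEq κ] in
theorem nd_out {N K : ℕ} (S : ℤ) (A : ℤ → ℤ → ℝ) (b : ℤ → ℤ → κ → ℝ) (z x : ℤ) {m : ℤ}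
    (hm : m ∉ Wd N K S) : nd (Vz N S A b z x) K m = 0 := by
  unfold Wd at hm
  rw [mem_Icc] at hm
  have h1 : m ∉ iv (N - K) S := by
    unfold iv
    rw [mem_Ico]
    intro h
    exact hm ⟨h.1, h.2.le⟩
  have h2 : m - 1 ∉ iv (N - K) S := by
    unfold iv
    rw [mem_Ico]
    intro h
    exact hm ⟨by linarith [h.1], by linarith [h.2]⟩
  unfold nd Vz
  rw [if_neg h1, if_neg h2, sub_zero]

omit [DecidableEq κ] in
theorem Phi_zero (N : ℕ) (R T : ℤ) (K : ℕ) (c m : ℤ) : Phi N R T K c m (fun _ _ => 0) = 0 := by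
  unfold Phi
  simp

omit [DecidableEq κ] in
/-- any finite window of middle positions -/
theorem nb_win {N K : ℕ} (R S T c : ℤ) (A : ℤ → ℤ → ℝ) (b : ℤ → ℤ → κ → ℝ) (W : Finset ℤ) :
    ∑ m ∈ W, Phi N R T K c m (fun z x => sqv (nd (Vz N S A b z x) K m))
      ≤ ∑ m ∈ Wd N K S, Phi N R T K c m (fun z x => sqv (nd (Vz N S A b z x) K m)) := by
  have h0 : ∀ m, m ∉ Wd N K S →
      Phi N R T K c m (fun z x => sqv (nd (Vz N S A b z x) K m)) = 0 := by
    intro m hm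
    simp only [nd_out S A b _ _ hm, sqv_zero]
    exact Phi_zero N R T K c m
  have nn : ∀ m, 0 ≤ Phi N R T K c m (fun z x => sqv (nd (Vz N S A b z x) K m)) :=
    fun m => Phi_nonneg fun _ _ => sqv_nonneg _
  rw [← Finset.sum_filter_add_sum_filter_not W (fun m => m ∈ Wd N K S)]
  rw [Finset.sum_eq_zero (s := W.filter fun m => ¬ m ∈ Wd N K S) fun m hm =>
    h0 m (mem_filter.1 hm).2, add_zero]
  refine Finset.sum_le_sum_of_subset_of_nonneg (fun m hm => (mem_filter.1 hm).2) fun m _ _ => nn m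

end

end Vale.Agent.P141.H922.NB
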