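import Vale.Agent.P141.H922.PairG

/-!
# P141: mixed glue for the pair weight

`glueP`, `glueP_dot`: uniformity on cells of different scales `≤ l` gives uniformity on the cubes
of scale `l`, absolute constant `CgP`.
-/

namespace Vale.Agent.P141.H922

open Finset
open Vale.Agent.P141.H315 (Grid dot)
open Vale.Agent.P141.PL (Pt el)
open Vale.Agent.P141.PL.H315 (cube3 mem_cube3 gz card_cube3 avg sum_avg_cubes iv mem_iv
  e12 e13 e23 Tri atm card_iv avg_nonneg A2 A2_nonneg avg_e12 avg_e13 avg_e23)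
open Vale.Agent.P141.PL.H95 (gr mem_gr card_gr)
open Vale.Agent.P141.PL.H318 (ixs csz mem_gs a1 dot_a1)
open Vale.Agent.P141.H782 (bl card_bl bl3 mem_bl3 card_bl3 cube3_sub glue_abs)

noncomputable section

/-- Finner's inequality for blocks, abstract form. -/
theorem fin3 {l : ℕ} {a b c : ℤ} {F G H : ℤ → ℤ → ℝ} (hF : ∀ x y, 0 ≤ F x y)
    (hG : ∀ x y, 0 ≤ G x y) (hH : ∀ x y, 0 ≤ H x y) {n1 n2 n3 : ℝ} (p1 : 0 ≤ n1) (p2 : 0 ≤ n2)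
    (s1 : (∑ x ∈ bl l a, ∑ y ∈ bl l b, F x y ^ (5 / 2 : ℝ)) ^ (2 / 5 : ℝ) ≤
      14 * (4 ^ l : ℝ) ^ (2 / 5 : ℝ) * n1)
    (s2 : (∑ x ∈ bl l a, ∑ y ∈ bl l c, G x y ^ (5 / 2 : ℝ)) ^ (2 / 5 : ℝ) ≤
      14 * (4 ^ l : ℝ) ^ (2 / 5 : ℝ) * n2)
    (s3 : (∑ x ∈ bl l b, ∑ y ∈ bl l c, H x y ^ (5 / 3 : ℝ)) ^ (3 / 5 : ℝ) ≤
      29 * (4 ^ l : ℝ) ^ (3 / 5 : ℝ) * n3) (p3 : 0 ≤ n3) :
    ∑ x ∈ bl l a, ∑ y ∈ bl l b, ∑ z ∈ bl l c, F x y * G x z * H y z ≤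
    7105 * 8 ^ l * (n1 * n2 * n3) := by
  have h1 := finner (bl l a) (bl l b) (bl l c) hF hG hH
  refine h1.trans ?_
  have q1 : 0 ≤ (∑ x ∈ bl l a, ∑ y ∈ bl l b, F x y ^ (5 / 2 : ℝ)) ^
      (2 / 5 : ℝ) := Real.rpow_nonneg (sum_nonneg fun _ _ => sum_nonneg fun _ _ =>
        Real.rpow_nonneg (hF _ _) _) _
  have q2 : 0 ≤ (∑ x ∈ bl l a, ∑ y ∈ bl l c, G x y ^ (5 / 2 : ℝ)) ^
      (2 / 5 : ℝ) := Real.rpow_nonneg (sum_nonneg fun _ _ => sum_nonneg fun _ _ =>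
        Real.rpow_nonneg (hG _ _) _) _
  have q3 : 0 ≤ (∑ x ∈ bl l b, ∑ y ∈ bl l c, H x y ^ (5 / 3 : ℝ)) ^
      (3 / 5 : ℝ) := Real.rpow_nonneg (sum_nonneg fun _ _ => sum_nonneg fun _ _ =>
        Real.rpow_nonneg (hH _ _) _) _
  have hcard : ((bl l a).card : ℝ) ^ (1 / 5 : ℝ) ≤ 5 / 4 * (2 ^ l : ℝ) ^ (1 / 5 : ℝ) := by
    rw [card_bl]
    push_cast
    rw [Real.mul_rpow (by norm_num) (by positivity)]
    have h3 : (3 : ℝ) ^ (1 / 5 : ℝ) ≤ 5 / 4 := by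
      have := rpow_const (c := 3) (r := 5 / 4) (m := 5) (j := 1) (by norm_num)
        (by norm_num) (by norm_num) (by norm_num)
      norm_num at this ⊢
      exact this
    have : 0 ≤ (2 ^ l : ℝ) ^ (1 / 5 : ℝ) := Real.rpow_nonneg (by positivity) _
    gcongr
  have qc : 0 ≤ ((bl l a).card : ℝ) ^ (1 / 5 : ℝ) := Real.rpow_nonneg (Nat.cast_nonneg _) _
  have r1 : 0 ≤ (4 ^ l : ℝ) ^ (2 / 5 : ℝ) := Real.rpow_nonneg (by positivity) _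
  have r2 : 0 ≤ (4 ^ l : ℝ) ^ (3 / 5 : ℝ) := Real.rpow_nonneg (by positivity) _
  have r3 : 0 ≤ (2 ^ l : ℝ) ^ (1 / 5 : ℝ) := Real.rpow_nonneg (by positivity) _
  have hpow : (4 ^ l : ℝ) ^ (2 / 5 : ℝ) * (4 ^ l : ℝ) ^ (2 / 5 : ℝ) * (4 ^ l : ℝ) ^ (3 / 5 : ℝ) *
      (2 ^ l : ℝ) ^ (1 / 5 : ℝ) = 8 ^ l := by
    have e4 : (4 : ℝ) ^ l = (2 ^ l) ^ (2 : ℝ) := by
      rw [Real.rpow_two, ← pow_mul, mul_comm l 2, pow_mul]; norm_num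
    have e8 : (8 : ℝ) ^ l = (2 ^ l) ^ (3 : ℝ) := by
      rw [show (3 : ℝ) = ((3 : ℕ) : ℝ) by norm_num, Real.rpow_natCast, ← pow_mul, mul_comm l 3,
        pow_mul]; norm_num
    have hp : (0 : ℝ) < 2 ^ l := by positivity
    rw [e4, e8, ← Real.rpow_mul hp.le, ← Real.rpow_mul hp.le, ← Real.rpow_add hp,
      ← Real.rpow_add hp, ← Real.rpow_add hp]
    norm_num
  have m1 := mul_le_mul s1 s2 q2 (by positivity)
  have m2 := mul_le_mul m1 s3 q3 (by positivity)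
  have m3 := mul_le_mul m2 hcard qc (by positivity)
  refine m3.trans (le_of_eq ?_)
  rw [← hpow]
  ring

/-- the point function which dominates the density of the pair weight -/
def MP (l : ℕ) (q : Pt) (u : Tri) (y : Pt) : ℝ :=
  gN u.1 l q.1 q.2.1 (y.1, y.2.1) * gN u.2.1 l q.1 q.2.2 (y.1, y.2.2) *
      g2 u.2.2 l q.2.1 q.2.2 (y.2.1, y.2.2) +
    gN u.1 l q.1 q.2.1 (y.1, y.2.1) * gN u.2.2 l q.2.1 q.2.2 (y.2.1, y.2.2) *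
      g2 u.2.1 l q.1 q.2.2 (y.1, y.2.2) +
    gN u.2.1 l q.1 q.2.2 (y.1, y.2.2) * gN u.2.2 l q.2.1 q.2.2 (y.2.1, y.2.2) *
      g2 u.1 l q.1 q.2.1 (y.1, y.2.1)

theorem MP_nonneg (l : ℕ) (q : Pt) (u : Tri) (y : Pt) : 0 ≤ MP l q u y := by
  unfold MP
  have h1 := gN_nonneg u.1 l q.1 q.2.1 (y.1, y.2.1)
  have h2 := gN_nonneg u.2.1 l q.1 q.2.2 (y.1, y.2.2)
  have h3 := gN_nonneg u.2.2 l q.2.1 q.2.2 (y.2.1, y.2.2)
  have k1 := g2_nonneg u.1 l q.1 q.2.1 (y.1, y.2.1)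
  have k2 := g2_nonneg u.2.1 l q.1 q.2.2 (y.1, y.2.2)
  have k3 := g2_nonneg u.2.2 l q.2.1 q.2.2 (y.2.1, y.2.2)
  positivity

/-- the density of the pair weight on the neighbouring cubes -/
theorem wP_le_MP {δ : ℝ} (hδ : 0 ≤ δ) {k l : ℕ} (hkl : k ≤ l)
    {q z y : Pt} (hz : z ∈ cube3 l q) (hy : y ∈ bl3 k z) (u : Tri) :
    wP δ (cube3 k z) u ≤ 8 ^ k * (δ * MP l q u y) := by
  have hz' := mem_cube3.1 hz
  rw [mem_iv, mem_iv, mem_iv] at hz'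
  obtain ⟨z1, z2, z3⟩ := hz'
  obtain ⟨y1, y2, y3⟩ := mem_bl3.1 hy
  have a12 := nN_le_gN u.1 hkl z1 z2 (w := (y.1, y.2.1)) y1 y2
  have a13 := nN_le_gN u.2.1 hkl z1 z3 (w := (y.1, y.2.2)) y1 y3
  have a23 := nN_le_gN u.2.2 hkl z2 z3 (w := (y.2.1, y.2.2)) y2 y3
  have b12 := n2_le_g2 u.1 hkl z1 z2 (w := (y.1, y.2.1)) y1 y2
  have b13 := n2_le_g2 u.2.1 hkl z1 z3 (w := (y.1, y.2.2)) y1 y3
  have b23 := n2_le_g2 u.2.2 hkl z2 z3 (w := (y.2.1, y.2.2)) y2 y3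
  have p12 := nN_nonneg (iv k z.1 ×ˢ iv k z.2.1) u.1
  have p13 := nN_nonneg (iv k z.1 ×ˢ iv k z.2.2) u.2.1
  have p23 := nN_nonneg (iv k z.2.1 ×ˢ iv k z.2.2) u.2.2
  have r12 := n2_nonneg (iv k z.1 ×ˢ iv k z.2.1) u.1
  have r13 := n2_nonneg (iv k z.1 ×ˢ iv k z.2.2) u.2.1
  have r23 := n2_nonneg (iv k z.2.1 ×ˢ iv k z.2.2) u.2.2
  have h : pw3 (cube3 k z) u ≤ MP l q u y := by
    unfold pw3 MP
    rw [nN_e12, nN_e13, nN_e23, n2_e12, n2_e13, n2_e23]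
    refine add_le_add (add_le_add ?_ ?_) ?_
    · exact mul_le_mul (mul_le_mul a12 a13 p13 (p12.trans a12)) b23 r23
        (mul_nonneg (p12.trans a12) (p13.trans a13))
    · exact mul_le_mul (mul_le_mul a12 a23 p23 (p12.trans a12)) b13 r13
        (mul_nonneg (p12.trans a12) (p23.trans a23))
    · exact mul_le_mul (mul_le_mul a13 a23 p23 (p13.trans a13)) b12 r12
        (mul_nonneg (p13.trans a13) (p23.trans a23))
  unfold wP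
  rw [card_cube3]
  push_cast
  calc δ * 8 ^ k * pw3 (cube3 k z) u = 8 ^ k * (δ * pw3 (cube3 k z) u) := by ring
    _ ≤ _ := mul_le_mul_of_nonneg_left (mul_le_mul_of_nonneg_left h hδ) (by positivity)

theorem sum_MP_le (l : ℕ) (q : Pt) (u : Tri) :
    ∑ y ∈ bl3 l q, MP l q u y ≤ 7105 * 8 ^ l * pw3 (cube3 l q) u := by
  have a12 := sum_gN_le u.1 l q.1 q.2.1
  have a13 := sum_gN_le u.2.1 l q.1 q.2.2
  have a23 := sum_gN_le u.2.2 l q.2.1 q.2.2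
  have b12 := sum_g2_le u.1 l q.1 q.2.1
  have b13 := sum_g2_le u.2.1 l q.1 q.2.2
  have b23 := sum_g2_le u.2.2 l q.2.1 q.2.2
  have a12' := a12
  have a13' := a13
  have a23' := a23
  rw [sum_comm] at a12' a13' a23'
  have p12 := nN_nonneg (iv l q.1 ×ˢ iv l q.2.1) u.1
  have p13 := nN_nonneg (iv l q.1 ×ˢ iv l q.2.2) u.2.1
  have p23 := nN_nonneg (iv l q.2.1 ×ˢ iv l q.2.2) u.2.2
  have r12 := n2_nonneg (iv l q.1 ×ˢ iv l q.2.1) u.1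
  have r13 := n2_nonneg (iv l q.1 ×ˢ iv l q.2.2) u.2.1
  have r23 := n2_nonneg (iv l q.2.1 ×ˢ iv l q.2.2) u.2.2
  have h1 := fin3 (l := l) (a := q.1 / 2 ^ l) (b := q.2.1 / 2 ^ l) (c := q.2.2 / 2 ^ l)
    (F := fun x y => gN u.1 l q.1 q.2.1 (x, y)) (G := fun x z => gN u.2.1 l q.1 q.2.2 (x, z))
    (H := fun y z => g2 u.2.2 l q.2.1 q.2.2 (y, z)) (fun _ _ => gN_nonneg _ _ _ _ _)
    (fun _ _ => gN_nonneg _ _ _ _ _) (fun _ _ => g2_nonneg _ _ _ _ _) p12 p13 a12 a13 b23 r23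
  have h2 : ∑ x ∈ bl l (q.1 / 2 ^ l), ∑ y ∈ bl l (q.2.1 / 2 ^ l), ∑ z ∈ bl l (q.2.2 / 2 ^ l),
      gN u.1 l q.1 q.2.1 (x, y) * gN u.2.2 l q.2.1 q.2.2 (y, z) * g2 u.2.1 l q.1 q.2.2 (x, z) ≤
      7105 * 8 ^ l * (nN (iv l q.1 ×ˢ iv l q.2.1) u.1 * nN (iv l q.2.1 ×ˢ iv l q.2.2) u.2.2 *
        n2 (iv l q.1 ×ˢ iv l q.2.2) u.2.1) := by
    rw [sum_comm]
    exact fin3 (l := l) (a := q.2.1 / 2 ^ l) (b := q.1 / 2 ^ l) (c := q.2.2 / 2 ^ l)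
      (F := fun y x => gN u.1 l q.1 q.2.1 (x, y)) (G := fun y z => gN u.2.2 l q.2.1 q.2.2 (y, z))
      (H := fun x z => g2 u.2.1 l q.1 q.2.2 (x, z)) (fun _ _ => gN_nonneg _ _ _ _ _)
      (fun _ _ => gN_nonneg _ _ _ _ _) (fun _ _ => g2_nonneg _ _ _ _ _) p12 p23 a12' a23 b13 r13
  have h3 : ∑ x ∈ bl l (q.1 / 2 ^ l), ∑ y ∈ bl l (q.2.1 / 2 ^ l), ∑ z ∈ bl l (q.2.2 / 2 ^ l),
      gN u.2.1 l q.1 q.2.2 (x, z) * gN u.2.2 l q.2.1 q.2.2 (y, z) * g2 u.1 l q.1 q.2.1 (x, y) ≤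
      7105 * 8 ^ l * (nN (iv l q.1 ×ˢ iv l q.2.2) u.2.1 * nN (iv l q.2.1 ×ˢ iv l q.2.2) u.2.2 *
        n2 (iv l q.1 ×ˢ iv l q.2.1) u.1) := by
    have h := fin3 (l := l) (a := q.2.2 / 2 ^ l) (b := q.1 / 2 ^ l) (c := q.2.1 / 2 ^ l)
      (F := fun z x => gN u.2.1 l q.1 q.2.2 (x, z)) (G := fun z y => gN u.2.2 l q.2.1 q.2.2 (y, z))
      (H := fun x y => g2 u.1 l q.1 q.2.1 (x, y)) (fun _ _ => gN_nonneg _ _ _ _ _)
      (fun _ _ => gN_nonneg _ _ _ _ _) (fun _ _ => g2_nonneg _ _ _ _ _) p13 p23 a13' a23' b12 r12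
    refine le_trans (le_of_eq ?_) h
    rw [sum_congr rfl fun x _ => sum_comm, sum_comm]
  have e0 : ∑ y ∈ bl3 l q, MP l q u y =
      (∑ x ∈ bl l (q.1 / 2 ^ l), ∑ y ∈ bl l (q.2.1 / 2 ^ l), ∑ z ∈ bl l (q.2.2 / 2 ^ l),
        gN u.1 l q.1 q.2.1 (x, y) * gN u.2.1 l q.1 q.2.2 (x, z) * g2 u.2.2 l q.2.1 q.2.2 (y, z)) +
      (∑ x ∈ bl l (q.1 / 2 ^ l), ∑ y ∈ bl l (q.2.1 / 2 ^ l), ∑ z ∈ bl l (q.2.2 / 2 ^ l),
        gN u.1 l q.1 q.2.1 (x, y) * gN u.2.2 l q.2.1 q.2.2 (y, z) * g2 u.2.1 l q.1 q.2.2 (x, z)) +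
      (∑ x ∈ bl l (q.1 / 2 ^ l), ∑ y ∈ bl l (q.2.1 / 2 ^ l), ∑ z ∈ bl l (q.2.2 / 2 ^ l),
        gN u.2.1 l q.1 q.2.2 (x, z) * gN u.2.2 l q.2.1 q.2.2 (y, z) * g2 u.1 l q.1 q.2.1 (x, y)) := by
    unfold bl3
    rw [sum_product]
    simp only [← sum_add_distrib]
    refine sum_congr rfl fun x _ => ?_
    rw [sum_product]
    rfl
  rw [e0]
  unfold pw3
  rw [nN_e12, nN_e13, nN_e23, n2_e12, n2_e13, n2_e23]
  linarith

/-- the constant of the gluing -/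
def CgP : ℝ := 3069360

open Classical in
/-- **MIXED GLUE for the pair weight**, absolute constant. -/
theorem glueP {c0 : ℕ} {σ : ℤ} {c : Pt} (hc : csz c ≤ 2 ^ c0) {δ : ℝ} (hδ : 0 ≤ δ)
    {l : ℕ} {m : ℤ → ℕ} {A : ℤ → Prop}
    (hm : ∀ x y, A x → ixs c0 σ (m x) y = ixs c0 σ (m x) x → A y ∧ m y = m x)
    (hml : ∀ x, A x → m x ≤ l) {G : ℤ → ℝ} (q : Pt) (u : Tri)
    (h : ∀ x, A x → ∀ z ∈ cube3 l q,
      |dot ((gr c0 σ).cube (m x) x) G (a1 c (m x) (z, u))| ≤ wP δ (cube3 (m x) z) u) :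
    |∑ y ∈ cube3 l q, (if A (el c y) then G (el c y) else 0) * atm u y| ≤
      CgP * wP δ (cube3 l q) u := by
  have key := glue_abs hc (l := l) (q := q) hm hml (φ := fun y => G (el c y) * atm u y)
    (w := fun k z => wP δ (cube3 k z) u) (fun k z => wP_nonneg hδ _ _)
    (fun x hx z hz => by
      have h2 := h x hx z hz
      rw [dot_a1] at h2
      refine le_trans (le_of_eq ?_) h2
      congr 1
      refine sum_congr rfl fun y _ => ?_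
      by_cases hy : ixs c0 σ (m x) (el c y) = ixs c0 σ (m x) x
      · rw [if_pos hy, if_pos (mem_gs.2 hy)]
      · rw [if_neg hy, if_neg (fun h' => hy (mem_gs.1 h'))])
    (M := fun y => δ * MP l q u y)
    (fun y => mul_nonneg hδ (MP_nonneg l q u y))
    (fun k hk z hz y hy => wP_le_MP hδ hk hz hy u)
  have hsum : 432 * ∑ y ∈ bl3 l q, δ * MP l q u y ≤ CgP * wP δ (cube3 l q) u := by
    rw [← mul_sum]
    have h2 := mul_le_mul_of_nonneg_left (sum_MP_le l q u) hδ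
    unfold wP CgP
    rw [card_cube3]
    push_cast
    calc 432 * (δ * ∑ y ∈ bl3 l q, MP l q u y) ≤
          432 * (δ * (7105 * 8 ^ l * pw3 (cube3 l q) u)) := by gcongr
      _ = _ := by ring
  refine le_trans (le_of_eq ?_) (key.trans hsum)
  congr 1
  refine sum_congr rfl fun y _ => ?_
  by_cases hy : A (el c y)
  · rw [if_pos hy, if_pos hy]
  · rw [if_neg hy, if_neg hy, zero_mul]

open Classical in
/-- **MIXED GLUE on a cell**, pair weight: the tests of `sysP`. -/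
theorem glueP_dot {c0 : ℕ} {σ : ℤ} {c : Pt} (hc : csz c ≤ 2 ^ c0) {δ : ℝ} (hδ : 0 ≤ δ)
    {l : ℕ} {x0 : ℤ} {m : ℤ → ℕ} {A : ℤ → Prop}
    (hm : ∀ x ∈ (gr c0 σ).cube l x0, ∀ y, A x → ixs c0 σ (m x) y = ixs c0 σ (m x) x →
      A y ∧ m y = m x)
    (hml : ∀ x ∈ (gr c0 σ).cube l x0, A x → m x ≤ l) {G : ℤ → ℝ} (q : Pt) (u : Tri)
    (h : ∀ x ∈ (gr c0 σ).cube l x0, A x → ∀ z ∈ cube3 l q,
      |dot ((gr c0 σ).cube (m x) x) G (a1 c (m x) (z, u))| ≤ wP δ (cube3 (m x) z) u) :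
    |dot ((gr c0 σ).cube l x0) (fun y => if A y then G y else 0) (a1 c l (q, u))| ≤
      CgP * wP δ (cube3 l q) u := by
  have key := glueP hc hδ (l := l) (m := m)
    (A := fun x => x ∈ (gr c0 σ).cube l x0 ∧ A x)
    (fun x y hx hy => by
      obtain ⟨h2, h3⟩ := hm x hx.1 y hx.2 hy
      have hl := hml x hx.1 hx.2
      have h4 : y ∈ (gr c0 σ).cube l x := (gr c0 σ).sub_le hl x (mem_gs.2 hy)
      have h5 : (gr c0 σ).cube l x = (gr c0 σ).cube l x0 := (gr c0 σ).eq_of_mem l x0 x hx.1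
      exact ⟨⟨h5 ▸ h4, h2⟩, h3⟩)
    (fun x hx => hml x hx.1 hx.2) (G := G) q u (fun x hx => h x hx.1 hx.2)
  rw [dot_a1]
  refine le_trans (le_of_eq ?_) key
  congr 1
  refine sum_congr rfl fun y _ => ?_
  by_cases hy : el c y ∈ (gr c0 σ).cube l x0
  · by_cases hA : A (el c y)
    · rw [if_pos hy, if_pos hA, if_pos ⟨hy, hA⟩]
    · rw [if_pos hy, if_neg hA, if_neg (fun h' => hA h'.2)]
  · rw [if_neg hy, if_neg (fun h' => hy h'.1), zero_mul]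

end

end Vale.Agent.P141.H922
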