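import Vale.Agent.P141.H652.PlaneR
import Vale.Agent.P141.H420.FlowM

/-!
# P141, line (A), (T7.2) pair2: antidiagonals

Middle cell `m` and outer cell `n` of scale `k`, the other outer cell `M` of scale `k + i`, tied by
`n + m + 2 ^ i M + s = c k`, `0 ≤ s < 2 ^ i`.

* `AD_le` : the sum over the antidiagonals of `f ≤ 2 ^ i g (ancestor of n)` is at most the sum of
  `GR` (middle scale `k`, outer scale `k + i`) over the planes `c (k + i) + j`, `|j| ≤ D`;
* `OutM.le_anc`, `OutM.tr_le_anc` : a positive family with outer averages is at most `2 ^ i` times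
  its ancestor;
* `AD_sum`, `AD_total` : the sum over the scales, by `totalR_sqrt`.
-/

namespace Vale.Agent.P141.H922

open Finset Matrix Vale.Agent.P141.PL Vale.Agent.P141.H103 Vale.Agent.P141.H652

noncomputable section

/-- the sum over the antidiagonals -/
def AD (N : ℕ) (R S T : ℤ) (k i : ℕ) (s c : ℤ) (f : ℤ → ℤ → ℤ → ℝ) : ℝ :=
  (4 : ℝ) ^ k * ∑ m ∈ iv (N - k) S, ∑ M ∈ iv (N - (k + i)) T,
    if c - m - 2 ^ i * M - s ∈ iv (N - k) R then f (c - m - 2 ^ i * M - s) M m else 0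

theorem PlD_iter {D : ℕ} {c : ℕ → ℤ} (h : PlD D c) (k i : ℕ) :
    (2 - (D : ℤ)) * (2 ^ i - 1) ≤ c k - 2 ^ i * c (k + i) ∧
      c k - 2 ^ i * c (k + i) ≤ (D + 1) * (2 ^ i - 1) := by
  induction i with
  | zero => simp
  | succ i ih =>
    have h1 := h (k + i)
    have hp : (0 : ℤ) < 2 ^ i := by positivity
    have e : c k - 2 ^ (i + 1) * c (k + (i + 1)) =
        (c k - 2 ^ i * c (k + i)) + 2 ^ i * (c (k + i) - 2 * c (k + i + 1)) := by
      rw [pow_succ, ← add_assoc]; ring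
    rw [e, pow_succ]
    have h2 := mul_le_mul_of_nonneg_left h1.1 hp.le
    have h3 := mul_le_mul_of_nonneg_left h1.2 hp.le
    constructor
    · nlinarith [ih.1]
    · nlinarith [ih.2]

/-- the offset of the plane of the ancestors -/
theorem off_le {D : ℕ} {c : ℕ → ℤ} (h : PlD D c) {k i : ℕ} {s m M n : ℤ} (hs : 0 ≤ s)
    (hs' : s < 2 ^ i) (hn : n = c k - m - 2 ^ i * M - s) :
    n / 2 ^ i + M + m / 2 ^ i - c (k + i) ∈ Icc (-(D : ℤ)) D := by
  have hp : (0 : ℤ) < 2 ^ i := by positivity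
  have h1 := PlD_iter h k i
  have n1 := Int.mul_ediv_add_emod n (2 ^ i)
  have n2 := Int.emod_nonneg n hp.ne'
  have n3 := Int.emod_lt_of_pos n hp
  have m1 := Int.mul_ediv_add_emod m (2 ^ i)
  have m2 := Int.emod_nonneg m hp.ne'
  have m3 := Int.emod_lt_of_pos m hp
  set j := n / 2 ^ i + M + m / 2 ^ i - c (k + i) with hj
  have key : 2 ^ i * j = (c k - 2 ^ i * c (k + i)) - s - n % 2 ^ i - m % 2 ^ i := by
    rw [hj]
    linear_combination n1 + m1 + hn
  have hD : (0 : ℤ) ≤ D := Int.natCast_nonneg D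
  rw [mem_Icc]
  constructor
  · by_contra hc
    have h3 : j ≤ -(D : ℤ) - 1 := by omega
    have h4 := mul_le_mul_of_nonneg_left h3 hp.le
    nlinarith
  · by_contra hc
    have h3 : (D : ℤ) + 1 ≤ j := by omega
    have h4 := mul_le_mul_of_nonneg_left h3 hp.le
    nlinarith

/-- **Antidiagonals against planes of the ancestors.** -/
theorem AD_le {N D k i : ℕ} (hik : k + i ≤ N) {R S T : ℤ} {c : ℕ → ℤ} (hc : PlD D c) {s : ℤ}
    (hs : 0 ≤ s) (hs' : s < 2 ^ i) {f g : ℤ → ℤ → ℤ → ℝ} (hg : ∀ n M m, 0 ≤ g n M m)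
    (hfg : ∀ n M m, f n M m ≤ 2 ^ i * g (n / 2 ^ i) M m) :
    AD N R S T k i s (c k) f ≤
      ∑ j ∈ Icc (-(D : ℤ)) D, GR N R S T k i (c (k + i) + j) g := by
  classical
  have hp : (0 : ℤ) < 2 ^ i := by positivity
  have eR : ∑ j ∈ Icc (-(D : ℤ)) D, GR N R S T k i (c (k + i) + j) g =
      ∑ m ∈ iv (N - k) S, (2 : ℝ) ^ (k + i) * 2 ^ k * ∑ j ∈ Icc (-(D : ℤ)) D,
        ∑ n ∈ iv (N - (k + i)) R, (if c (k + i) + j - m / 2 ^ i - n ∈ iv (N - (k + i)) T then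
          g n (c (k + i) + j - m / 2 ^ i - n) m else 0) := by
    unfold GR
    rw [← mul_sum, sum_comm, mul_sum]
  rw [eR]
  unfold AD
  rw [mul_sum]
  refine sum_le_sum fun m _ => ?_
  -- the summand of the right side
  set H : ℤ × ℤ → ℝ := fun p => if c (k + i) + p.1 - m / 2 ^ i - p.2 ∈ iv (N - (k + i)) T then
    g p.2 (c (k + i) + p.1 - m / 2 ^ i - p.2) m else 0 with hH
  have hH0 : ∀ p, 0 ≤ H p := by
    intro p
    simp only [hH]
    split_ifs
    · exact hg _ _ _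
    · exact le_rfl
  set nn : ℤ → ℤ := fun M => c k - m - 2 ^ i * M - s with hnn
  set e : ℤ → ℤ × ℤ := fun M =>
    (nn M / 2 ^ i + M + m / 2 ^ i - c (k + i), nn M / 2 ^ i) with he
  have heM : ∀ M, c (k + i) + (e M).1 - m / 2 ^ i - (e M).2 = M := by
    intro M
    simp only [he]
    ring
  have h1 : ∑ M ∈ iv (N - (k + i)) T, (if nn M ∈ iv (N - k) R then f (nn M) M m else 0) ≤
      2 ^ i * ∑ p ∈ Icc (-(D : ℤ)) D ×ˢ iv (N - (k + i)) R, H p := by
    rw [← sum_filter]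
    have h2 : ∀ M ∈ (iv (N - (k + i)) T).filter (fun M => nn M ∈ iv (N - k) R),
        f (nn M) M m ≤ 2 ^ i * H (e M) := by
      intro M hM
      rw [mem_filter] at hM
      refine (hfg _ _ _).trans (le_of_eq ?_)
      congr 1
      simp only [hH]
      rw [heM M, if_pos hM.1]
    refine (sum_le_sum h2).trans ?_
    rw [← mul_sum]
    refine mul_le_mul_of_nonneg_left ?_ (by positivity)
    have hinj : Set.InjOn e ↑((iv (N - (k + i)) T).filter (fun M => nn M ∈ iv (N - k) R)) := by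
      intro a _ b _ hab
      rw [← heM a, ← heM b, hab]
    rw [← sum_image (f := H) hinj]
    refine sum_le_sum_of_subset_of_nonneg ?_ fun _ _ _ => hH0 _
    intro p hp'
    rw [mem_image] at hp'
    obtain ⟨M, hM, rfl⟩ := hp'
    rw [mem_filter] at hM
    rw [mem_product]
    refine ⟨off_le hc hs hs' rfl, ?_⟩
    have h3 := hM.2
    rw [mem_iv] at h3 ⊢
    show ix (N - (k + i)) (ix i (nn M)) = R
    rw [ix_ix]
    have : i + (N - (k + i)) = N - k := by omega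
    rw [this]
    exact h3
  have h4 := mul_le_mul_of_nonneg_left h1 (by positivity : (0 : ℝ) ≤ 4 ^ k)
  refine h4.trans (le_of_eq ?_)
  rw [sum_product]
  have e4 : (4 : ℝ) ^ k = 2 ^ k * 2 ^ k := by rw [← mul_pow]; norm_num
  rw [e4, pow_add]
  ring

/-! ### Ancestors -/

variable {ι : Type*} [Fintype ι]

omit [Fintype ι] in
theorem OutM.le_anc {N k : ℕ} {P : ℕ → ℤ → ℤ → Matrix ι ι ℝ} (hP : OutM N k P)
    (pP : ∀ a n m, (P a n m).PosSemidef) {i : ℕ} (hi : k + i ≤ N) (n m : ℤ) :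
    ((2 : ℝ) ^ i • P (k + i) (n / 2 ^ i) m - P k n m).PosSemidef := by
  induction i with
  | zero => simpa using PosSemidef.zero
  | succ i ih =>
    have h1 := ih (by omega)
    set ν := n / 2 ^ i with hν
    have h2 : n / 2 ^ (i + 1) = ν / 2 := by
      rw [pow_succ, ← Int.ediv_ediv_of_nonneg (by positivity)]
    have h3 := hP (k + i) (by omega) (by omega) (ν / 2) m
    have h4 : ((2 : ℝ) • P (k + i + 1) (ν / 2) m - P (k + i) ν m).PosSemidef := by
      rw [h3, smul_smul]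
      norm_num
      rcases Int.even_or_odd' ν with ⟨u, hu | hu⟩
      · have : ν / 2 = u := by omega
        rw [this, hu, add_sub_cancel_left]
        exact pP _ _ _
      · have : ν / 2 = u := by omega
        rw [this, hu, add_sub_cancel_right]
        exact pP _ _ _
    have h5 := (h4.smul (by positivity : (0 : ℝ) ≤ 2 ^ i)).add h1
    have e : (2 : ℝ) ^ i • ((2 : ℝ) • P (k + i + 1) (ν / 2) m - P (k + i) ν m) +
        ((2 : ℝ) ^ i • P (k + i) ν m - P k n m) =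
        (2 : ℝ) ^ (i + 1) • P (k + (i + 1)) (n / 2 ^ (i + 1)) m - P k n m := by
      rw [h2, smul_sub, smul_smul, ← pow_succ, ← add_assoc]
      abel
    rwa [e] at h5

theorem OutM.tr_le_anc {N k : ℕ} {P : ℕ → ℤ → ℤ → Matrix ι ι ℝ} (hP : OutM N k P)
    (pP : ∀ a n m, (P a n m).PosSemidef) {i : ℕ} (hi : k + i ≤ N) (n m : ℤ)
    {Q : Matrix ι ι ℝ} (hQ : Q.PosSemidef) :
    (P k n m * Q).trace ≤ 2 ^ i * (P (k + i) (n / 2 ^ i) m * Q).trace := by
  classical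
  have h1 := H420.trace_mul_nonneg (OutM.le_anc hP pP hi n m) hQ
  rw [Matrix.sub_mul, trace_sub, Matrix.smul_mul, trace_smul, smul_eq_mul] at h1
  linarith

/-! ### Sum over the scales -/

/-- the sum over the scales, any gains (then `totalR` on the planes `c + j`) -/
theorem AD_sum {k₀ N i D : ℕ} {R S T : ℤ} {c : ℕ → ℤ} (hc : PlD D c) {s : ℤ} (hs : 0 ≤ s)
    (hs' : s < 2 ^ i) {f g : ℕ → ℤ → ℤ → ℤ → ℝ} (hg : ∀ k n M m, 0 ≤ g k n M m)
    (hfg : ∀ k n M m, f k n M m ≤ 2 ^ i * g k (n / 2 ^ i) M m) :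
    ∑ k ∈ Ico k₀ (N - i), AD N R S T (k + 1) i s (c (k + 1)) (f k) ≤
      ∑ j ∈ Icc (-(D : ℤ)) D, ∑ k ∈ Ico k₀ (N - i),
        GR N R S T (k + 1) i (c (k + i + 1) + j) (g k) := by
  rw [sum_comm]
  refine sum_le_sum fun k hk => ?_
  rw [mem_Ico] at hk
  have h := AD_le (N := N) (k := k + 1) (i := i) (by omega) (R := R) (S := S) (T := T) hc hs hs'
    (hg k) (hfg k)
  rwa [show k + 1 + i = k + i + 1 by omega] at h

/-- **(T7.2) pair2**: the gains `f` of the antidiagonal nodes (middle scale `k + 1`, offset `i`)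
against a static pair of families, by `totalR_sqrt`. -/
theorem AD_total {k₀ N i D : ℕ} (hkN : k₀ + i ≤ N) {R S T : ℤ} {c : ℕ → ℤ} (hc : PlD D c) {s : ℤ}
    (hs : 0 ≤ s) (hs' : s < 2 ^ i) {ι : ℕ → Type*} [∀ k, Fintype (ι k)]
    {P Q : ∀ k, ℕ → ℤ → ℤ → Matrix (ι k) (ι k) ℝ} {f g : ℕ → ℤ → ℤ → ℤ → ℝ}
    (oP : ∀ k, k₀ ≤ k → k + i ≤ N → OutM N (k + i) (P k))
    (oQ : ∀ k, k₀ ≤ k → k + i ≤ N → OutM N (k + i) (Q k))
    (sP : ∀ k a n m, (P k a n m)ᵀ = P k a n m) (sQ : ∀ k a n m, (Q k a n m)ᵀ = Q k a n m)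
    (mid : ∀ k, k₀ ≤ k → k + i < N → ∀ n n' m,
      (P (k + 1) (k + i + 1) n m * Q (k + 1) (k + i + 1) n' m).trace + g k n n' m
      ≤ (1 / 2) * ((P k (k + i + 1) n (2 * m) * Q k (k + i + 1) n' (2 * m)).trace
        + (P k (k + i + 1) n (2 * m + 1) * Q k (k + i + 1) n' (2 * m + 1)).trace))
    (hE : ∀ k, k₀ ≤ k → k + i < N → ∀ a, k + i + 1 ≤ a → a ≤ N →
      EW N R S (k + 1) (P (k + 1)) a ≤ EW N R S k (P k) a)
    (hF : ∀ k, k₀ ≤ k → k + i < N → ∀ a, k + i + 1 ≤ a → a ≤ N →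
      EW N T S (k + 1) (Q (k + 1)) a ≤ EW N T S k (Q k) a)
    (hg : ∀ k n M m, 0 ≤ g k n M m) (hfg : ∀ k n M m, f k n M m ≤ 2 ^ i * g k (n / 2 ^ i) M m) :
    ∑ k ∈ Ico k₀ (N - i), AD N R S T (k + 1) i s (c (k + 1)) (f k) ≤
      (2 * D + 1) * (2 * (16 * (D + D : ℕ) + 5)
        * √(EW N R S k₀ (P k₀) (k₀ + i) * EW N T S k₀ (Q k₀) (k₀ + i))) := by
  refine (AD_sum hc hs hs' hg hfg).trans ?_
  have h2 : ∀ j ∈ Icc (-(D : ℤ)) D,
      ∑ k ∈ Ico k₀ (N - i), GR N R S T (k + 1) i (c (k + i + 1) + j) (g k) ≤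
      2 * (16 * (D + D : ℕ) + 5)
        * √(EW N R S k₀ (P k₀) (k₀ + i) * EW N T S k₀ (Q k₀) (k₀ + i)) := by
    intro j hj
    rw [mem_Icc] at hj
    exact totalR_sqrt hkN (hc.add j (e := D) (abs_le.2 ⟨by omega, by omega⟩)) oP oQ sP sQ mid hE hF
  refine (sum_le_sum h2).trans (le_of_eq ?_)
  rw [sum_const, nsmul_eq_mul, Int.card_Icc]
  have e : ((D : ℤ) + 1 - -(D : ℤ)).toNat = 2 * D + 1 := by omega
  rw [e]
  push_cast
  ring

end

end Vale.Agent.P141.H922
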