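import Vale.Agent.P141.H922.Floor

/-!
# P141, line W: finite families of systems, the ladder of floors

* `sigS`: a finite family of systems with the same index type as one system;
* `sysL`: the family `sysF (δ κ) (φ κ)`; `glueL_dot`, `lwL`, `supB_sysL`, `supW_lwL`.
-/

namespace Vale.Agent.P141.H922

open Finset
open Vale.Agent.P141.H315 (Grid dot dot_self_nonneg)
open Vale.Agent.P141.PL (Pt el)
open Vale.Agent.P141.PL.H315 (cube3 mem_cube3 gz card_cube3 avg sum_avg_cubes iv mem_iv self_mem_iv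
  e12 e13 e23 wt wt_nonneg Nm Nm_nonneg Tri mx mx_nonneg abs_le_mx mx_mono atm card_iv
  avg_prod_Nm_le)
open Vale.Agent.P141.PL.H95 (gr mem_gr card_gr)
open Vale.Agent.P141.PL.H318
open Vale.Agent.P141.H782 (Cg Cg_nonneg)
open Vale.Agent.P141.H347 (LW Fam)

noncomputable section

open scoped Classical

section sig

variable {X ι κ : Type*} {g : Grid X} [Fintype κ] [Nonempty κ]

/-- **A finite family of systems as one system.** -/
def sigS (S : κ → CSys g ι) (C : ℝ) (hC : ∀ a, (S a).C ≤ C) : CSys g (κ × ι) where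
  a k i := (S i.1).a k i.2
  W k Q i := (S i.1).W k Q i.2
  W_nonneg := fun k Q i => (S i.1).W_nonneg k Q i.2
  nondeg := by
    intro k x
    choose β hβ h using fun a => (S a).nondeg k x
    obtain ⟨a0, ha0⟩ := Finite.exists_min β
    refine ⟨β a0, hβ a0, fun i => ?_⟩
    exact (mul_le_mul_of_nonneg_right (ha0 i.1) (dot_self_nonneg _ _)).trans (h i.1 i.2)
  C := C
  C_nonneg := ((S (Classical.arbitrary κ)).C_nonneg).trans (hC _)
  inherit := by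
    rintro k l hkl x ⟨a, i⟩ G hG
    exact ((S a).inherit k l hkl x i G fun y hy i' => hG y hy (a, i')).trans
      (mul_le_mul_of_nonneg_right (hC a) ((S a).W_nonneg _ _ _))

variable {S : κ → CSys g ι} {C : ℝ} {hC : ∀ a, (S a).C ≤ C}

@[simp] theorem sigS_a (k : ℕ) (i : κ × ι) : (sigS S C hC).a k i = (S i.1).a k i.2 := rfl

@[simp] theorem sigS_W (k : ℕ) (Q : Finset X) (i : κ × ι) :
    (sigS S C hC).W k Q i = (S i.1).W k Q i.2 := rfl

/-- local weights of a finite family -/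
def sigLW (w : ∀ a, LW (S a)) : LW (sigS S C hC) where
  ω j k x i := (w i.1).ω j k x i.2
  nonneg := fun j k x i => (w i.1).nonneg j k x i.2
  const := fun j k x y i hy => (w i.1).const j k x y i.2 hy
  pack := fun j x i A m hF hm => (w i.1).pack j x i.2 A m hF hm

theorem supB_sig {K : ℝ} (h : ∀ a, SupB (S a) K) : SupB (sigS S C hC) K :=
  fun k x i y hy => h i.1 k x i.2 y hy

theorem supW_sig {K : ℝ} {w : ∀ a, LW (S a)} (h : ∀ a, SupW (w a) K) :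
    SupW (sigLW (C := C) (hC := hC) w) K :=
  fun j k x i hk => h i.1 j k x i.2 hk

theorem SupB.mono {S : CSys g ι} {K K' : ℝ} (h : SupB S K) (hK : K ≤ K') : SupB S K' :=
  fun k x i y hy => (h k x i y hy).trans
    (mul_le_mul_of_nonneg_right hK (S.W_nonneg _ _ _))

theorem SupW.mono {S : CSys g ι} {w : LW S} {K K' : ℝ} (h : SupW w K) (hK : K ≤ K') :
    SupW w K' :=
  fun j k x i hk => (h j k x i hk).trans
    (mul_le_mul_of_nonneg_right hK (w.nonneg _ _ _ _))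

end sig

/-! ### The ladder -/

theorem wtF_mul (δ e φ : ℝ) (Q : Finset Pt) (u : Tri) :
    wtF δ e (δ * φ) Q u = δ * wtF 1 e φ Q u := by
  unfold wtF wt
  ring

section ladder

variable (c0 : ℕ) (σ : ℤ) (c : Pt) (hc : csz c ≤ 2 ^ c0) (e : ℝ) (h0 : 0 ≤ e) (h1 : e ≤ 1)
  (G : ℕ) (δ φ : ℕ → ℝ) (hδ : ∀ a, 0 < δ a) (hφ : ∀ a, 0 < φ a)

/-- **The ladder**: the classes `a ≤ G`, the weights `wtF (δ a) e (φ a)`. -/
def sysL : CSys (gr c0 σ) (Fin (G + 1) × (Pt × Tri)) :=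
  sigS (fun a : Fin (G + 1) => sysF c0 σ c hc (δ a) e (φ a) (hδ a) h0 h1 (hφ a).le) 2
    (fun _ => le_rfl)

theorem sysL_a (k : ℕ) (i : Fin (G + 1) × (Pt × Tri)) :
    (sysL c0 σ c hc e h0 h1 G δ φ hδ hφ).a k i = a1 c k i.2 := rfl

theorem sysL_W (k : ℕ) (Q : Finset ℤ) (i : Fin (G + 1) × (Pt × Tri)) :
    (sysL c0 σ c hc e h0 h1 G δ φ hδ hφ).W k Q i =
      wtF (δ i.1) e (φ i.1) (cube3 k i.2.1) i.2.2 := rfl

/-- the local weights of the ladder from those of the scalar systems -/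
def lwL (w : ∀ a : Fin (G + 1), LW (sys1 c0 σ c hc (δ a) e (hδ a) h0 h1)) :
    LW (sysL c0 σ c hc e h0 h1 G δ φ hδ hφ) :=
  sigLW fun a => lwF hc (hδ a) h0 h1 (hφ a).le (w a)

theorem supB_sysL (hc1 : c.1 ≠ 0) {φ0 : ℝ} (h00 : 0 < φ0) (hφ0 : ∀ a ≤ G, φ0 ≤ φ a) :
    SupB (sysL c0 σ c hc e h0 h1 G δ φ hδ hφ) (2 ^ c0 / φ0) :=
  supB_sig fun a => (supB_sysF hc hc1 (hδ a) h0 h1 (hφ a)).mono
    (div_le_div_of_nonneg_left (by positivity) h00 (hφ0 a (Nat.lt_succ_iff.mp a.2)))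

theorem supW_lwL (hc1 : c.1 ≠ 0) {φ0 : ℝ} (h00 : 0 < φ0) (hφ0 : ∀ a ≤ G, φ0 ≤ φ a)
    (w : ∀ a : Fin (G + 1), LW (sys1 c0 σ c hc (δ a) e (hδ a) h0 h1)) :
    SupW (lwL c0 σ c hc e h0 h1 G δ φ hδ hφ w) (2 ^ c0 / φ0) :=
  supW_sig fun a => (supW_lwF hc hc1 (hδ a) h0 h1 (hφ a) (w a)).mono
    (div_le_div_of_nonneg_left (by positivity) h00 (hφ0 a (Nat.lt_succ_iff.mp a.2)))

/-- uniformity for the ladder = uniformity for every class -/
theorem unifL {k : ℕ} {Q : Finset ℤ} {F : ℤ → ℝ}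
    (h : ∀ i, |dot Q F ((sysL c0 σ c hc e h0 h1 G δ φ hδ hφ).a k i)| ≤
      (sysL c0 σ c hc e h0 h1 G δ φ hδ hφ).W k Q i) (a : ℕ) (ha : a ≤ G) (q : Pt) (u : Tri) :
    |dot Q F (a1 c k (q, u))| ≤ wtF (δ a) e (φ a) (cube3 k q) u :=
  h (⟨a, Nat.lt_succ_of_le ha⟩, (q, u))

/-- **MIXED GLUE for the ladder** -/
theorem glueL_dot (he : 0 < e) {l : ℕ} {x0 : ℤ} {m : ℤ → ℕ} {A : ℤ → Prop}
    (hm : ∀ x ∈ (gr c0 σ).cube l x0, ∀ y, A x → ixs c0 σ (m x) y = ixs c0 σ (m x) x →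
      A y ∧ m y = m x)
    (hml : ∀ x ∈ (gr c0 σ).cube l x0, A x → m x ≤ l) {F : ℤ → ℝ}
    (h : ∀ x ∈ (gr c0 σ).cube l x0, A x → ∀ i,
      |dot ((gr c0 σ).cube (m x) x) F ((sysL c0 σ c hc e h0 h1 G δ φ hδ hφ).a (m x) i)| ≤
        (sysL c0 σ c hc e h0 h1 G δ φ hδ hφ).W (m x) ((gr c0 σ).cube (m x) x) i)
    (i : Fin (G + 1) × (Pt × Tri)) :
    |dot ((gr c0 σ).cube l x0) (fun y => if A y then F y else 0)
        ((sysL c0 σ c hc e h0 h1 G δ φ hδ hφ).a l i)| ≤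
      Cg e * (sysL c0 σ c hc e h0 h1 G δ φ hδ hφ).W l ((gr c0 σ).cube l x0) i :=
  glueF_dot hc (hδ i.1).le he h1 (hφ i.1).le hm hml i.2.1 i.2.2
    fun x hx hA z _ => h x hx hA (i.1, (z, i.2.2))

end ladder

end

end Vale.Agent.P141.H922
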