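import Vale.Agent.P141.H352.ChainUp
import Vale.Agent.P141.H652.PlaneT
import Vale.Agent.P141.H103.MidK

/-!
# P141, line (A): neighbour differences of the pair `(A, b)` over the tied nodes

`Vz k m` = mean over the middle cell `m` of scale `k` of `A (z, y) b (x, y)`, zero outside the top
cell `S`.  The square sum of `Vz K m - Vz K (m - 1)` over all nodes of all scales `K`; the functions
`A K`, `b K` may depend on the scale.
-/

namespace Vale.Agent.P141.H922.NB

open Finset Matrix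
open Vale.Agent.P141.PL (iv hs ix mem_iv)
open Vale.Agent.P141.PL.H103
open Vale.Agent.P141.PL
open Vale.Agent.P141.H103
open Vale.Agent.P141.H652
open Vale.Agent.P075 (Ix val)
open Vale.Agent.P141.H352 (nd pc rs gp Avg nd_chain pc_q_le)

noncomputable section

variable {κ : Type*} [Fintype κ]

/-! ### Squares -/

/-- square norm -/
def sqv (v : κ → ℝ) : ℝ := ∑ i, v i ^ 2

theorem sqv_nonneg (v : κ → ℝ) : 0 ≤ sqv v := sum_nonneg fun _ _ => sq_nonneg _

theorem sqv_zero : sqv (0 : κ → ℝ) = 0 := by simp [sqv]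

theorem sqv_neg (v : κ → ℝ) : sqv (-v) = sqv v := by simp [sqv]

theorem sqv_smul (a : ℝ) (v : κ → ℝ) : sqv (a • v) = a ^ 2 * sqv v := by
  simp [sqv, mul_pow, mul_sum]

theorem sqv_add (v w : κ → ℝ) : sqv (v + w) ≤ 2 * sqv v + 2 * sqv w := by
  unfold sqv
  rw [mul_sum, mul_sum, ← sum_add_distrib]
  refine sum_le_sum fun i _ => ?_
  rw [Pi.add_apply]
  nlinarith [sq_nonneg (v i - w i)]

theorem geo34 (n : ℕ) : ∑ r ∈ range n, (3 / 4 : ℝ) ^ r = 4 - 4 * (3 / 4) ^ n := by
  induction n with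
  | zero => simp
  | succ n ih => rw [sum_range_succ, ih, pow_succ]; ring

/-- weighted Cauchy - Schwarz -/
theorem cs34 (n : ℕ) (f : ℕ → ℝ) :
    (∑ i ∈ range n, f i) ^ 2 ≤ 4 * ∑ i ∈ range n, (4 / 3) ^ i * f i ^ 2 := by
  rcases Nat.eq_zero_or_pos n with rfl | hn
  · simp
  have h := Finset.sq_sum_div_le_sum_sq_div (range n) f
    (g := fun i => (3 / 4 : ℝ) ^ i) (fun i _ => by positivity)
  have hg : 0 < ∑ i ∈ range n, (3 / 4 : ℝ) ^ i :=
    sum_pos (fun i _ => by positivity) ⟨0, mem_range.2 hn⟩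
  have hg4 : ∑ i ∈ range n, (3 / 4 : ℝ) ^ i ≤ 4 := by
    rw [geo34]
    have : (0 : ℝ) ≤ (3 / 4) ^ n := by positivity
    linarith
  rw [div_le_iff₀ hg] at h
  have e : ∑ i ∈ range n, f i ^ 2 / (3 / 4) ^ i = ∑ i ∈ range n, (4 / 3) ^ i * f i ^ 2 :=
    sum_congr rfl fun i _ => by
      rw [div_eq_mul_inv, ← inv_pow, mul_comm]
      norm_num
  rw [e] at h
  have h0 : 0 ≤ ∑ i ∈ range n, (4 / 3 : ℝ) ^ i * f i ^ 2 := sum_nonneg fun i _ => by positivity
  nlinarith

theorem sqv_sum (n : ℕ) (v : ℕ → κ → ℝ) :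
    sqv (∑ i ∈ range n, v i) ≤ 4 * ∑ i ∈ range n, (4 / 3) ^ i * sqv (v i) := by
  unfold sqv
  have h : ∀ j, (∑ i ∈ range n, v i) j ^ 2 ≤ 4 * ∑ i ∈ range n, (4 / 3) ^ i * v i j ^ 2 := by
    intro j
    rw [Finset.sum_apply]
    exact cs34 n fun i => v i j
  refine (sum_le_sum fun j _ => h j).trans (le_of_eq ?_)
  rw [← mul_sum, sum_comm]
  simp only [mul_sum]

/-! ### The zero extension -/

/-- mean over the middle cell, zero outside the top cell `S` -/
def Vz (N : ℕ) (S : ℤ) (A : ℤ → ℤ → ℝ) (b : ℤ → ℤ → κ → ℝ) (z x : ℤ) (k : ℕ) (m : ℤ) : κ → ℝ :=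
  if m ∈ iv (N - k) S then qK A b z x k m else 0

omit [Fintype κ] in
theorem Vz_avg (N : ℕ) (S : ℤ) (A : ℤ → ℤ → ℝ) (b : ℤ → ℤ → κ → ℝ) (z x : ℤ) :
    Avg N (Vz N S A b z x) := by
  intro k hk m
  have e : N - k = (N - (k + 1)) + 1 := by omega
  unfold Vz
  rw [e]
  simp only [H588.mem_iv_double, H588.mem_iv_double']
  split_ifs
  · exact qK_step A b z x k m
  · simp

omit [Fintype κ] in
theorem gp_Vz {N k : ℕ} (hk : k < N) (S : ℤ) (A : ℤ → ℤ → ℝ) (b : ℤ → ℤ → κ → ℝ) (z x : ℤ)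
    (m : ℤ) : gp (Vz N S A b z x) k m =
      if m ∈ iv (N - (k + 1)) S then gp (qK A b z x) k m else 0 := by
  have e : N - k = (N - (k + 1)) + 1 := by omega
  unfold gp Vz
  rw [e]
  simp only [H588.mem_iv_double, H588.mem_iv_double']
  split_ifs
  · rfl
  · simp

/-- one neighbour difference -/
theorem nd_le {N K : ℕ} (hK : K ≤ N) (S : ℤ) (A : ℤ → ℤ → ℝ) (b : ℤ → ℤ → κ → ℝ) (z x m : ℤ) :
    sqv (nd (Vz N S A b z x) K m) ≤
      8 * ∑ i ∈ range (N - K), (4 / 3) ^ i * sqv (pc (Vz N S A b z x) K i m)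
        + 2 * sqv (rs (Vz N S A b z x) K (N - K) m) := by
  have h := nd_chain (Vz_avg N S A b z x) (k := K) (n := N - K) (by omega) m
  rw [h]
  have h2 := sqv_sum (N - K) fun i => pc (Vz N S A b z x) K i m
  refine (sqv_add _ _).trans ?_
  linarith

/-! ### One middle index -/

/-- the outer sum at the middle position `m` -/
def Phi (N : ℕ) (R T : ℤ) (K : ℕ) (c m : ℤ) (h : ℤ → ℤ → ℝ) : ℝ :=
  ∑ n ∈ iv (N - K) R, if c - m - n ∈ iv (N - K) T then
    ∑ z ∈ iv K n, ∑ x ∈ iv K (c - m - n), h z x else 0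

theorem Phi_nonneg {N : ℕ} {R T : ℤ} {K : ℕ} {c m : ℤ} {h : ℤ → ℤ → ℝ} (h0 : ∀ z x, 0 ≤ h z x) :
    0 ≤ Phi N R T K c m h :=
  sum_nonneg fun n _ => by
    split_ifs
    · exact sum_nonneg fun z _ => sum_nonneg fun x _ => h0 z x
    · exact le_rfl

theorem Phi_mono {N : ℕ} {R T : ℤ} {K : ℕ} {c m : ℤ} {h h' : ℤ → ℤ → ℝ}
    (hh : ∀ z x, h z x ≤ h' z x) : Phi N R T K c m h ≤ Phi N R T K c m h' :=
  sum_le_sum fun n _ => by
    split_ifs
    · exact sum_le_sum fun z _ => sum_le_sum fun x _ => hh z x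
    · exact le_rfl

theorem Phi_add (N : ℕ) (R T : ℤ) (K : ℕ) (c m : ℤ) (h h' : ℤ → ℤ → ℝ) :
    Phi N R T K c m (fun z x => h z x + h' z x) = Phi N R T K c m h + Phi N R T K c m h' := by
  unfold Phi
  rw [← sum_add_distrib]
  refine sum_congr rfl fun n _ => ?_
  split_ifs
  · simp only [sum_add_distrib]
  · simp

theorem Phi_smul (N : ℕ) (R T : ℤ) (K : ℕ) (c m : ℤ) (a : ℝ) (h : ℤ → ℤ → ℝ) :
    Phi N R T K c m (fun z x => a * h z x) = a * Phi N R T K c m h := by
  unfold Phi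
  rw [mul_sum]
  refine sum_congr rfl fun n _ => ?_
  split_ifs
  · simp only [mul_sum]
  · simp

theorem Phi_sum {β : Type*} (s : Finset β) (N : ℕ) (R T : ℤ) (K : ℕ) (c m : ℤ)
    (h : β → ℤ → ℤ → ℝ) :
    Phi N R T K c m (fun z x => ∑ i ∈ s, h i z x) = ∑ i ∈ s, Phi N R T K c m (h i) := by
  unfold Phi
  rw [sum_comm]
  refine sum_congr rfl fun n _ => ?_
  split_ifs
  · have : ∀ z ∈ iv K n, ∑ x ∈ iv K (c - m - n), ∑ i ∈ s, h i z x
        = ∑ i ∈ s, ∑ x ∈ iv K (c - m - n), h i z x := fun z _ => sum_comm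
    rw [sum_congr rfl this, sum_comm]
  · simp


/-! ### Counting -/

theorem one_le {β : Type*} {I : Finset β} {P : β → Prop} [DecidablePred P] [DecidableEq β]
    {g : β → ℝ} (g0 : ∀ a, 0 ≤ g a) {a : β} (ha : P a) :
    (if a ∈ I then g a else 0) ≤ ∑ M ∈ I, if P M then g M else 0 := by
  split_ifs with h
  · refine le_trans (le_of_eq ?_) (Finset.single_le_sum (f := fun M => if P M then g M else 0)
      (fun M _ => ?_) h)
    · simp only [if_pos ha]
    · split_ifs
      · exact g0 M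
      · exact le_rfl
  · refine sum_nonneg fun M _ => ?_
    split_ifs
    · exact g0 M
    · exact le_rfl

/-- the pieces at one point -/
theorem pc_pt {N K i : ℕ} (hi : K + i < N) (S : ℤ) (A : ℤ → ℤ → ℝ) (b : ℤ → ℤ → κ → ℝ)
    (z x m : ℤ) :
    sqv (pc (Vz N S A b z x) K i m) ≤ 4 *
      ((∑ M ∈ iv (N - (K + i + 1)) S, if m = 2 ^ (i + 1) * M then
          sqv (gp (qK A b z x) (K + i) M) else 0)
        + (∑ M ∈ iv (N - (K + i + 1)) S, if m = 2 ^ (i + 1) * M + 2 ^ i then
          sqv (gp (qK A b z x) (K + i) M) else 0)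
        + ∑ M ∈ iv (N - (K + i + 1)) S, if m = 2 ^ (i + 1) * M + 2 ^ (i + 1) then
          sqv (gp (qK A b z x) (K + i) M) else 0) := by
  have h := pc_q_le (q := sqv) sqv_zero sqv_neg (fun x => by rw [sqv_smul]; norm_num) sqv_nonneg
    sqv_add (Vz N S A b z x) K i m
  refine h.trans ?_
  set g : ℤ → ℝ := fun M => sqv (gp (qK A b z x) (K + i) M) with hg
  have g0 : ∀ M, 0 ≤ g M := fun M => sqv_nonneg _
  have nn : ∀ (P : ℤ → Prop) [DecidablePred P], 0 ≤ ∑ M ∈ iv (N - (K + i + 1)) S,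
      (if P M then g M else 0) := fun P _ => sum_nonneg fun M _ => by
    split_ifs
    · exact g0 M
    · exact le_rfl
  have hgp : ∀ M, sqv (gp (Vz N S A b z x) (K + i) M)
      = if M ∈ iv (N - (K + i + 1)) S then g M else 0 := by
    intro M
    rw [gp_Vz hi]
    split_ifs
    · rfl
    · exact sqv_zero
  rw [hgp, hgp]
  have n1 := nn (fun M => m = 2 ^ (i + 1) * M)
  have n2 := nn (fun M => m = 2 ^ (i + 1) * M + 2 ^ i)
  have n3 := nn (fun M => m = 2 ^ (i + 1) * M + 2 ^ (i + 1))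
  have hp : (2 : ℤ) ^ (i + 1) = 2 * 2 ^ i := pow_succ' 2 i
  have hp0 : (0 : ℤ) < 2 ^ i := by positivity
  by_cases h1 : (2 : ℤ) ^ i ∣ m
  · rw [if_pos h1]
    refine mul_le_mul_of_nonneg_left ?_ (by norm_num)
    by_cases h2 : (2 : ℤ) ^ (i + 1) ∣ m
    · rw [if_pos h2]
      obtain ⟨q, hq⟩ := h2
      have e : m / 2 ^ (i + 1) = q := by
        rw [hq]
        exact Int.mul_ediv_cancel_left _ (by positivity)
      rw [e]
      have k1 := one_le (I := iv (N - (K + i + 1)) S) (P := fun M => m = 2 ^ (i + 1) * M) g0 hq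
      have k2 := one_le (I := iv (N - (K + i + 1)) S)
        (P := fun M => m = 2 ^ (i + 1) * M + 2 ^ (i + 1)) g0 (a := q - 1) (by rw [hq]; ring)
      linarith
    · rw [if_neg h2, add_zero]
      obtain ⟨q, hq⟩ := h1
      have hodd : q % 2 = 1 := by
        rcases Int.emod_two_eq_zero_or_one q with h | h
        · exfalso
          apply h2
          obtain ⟨w, hw⟩ := Int.dvd_of_emod_eq_zero h
          exact ⟨w, by rw [hq, hw, hp]; ring⟩
        · exact h
      have e : m / 2 ^ (i + 1) = q / 2 := by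
        rw [hq, pow_succ, ← Int.ediv_ediv_of_nonneg (by positivity),
          Int.mul_ediv_cancel_left _ (by positivity)]
      rw [e]
      have k2 := one_le (I := iv (N - (K + i + 1)) S)
        (P := fun M => m = 2 ^ (i + 1) * M + 2 ^ i) g0 (a := q / 2) (by
          rw [hq, hp]
          have : q = 2 * (q / 2) + 1 := by omega
          conv_lhs => rw [this]
          ring)
      linarith
  · rw [if_neg h1]
    refine mul_nonneg (by norm_num) ?_
    linarith

/-- the rest at one point -/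
theorem rs_pt {N K : ℕ} (hK : K ≤ N) (S : ℤ) (A : ℤ → ℤ → ℝ) (b : ℤ → ℤ → κ → ℝ) (z x m : ℤ) :
    sqv (rs (Vz N S A b z x) K (N - K) m) ≤
      2 * ((if m = 2 ^ (N - K) * S then sqv (qK A b z x N S) else 0)
        + (if m = 2 ^ (N - K) * S + 2 ^ (N - K) then sqv (qK A b z x N S) else 0)) := by
  have hN : K + (N - K) = N := by omega
  have g0 := sqv_nonneg (qK A b z x N S)
  unfold rs
  by_cases h : (2 : ℤ) ^ (N - K) ∣ m
  · rw [if_pos h, hN]
    obtain ⟨q, hq⟩ := h
    have e : m / 2 ^ (N - K) = q := by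
      rw [hq]
      exact Int.mul_ediv_cancel_left _ (by positivity)
    rw [e]
    have hv : ∀ w : ℤ, Vz N S A b z x N w = if w = S then qK A b z x N S else 0 := by
      intro w
      unfold Vz
      have : w ∈ iv (N - N) S ↔ w = S := by
        rw [Nat.sub_self, mem_iv, ix_zero]
      simp only [this]
      split_ifs with hw
      · rw [hw]
      · rfl
    unfold nd
    rw [hv, hv, sub_eq_add_neg]
    refine (sqv_add _ _).trans ?_
    rw [sqv_neg, ← mul_add]
    refine mul_le_mul_of_nonneg_left ?_ (by norm_num)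
    have e1 : m = 2 ^ (N - K) * S ↔ q = S := by
      rw [hq]
      constructor
      · intro h
        exact mul_left_cancel₀ (by positivity) h
      · intro h
        rw [h]
    have e2 : m = 2 ^ (N - K) * S + 2 ^ (N - K) ↔ q - 1 = S := by
      rw [hq]
      constructor
      · intro h
        have h2 : (2 : ℤ) ^ (N - K) * (q - 1) = 2 ^ (N - K) * S := by linarith
        exact mul_left_cancel₀ (by positivity) h2
      · intro h
        rw [← h]
        ring
    simp only [e1, e2]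
    refine add_le_add ?_ ?_
    · split_ifs
      · exact le_rfl
      · rw [sqv_zero]
    · split_ifs
      · exact le_rfl
      · rw [sqv_zero]
  · rw [if_neg h, sqv_zero]
    refine mul_nonneg (by norm_num) (add_nonneg ?_ ?_) <;> split_ifs <;> first | exact g0 | exact le_rfl

/-- the window of the middle positions -/
def Wd (N K : ℕ) (S : ℤ) : Finset ℤ := Icc (2 ^ (N - K) * S) (2 ^ (N - K) * S + 2 ^ (N - K))

theorem sum_one_le (W : Finset ℤ) (a : ℤ) (F : ℤ → ℝ) (hF : 0 ≤ F a) :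
    ∑ m ∈ W, (if m = a then F m else 0) ≤ F a := by
  rw [sum_ite_eq' W a F]
  split_ifs
  · exact le_rfl
  · exact hF

theorem Phi_ite (N : ℕ) (R T : ℤ) (K : ℕ) (c m : ℤ) (P : Prop) [Decidable P] (h : ℤ → ℤ → ℝ) :
    Phi N R T K c m (fun z x => if P then h z x else 0)
      = if P then Phi N R T K c m h else 0 := by
  split_ifs
  · rfl
  · unfold Phi
    refine sum_eq_zero fun n _ => ?_
    split_ifs
    · simp
    · rfl

theorem swap_le {N : ℕ} {R T : ℤ} {K : ℕ} {c : ℤ} (W I : Finset ℤ) (a : ℤ → ℤ)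
    {g : ℤ → ℤ → ℤ → ℝ} (g0 : ∀ M z x, 0 ≤ g M z x) :
    ∑ m ∈ W, Phi N R T K c m (fun z x => ∑ M ∈ I, if m = a M then g M z x else 0)
      ≤ ∑ M ∈ I, Phi N R T K c (a M) (g M) := by
  simp only [Phi_sum, Phi_ite]
  rw [sum_comm]
  exact sum_le_sum fun M _ => sum_one_le W (a M) (fun m => Phi N R T K c m (g M))
    (Phi_nonneg (g0 M))

/-- **One scale.** -/
theorem nbK {N K : ℕ} (hK : K ≤ N) (R S T c : ℤ) (A : ℤ → ℤ → ℝ) (b : ℤ → ℤ → κ → ℝ) :
    ∑ m ∈ Wd N K S, Phi N R T K c m (fun z x => sqv (nd (Vz N S A b z x) K m)) ≤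
      32 * ∑ i ∈ range (N - K), (4 / 3) ^ i * ∑ M ∈ iv (N - (K + i + 1)) S,
        (Phi N R T K c (2 ^ (i + 1) * M) (fun z x => sqv (gp (qK A b z x) (K + i) M))
        + Phi N R T K c (2 ^ (i + 1) * M + 2 ^ i) (fun z x => sqv (gp (qK A b z x) (K + i) M))
        + Phi N R T K c (2 ^ (i + 1) * M + 2 ^ (i + 1))
          (fun z x => sqv (gp (qK A b z x) (K + i) M)))
      + 4 * (Phi N R T K c (2 ^ (N - K) * S) (fun z x => sqv (qK A b z x N S))
        + Phi N R T K c (2 ^ (N - K) * S + 2 ^ (N - K)) (fun z x => sqv (qK A b z x N S))) := by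
  have h1 : ∀ m ∈ Wd N K S, Phi N R T K c m (fun z x => sqv (nd (Vz N S A b z x) K m)) ≤
      ∑ i ∈ range (N - K), (32 * (4 / 3) ^ i) *
        (Phi N R T K c m (fun z x => ∑ M ∈ iv (N - (K + i + 1)) S,
            if m = 2 ^ (i + 1) * M then sqv (gp (qK A b z x) (K + i) M) else 0)
        + Phi N R T K c m (fun z x => ∑ M ∈ iv (N - (K + i + 1)) S,
            if m = 2 ^ (i + 1) * M + 2 ^ i then sqv (gp (qK A b z x) (K + i) M) else 0)
        + Phi N R T K c m (fun z x => ∑ M ∈ iv (N - (K + i + 1)) S,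
            if m = 2 ^ (i + 1) * M + 2 ^ (i + 1) then sqv (gp (qK A b z x) (K + i) M) else 0))
      + 4 * ((if m = 2 ^ (N - K) * S then Phi N R T K c m (fun z x => sqv (qK A b z x N S)) else 0)
        + (if m = 2 ^ (N - K) * S + 2 ^ (N - K) then
          Phi N R T K c m (fun z x => sqv (qK A b z x N S)) else 0)) := by
    intro m _
    have h2 : Phi N R T K c m (fun z x => sqv (nd (Vz N S A b z x) K m)) ≤
        Phi N R T K c m (fun z x => (∑ i ∈ range (N - K), (32 * (4 / 3) ^ i) *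
          ((∑ M ∈ iv (N - (K + i + 1)) S, if m = 2 ^ (i + 1) * M then
              sqv (gp (qK A b z x) (K + i) M) else 0)
            + (∑ M ∈ iv (N - (K + i + 1)) S, if m = 2 ^ (i + 1) * M + 2 ^ i then
              sqv (gp (qK A b z x) (K + i) M) else 0)
            + ∑ M ∈ iv (N - (K + i + 1)) S, if m = 2 ^ (i + 1) * M + 2 ^ (i + 1) then
              sqv (gp (qK A b z x) (K + i) M) else 0))
          + 4 * ((if m = 2 ^ (N - K) * S then sqv (qK A b z x N S) else 0)
            + (if m = 2 ^ (N - K) * S + 2 ^ (N - K) then sqv (qK A b z x N S) else 0))) := by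
      refine Phi_mono fun z x => (nd_le hK S A b z x m).trans ?_
      refine add_le_add ?_ ?_
      · rw [mul_sum]
        refine sum_le_sum fun i hi => ?_
        have hi' := mem_range.1 hi
        have h3 := pc_pt (N := N) (K := K) (i := i) (by omega) S A b z x m
        have h4 := mul_le_mul_of_nonneg_left h3
          (show (0 : ℝ) ≤ 8 * (4 / 3) ^ i by positivity)
        refine le_trans (le_of_eq ?_) (h4.trans (le_of_eq ?_))
        · ring
        · ring
      · have h3 := rs_pt hK S A b z x m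
        linarith
    refine h2.trans (le_of_eq ?_)
    rw [Phi_add, Phi_sum, Phi_smul, Phi_add, Phi_ite, Phi_ite]
    congr 1
    refine sum_congr rfl fun i _ => ?_
    rw [Phi_smul, Phi_add, Phi_add]
  refine (sum_le_sum h1).trans ?_
  rw [sum_add_distrib]
  refine add_le_add ?_ ?_
  · rw [sum_comm, mul_sum]
    refine sum_le_sum fun i _ => ?_
    rw [← mul_sum, ← mul_assoc]
    refine mul_le_mul_of_nonneg_left ?_ (by positivity)
    rw [sum_add_distrib, sum_add_distrib, sum_add_distrib, sum_add_distrib]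
    refine add_le_add (add_le_add ?_ ?_) ?_
    · exact swap_le (Wd N K S) (iv (N - (K + i + 1)) S) (fun M => 2 ^ (i + 1) * M)
        (g := fun M z x => sqv (gp (qK A b z x) (K + i) M)) fun _ _ _ => sqv_nonneg _
    · exact swap_le (Wd N K S) (iv (N - (K + i + 1)) S) (fun M => 2 ^ (i + 1) * M + 2 ^ i)
        (g := fun M z x => sqv (gp (qK A b z x) (K + i) M)) fun _ _ _ => sqv_nonneg _
    · exact swap_le (Wd N K S) (iv (N - (K + i + 1)) S) (fun M => 2 ^ (i + 1) * M + 2 ^ (i + 1))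
        (g := fun M z x => sqv (gp (qK A b z x) (K + i) M)) fun _ _ _ => sqv_nonneg _
  · rw [← mul_sum, sum_add_distrib]
    refine mul_le_mul_of_nonneg_left (add_le_add ?_ ?_) (by norm_num)
    · exact sum_one_le (Wd N K S) _ (fun m => Phi N R T K c m (fun z x => sqv (qK A b z x N S)))
        (Phi_nonneg fun _ _ => sqv_nonneg _)
    · exact sum_one_le (Wd N K S) _ (fun m => Phi N R T K c m (fun z x => sqv (qK A b z x N S)))
        (Phi_nonneg fun _ _ => sqv_nonneg _)

end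

end Vale.Agent.P141.H922.NB
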