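import Vale.Agent.P141.H922.NbAB

/-!
# P141, line (A): neighbour differences of `(A, b)`, tube energies

`Pf A j l`, `Qf b j l` : families at middle scale `l` of the functions of time `l - j`.
-/

namespace Vale.Agent.P141.H922.NB

open Finset Matrix
open Vale.Agent.P141.PL (iv hs ix mem_iv)
open Vale.Agent.P141.PL.H103
open Vale.Agent.P141.PL
open Vale.Agent.P141.H103
open Vale.Agent.P141.H652
open Vale.Agent.P075 (Ix val)
open Vale.Agent.P141.H352 (nd pc rs gp Avg nd_chain pc_q_le)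

noncomputable section

variable {κ : Type*} [Fintype κ] [DecidableEq κ]

/-! ### Signs -/

/-- `A` times the Haar signs of the middle scale `l` -/
def sg (l : ℕ) (A : ℤ → ℤ → ℝ) (z y : ℤ) : ℝ := hs l y * A z y

theorem hs_lo {k : ℕ} {m x : ℤ} (h : x ∈ iv k (2 * m)) : hs (k + 1) x = 1 := by
  rw [mem_iv] at h
  unfold hs
  rw [Nat.add_sub_cancel, h, if_pos (by omega)]

theorem hs_hi {k : ℕ} {m x : ℤ} (h : x ∈ iv k (2 * m + 1)) : hs (k + 1) x = -1 := by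
  rw [mem_iv] at h
  unfold hs
  rw [Nat.add_sub_cancel, h, if_neg (by omega)]

omit [Fintype κ] [DecidableEq κ] in
theorem gp_eq (A : ℤ → ℤ → ℝ) (b : ℤ → ℤ → κ → ℝ) (z x : ℤ) (k : ℕ) (m : ℤ) :
    gp (qK A b z x) k m = -qK (sg (k + 1) A) b z x (k + 1) m := by
  have e1 : ∑ y ∈ iv k (2 * m), sg (k + 1) A z y • b x y = ∑ y ∈ iv k (2 * m), A z y • b x y :=
    sum_congr rfl fun y hy => by rw [sg, hs_lo hy, one_mul]
  have e2 : ∑ y ∈ iv k (2 * m + 1), sg (k + 1) A z y • b x y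
      = -∑ y ∈ iv k (2 * m + 1), A z y • b x y := by
    rw [← sum_neg_distrib]
    exact sum_congr rfl fun y hy => by rw [sg, hs_hi hy, neg_one_mul, neg_smul]
  unfold gp
  unfold qK
  rw [sum_iv_two, e1, e2, pow_succ, mul_inv]
  module

/-- the unweighted family of `b` -/
def QU (b : ℤ → ℤ → κ → ℝ) (k : ℕ) : ℕ → ℤ → ℤ → Matrix (Ix k) (Ix k) ℝ :=
  QK b (fun _ _ _ => 1) k

theorem tr_oneK (N : ℕ) : H420.Tr (1 : ℝ) N (fun _ _ => (0 : Matrix κ κ ℝ)) (fun _ _ => 1) where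
  l_pos := one_pos
  psG := fun _ _ => PosSemidef.zero
  pdK := fun _ _ => PosDef.one
  sq := fun _ _ => by simp
  mean := fun _ _ _ => by simp

theorem QU_symm (b : ℤ → ℤ → κ → ℝ) (k a : ℕ) (n m : ℤ) : (QU b k a n m)ᵀ = QU b k a n m :=
  QK_symm (fun _ => tr_oneK k) b k a n m

theorem QU_own {N k : ℕ} (hk : k < N) (R S : ℤ) (b : ℤ → ℤ → κ → ℝ) (a : ℕ) :
    EW N R S (k + 1) (QU b (k + 1)) a ≤ EW N R S k (QU b k) a :=
  QK_own (fun _ => tr_oneK N) hk R S b a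

omit [DecidableEq κ] in
theorem QW_outA (N k₀ k : ℕ) (b : ℤ → ℤ → κ → ℝ) (M : ℤ → ℤ → Matrix κ κ ℝ) :
    OutM N k₀ (fun a n m => QW a k b (M m) n m) := by
  intro a _ _ n m
  ext j j'
  simp only [QW, Matrix.smul_apply, Matrix.add_apply, smul_eq_mul]
  rw [sum_iv_two, pow_succ]
  have : ((2 : ℝ) ^ a * 2 * 2 ^ k)⁻¹ = (1 / 2) * ((2 : ℝ) ^ a * 2 ^ k)⁻¹ := by
    rw [show (2 : ℝ) ^ a * 2 * 2 ^ k = 2 * ((2 : ℝ) ^ a * 2 ^ k) by ring, mul_inv]
    norm_num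
  rw [this]
  ring

theorem QU_out (N k₀ k : ℕ) (b : ℤ → ℤ → κ → ℝ) : OutM N k₀ (QU b k) :=
  QW_outA N k₀ k b fun _ _ => (1 : Matrix κ κ ℝ)⁻¹

theorem PA_outA (N k₀ k : ℕ) (A : ℤ → ℤ → ℝ) : OutM N k₀ (PA A k) := by
  rw [PA_eq]
  exact QW_outA N k₀ k (un A) fun _ _ => (1 : Matrix Unit Unit ℝ)⁻¹

/-- the sign is a conjugation -/
theorem PA_sg (A : ℤ → ℤ → ℝ) (l k : ℕ) : PA (sg l A) k = fun a n m =>
    diagonal (fun j => hs l (2 ^ k * m + val k j)) * PA A k a n m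
      * diagonal (fun j => hs l (2 ^ k * m + val k j)) := by
  funext a n m
  ext j j'
  rw [mul_diagonal, diagonal_mul]
  unfold PA
  rw [H588.Xg_apply, H588.Xg_apply]
  unfold sg
  simp only [mul_sum, sum_mul]
  exact sum_congr rfl fun i _ => by ring

theorem EW_sg (N : ℕ) (R S : ℤ) (A : ℤ → ℤ → ℝ) (l k a : ℕ) :
    EW N R S k (PA (sg l A) k) a = EW N R S k (PA A k) a := by
  rw [PA_sg]
  exact EW_sign N R S k (fun m j => hs l (2 ^ k * m + val k j))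
    (fun m i => by rw [sq, hs_mul_self]) (PA A k) a

/-- the trace formula -/
theorem tr_PQ (a a' k : ℕ) (A : ℤ → ℤ → ℝ) (b : ℤ → ℤ → κ → ℝ) (n n' m : ℤ) :
    (PA A k a n m * QU b k a' n' m).trace
      = ((2 : ℝ) ^ a * 2 ^ a')⁻¹ * ∑ z ∈ iv a n, ∑ x ∈ iv a' n', sqv (qK A b z x k m) := by
  unfold PA QU QK
  rw [tr_Xg_QW]
  congr 1
  refine sum_congr rfl fun z _ => sum_congr rfl fun x _ => ?_
  rw [inv_one, one_mulVec]
  unfold sqv dotProduct
  exact sum_congr rfl fun i _ => by ring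

omit [DecidableEq κ] in
theorem par (v w : κ → ℝ) : sqv ((1 / 2 : ℝ) • (v + w)) + sqv ((1 / 2 : ℝ) • (w - v))
    = (1 / 2) * (sqv v + sqv w) := by
  unfold sqv
  rw [← sum_add_distrib, ← sum_add_distrib, mul_sum]
  refine sum_congr rfl fun i _ => ?_
  simp only [Pi.smul_apply, Pi.add_apply, Pi.sub_apply, smul_eq_mul]
  ring

/-- the middle step, exact -/
theorem mid_eq (a a' k : ℕ) (A : ℤ → ℤ → ℝ) (b : ℤ → ℤ → κ → ℝ) (n n' m : ℤ) :
    (PA A (k + 1) a n m * QU b (k + 1) a' n' m).trace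
      + (PA (sg (k + 1) A) (k + 1) a n m * QU b (k + 1) a' n' m).trace
      = (1 / 2) * ((PA A k a n (2 * m) * QU b k a' n' (2 * m)).trace
        + (PA A k a n (2 * m + 1) * QU b k a' n' (2 * m + 1)).trace) := by
  rw [tr_PQ, tr_PQ, tr_PQ, tr_PQ, ← mul_add, ← mul_add, mul_left_comm]
  congr 1
  rw [← sum_add_distrib, ← sum_add_distrib, mul_sum]
  refine sum_congr rfl fun z _ => ?_
  rw [← sum_add_distrib, ← sum_add_distrib, mul_sum]
  refine sum_congr rfl fun x _ => ?_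
  have h := par (qK A b z x k (2 * m)) (qK A b z x k (2 * m + 1))
  rw [← h, ← qK_step]
  congr 1
  have e := gp_eq A b z x k m
  unfold gp at e
  rw [e, sqv_neg]

/-! ### Tubes -/

/-- the sum over the positions `2 ^ (i + 1) * M + s` -/
theorem TG_eq {N K i : ℕ} (R S T c s : ℤ) (A : ℤ → ℤ → ℝ) (b : ℤ → ℤ → κ → ℝ) :
    ∑ M ∈ iv (N - (K + i + 1)) S, Phi N R T K c (2 ^ (i + 1) * M + s)
        (fun z x => sqv (gp (qK A b z x) (K + i) M))
      = TW N R S T K (i + 1) s c (fun n n' M =>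
        (PA (sg (K + (i + 1)) A) (K + (i + 1)) K n M * QU b (K + (i + 1)) K n' M).trace) := by
  have hN : N - K - (i + 1) = N - (K + i + 1) := by omega
  unfold TW Phi
  rw [hN, mul_sum]
  refine sum_congr rfl fun M _ => ?_
  rw [mul_sum]
  refine sum_congr rfl fun n _ => ?_
  have e : c - (2 ^ (i + 1) * M + s) - n = c - 2 ^ (i + 1) * M - s - n := by ring
  rw [e]
  split_ifs
  · beta_reduce
    rw [tr_PQ]
    have h4 : (4 : ℝ) ^ K * ((2 : ℝ) ^ K * 2 ^ K)⁻¹ = 1 := by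
      rw [← mul_pow]
      norm_num
    rw [← mul_assoc, h4, one_mul]
    refine sum_congr rfl fun z _ => sum_congr rfl fun x _ => ?_
    rw [gp_eq, sqv_neg, ← add_assoc]
  · rw [mul_zero]

/-- the top cell -/
theorem TT_eq {N K : ℕ} (hK : K ≤ N) (R S T c s : ℤ) (A : ℤ → ℤ → ℝ) (b : ℤ → ℤ → κ → ℝ) :
    Phi N R T K c (2 ^ (N - K) * S + s) (fun z x => sqv (qK A b z x N S))
      = TW N R S T K (N - K) s c (fun n n' M =>
        (PA A N K n M * QU b N K n' M).trace) := by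
  have hN : N - K - (N - K) = 0 := by omega
  have h0 : iv 0 S = {S} := by
    ext x
    rw [mem_iv, ix_zero, mem_singleton]
  unfold TW Phi
  rw [hN, h0, sum_singleton, mul_sum]
  refine sum_congr rfl fun n _ => ?_
  have e : c - (2 ^ (N - K) * S + s) - n = c - 2 ^ (N - K) * S - s - n := by ring
  rw [e]
  split_ifs
  · beta_reduce
    rw [tr_PQ]
    have h4 : (4 : ℝ) ^ K * ((2 : ℝ) ^ K * 2 ^ K)⁻¹ = 1 := by
      rw [← mul_pow]
      norm_num
    rw [← mul_assoc, h4, one_mul]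
  · rw [mul_zero]

end

end Vale.Agent.P141.H922.NB
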