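import Vale.Agent.P141.H922.PairS1
import Vale.Agent.P141.H782.Glue

/-!
# P141: mixed glue for the pair weight, absolute constant

Maximal functions `MF` (H782/Max2), Kolmogorov's inequality and Finner's inequality with the
exponents `5/2, 5/2, 5/3`.
-/

namespace Vale.Agent.P141.H922

open Finset
open Vale.Agent.P141.H315 (Grid dot)
open Vale.Agent.P141.PL (Pt el)
open Vale.Agent.P141.PL.H315 (cube3 mem_cube3 gz card_cube3 avg sum_avg_cubes iv mem_iv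
  e12 e13 e23 Tri atm card_iv avg_nonneg A2 A2_nonneg avg_e12 avg_e13 avg_e23)
open Vale.Agent.P141.PL.H95 (gr mem_gr card_gr)
open Vale.Agent.P141.PL.H318 (ixs csz mem_gs a1 dot_a1)
open Vale.Agent.P141.H782 (MF MF_nonneg Sq Sq_nonneg cut cut_nonneg cut_supp A2_eq A2_le_MF
  kolmogorov weak bl card_bl bl3 mem_bl3 card_bl3 cube3_sub glue_abs)

noncomputable section

/-! ### Sums of powers of the maximal function -/

theorem sum_MF_le {e : ℝ} (h0 : 0 < e) (h1 : e < 1) (v : ℤ × ℤ → ℝ) (l : ℕ) (a b : ℤ) :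
    ∑ w ∈ bl l (a / 2 ^ l) ×ˢ bl l (b / 2 ^ l), MF (cut v l a b) l w ^ (1 - e) ≤
      45 / e * 4 ^ l * (A2 l v a b) ^ (1 - e) := by
  have hA0 : 0 ≤ A2 l v a b := A2_nonneg _ _ _ _
  have hS : Sq (cut v l a b) l (a / 2 ^ l) (b / 2 ^ l) = 4 ^ l * A2 l v a b := by
    rw [A2_eq v le_rfl rfl rfl]
    field_simp
  have hweak : ∀ lam : ℝ, 0 < lam → lam * (((bl l (a / 2 ^ l) ×ˢ bl l (b / 2 ^ l)).filter
      fun w => lam < MF (cut v l a b) l w).card : ℝ) ≤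
        9 * Sq (cut v l a b) l (a / 2 ^ l) (b / 2 ^ l) := fun lam hl =>
    weak (fun x y => cut_nonneg v l a b x y) (fun x y h => cut_supp v l a b x y h) hl _
  rcases hA0.eq_or_lt with hA | hA
  · have hz : ∀ w ∈ bl l (a / 2 ^ l) ×ˢ bl l (b / 2 ^ l), MF (cut v l a b) l w ^ (1 - e) = 0 := by
      intro w hw
      have hM : MF (cut v l a b) l w = 0 := by
        by_contra hne
        have hpos : 0 < MF (cut v l a b) l w := lt_of_le_of_ne (MF_nonneg _ _ _) (Ne.symm hne)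
        have h2 := hweak (MF (cut v l a b) l w / 2) (by linarith)
        rw [hS, ← hA, mul_zero, mul_zero] at h2
        have h3 : 0 < (((bl l (a / 2 ^ l) ×ˢ bl l (b / 2 ^ l)).filter
            fun w' => MF (cut v l a b) l w / 2 < MF (cut v l a b) l w').card : ℝ) := by
          have : w ∈ (bl l (a / 2 ^ l) ×ˢ bl l (b / 2 ^ l)).filter
              fun w' => MF (cut v l a b) l w / 2 < MF (cut v l a b) l w' :=
            mem_filter.2 ⟨hw, by linarith⟩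
          exact_mod_cast card_pos.2 ⟨w, this⟩
        have h4 := mul_pos (show 0 < MF (cut v l a b) l w / 2 by linarith) h3
        linarith
      rw [hM, Real.zero_rpow (by linarith)]
    rw [sum_eq_zero hz]
    have := Real.rpow_nonneg hA0 (1 - e)
    positivity
  · have hk := kolmogorov (bl l (a / 2 ^ l) ×ˢ bl l (b / 2 ^ l))
      (fun w => MF (cut v l a b) l w) (fun w _ => MF_nonneg _ _ _)
      (B := 9 * Sq (cut v l a b) l (a / 2 ^ l) (b / 2 ^ l))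
      (mul_nonneg (by norm_num) (Sq_nonneg (fun x y => cut_nonneg v l a b x y) _ _ _))
      hweak h0 h1.le hA
    have hcard : ((bl l (a / 2 ^ l) ×ˢ bl l (b / 2 ^ l)).card : ℝ) = 9 * 4 ^ l := by
      rw [card_product, card_bl, card_bl]
      push_cast
      rw [show (4 : ℝ) = 2 * 2 by norm_num, mul_pow]; ring
    rw [hcard, hS] at hk
    have hr : A2 l v a b * A2 l v a b ^ (-e) = A2 l v a b ^ (1 - e) := by
      rw [show 1 - e = 1 + -e by ring, Real.rpow_add hA, Real.rpow_one]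
    refine hk.trans ?_
    have hre : 4 / e * (9 * (4 ^ l * A2 l v a b)) * A2 l v a b ^ (-e) =
        36 / e * 4 ^ l * A2 l v a b ^ (1 - e) := by rw [← hr]; ring
    rw [hre]
    have h9 : (9 : ℝ) ≤ 9 / e := by rw [le_div_iff₀ h0]; linarith
    have h10 : 0 ≤ 4 ^ l * A2 l v a b ^ (1 - e) := by
      have := Real.rpow_nonneg hA0 (1 - e)
      positivity
    calc A2 l v a b ^ (1 - e) * (9 * 4 ^ l) + 36 / e * 4 ^ l * A2 l v a b ^ (1 - e)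
        = (9 + 36 / e) * (4 ^ l * A2 l v a b ^ (1 - e)) := by ring
      _ ≤ (9 / e + 36 / e) * (4 ^ l * A2 l v a b ^ (1 - e)) := by gcongr
      _ = _ := by ring

/-! ### Finner's inequality -/

/-- Hölder for the exponents `5/2` and `5/3`. -/
theorem holder52 {α : Type*} (s : Finset α) {f h : α → ℝ} (hf : ∀ x ∈ s, 0 ≤ f x)
    (hh : ∀ x ∈ s, 0 ≤ h x) : ∑ x ∈ s, f x * h x ≤
      (∑ x ∈ s, f x ^ (5 / 2 : ℝ)) ^ (2 / 5 : ℝ) * (∑ x ∈ s, h x ^ (5 / 3 : ℝ)) ^ (3 / 5 : ℝ) := by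
  have hpq : (5 / 2 : ℝ).HolderConjugate (5 / 3) := by
    rw [Real.holderConjugate_iff]; norm_num
  have := Real.inner_le_Lp_mul_Lq_of_nonneg s hpq hf hh
  norm_num at this ⊢
  exact this

/-- Hölder for the exponents `3/2` and `3`. -/
theorem holder32 {α : Type*} (s : Finset α) {f h : α → ℝ} (hf : ∀ x ∈ s, 0 ≤ f x)
    (hh : ∀ x ∈ s, 0 ≤ h x) : ∑ x ∈ s, f x * h x ≤
      (∑ x ∈ s, f x ^ (3 / 2 : ℝ)) ^ (2 / 3 : ℝ) * (∑ x ∈ s, h x ^ (3 : ℝ)) ^ (1 / 3 : ℝ) := by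
  have hpq : (3 / 2 : ℝ).HolderConjugate 3 := by
    rw [Real.holderConjugate_iff]; norm_num
  have := Real.inner_le_Lp_mul_Lq_of_nonneg s hpq hf hh
  norm_num at this ⊢
  exact this

/-- Hölder for the exponents `5/4` and `5`, one factor `1`. -/
theorem holder54 {α : Type*} (s : Finset α) {f : α → ℝ} (hf : ∀ x ∈ s, 0 ≤ f x) :
    ∑ x ∈ s, f x ^ (4 / 5 : ℝ) ≤ (∑ x ∈ s, f x) ^ (4 / 5 : ℝ) * (s.card : ℝ) ^ (1 / 5 : ℝ) := by
  have hpq : (5 / 4 : ℝ).HolderConjugate 5 := by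
    rw [Real.holderConjugate_iff]; norm_num
  have := Real.inner_le_Lp_mul_Lq_of_nonneg s hpq (f := fun x => f x ^ (4 / 5 : ℝ))
    (g := fun _ => (1 : ℝ)) (fun x hx => Real.rpow_nonneg (hf x hx) _) (fun _ _ => zero_le_one)
  have e1 : ∑ x ∈ s, (f x ^ (4 / 5 : ℝ)) ^ (5 / 4 : ℝ) = ∑ x ∈ s, f x :=
    sum_congr rfl fun x hx => by
      rw [← Real.rpow_mul (hf x hx)]; norm_num
  rw [e1] at this
  simp only [mul_one, Real.one_rpow, sum_const, nsmul_eq_mul] at this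
  norm_num at this ⊢
  exact this

/-- **Finner's inequality on the triangle**, exponents `5/2, 5/2, 5/3`. -/
theorem finner (A B C : Finset ℤ) {f g h : ℤ → ℤ → ℝ} (hf : ∀ x y, 0 ≤ f x y)
    (hg : ∀ x y, 0 ≤ g x y) (hh : ∀ x y, 0 ≤ h x y) :
    ∑ x ∈ A, ∑ y ∈ B, ∑ z ∈ C, f x y * g x z * h y z ≤
      (∑ x ∈ A, ∑ y ∈ B, f x y ^ (5 / 2 : ℝ)) ^ (2 / 5 : ℝ) *
      (∑ x ∈ A, ∑ z ∈ C, g x z ^ (5 / 2 : ℝ)) ^ (2 / 5 : ℝ) *
      (∑ y ∈ B, ∑ z ∈ C, h y z ^ (5 / 3 : ℝ)) ^ (3 / 5 : ℝ) * (A.card : ℝ) ^ (1 / 5 : ℝ) := by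
  set H := (∑ y ∈ B, ∑ z ∈ C, h y z ^ (5 / 3 : ℝ)) ^ (3 / 5 : ℝ) with hH
  have hH0 : 0 ≤ H := Real.rpow_nonneg
    (sum_nonneg fun _ _ => sum_nonneg fun _ _ => Real.rpow_nonneg (hh _ _) _) _
  set F : ℤ → ℝ := fun x => ∑ y ∈ B, f x y ^ (5 / 2 : ℝ) with hF
  set G : ℤ → ℝ := fun x => ∑ z ∈ C, g x z ^ (5 / 2 : ℝ) with hG
  have hF0 : ∀ x, 0 ≤ F x := fun x => sum_nonneg fun _ _ => Real.rpow_nonneg (hf _ _) _
  have hG0 : ∀ x, 0 ≤ G x := fun x => sum_nonneg fun _ _ => Real.rpow_nonneg (hg _ _) _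
  have h1 : ∀ x ∈ A, ∑ y ∈ B, ∑ z ∈ C, f x y * g x z * h y z ≤
      (√(F x) * √(G x)) ^ (4 / 5 : ℝ) * H := by
    intro x _
    have e1 : ∑ y ∈ B, ∑ z ∈ C, f x y * g x z * h y z =
        ∑ w ∈ B ×ˢ C, (f x w.1 * g x w.2) * h w.1 w.2 := by
      rw [sum_product]
    rw [e1]
    refine (holder52 (B ×ˢ C) (fun w _ => mul_nonneg (hf _ _) (hg _ _))
      (fun w _ => hh _ _)).trans (le_of_eq ?_)
    have e2 : ∑ w ∈ B ×ˢ C, (f x w.1 * g x w.2) ^ (5 / 2 : ℝ) = F x * G x := by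
      rw [sum_product, hF, hG, sum_mul_sum]
      exact sum_congr rfl fun y _ => sum_congr rfl fun z _ =>
        Real.mul_rpow (hf _ _) (hg _ _)
    have e3 : ∑ w ∈ B ×ˢ C, h w.1 w.2 ^ (5 / 3 : ℝ) = ∑ y ∈ B, ∑ z ∈ C, h y z ^ (5 / 3 : ℝ) := by
      rw [sum_product]
    rw [e2, e3, ← hH]
    congr 1
    rw [← Real.sqrt_mul (hF0 x), Real.sqrt_eq_rpow, ← Real.rpow_mul (mul_nonneg (hF0 x) (hG0 x))]
    norm_num
  refine (sum_le_sum h1).trans ?_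
  rw [← sum_mul]
  have h2 := holder54 A (f := fun x => √(F x) * √(G x))
    (fun x _ => mul_nonneg (Real.sqrt_nonneg _) (Real.sqrt_nonneg _))
  have h3 : ∑ x ∈ A, √(F x) * √(G x) ≤ √(∑ x ∈ A, F x) * √(∑ x ∈ A, G x) := by
    have h4 := Finset.sum_mul_sq_le_sq_mul_sq A (fun x => √(F x)) (fun x => √(G x))
    have e1 : ∑ x ∈ A, √(F x) ^ 2 = ∑ x ∈ A, F x := sum_congr rfl fun x _ => Real.sq_sqrt (hF0 x)
    have e2 : ∑ x ∈ A, √(G x) ^ 2 = ∑ x ∈ A, G x := sum_congr rfl fun x _ => Real.sq_sqrt (hG0 x)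
    rw [e1, e2] at h4
    rw [← Real.sqrt_mul (sum_nonneg fun x _ => hF0 x)]
    exact Real.le_sqrt_of_sq_le h4
  have h5 : (∑ x ∈ A, √(F x) * √(G x)) ^ (4 / 5 : ℝ) ≤
      (∑ x ∈ A, F x) ^ (2 / 5 : ℝ) * (∑ x ∈ A, G x) ^ (2 / 5 : ℝ) := by
    refine (Real.rpow_le_rpow (sum_nonneg fun x _ =>
      mul_nonneg (Real.sqrt_nonneg _) (Real.sqrt_nonneg _)) h3 (by norm_num)).trans (le_of_eq ?_)
    rw [Real.mul_rpow (Real.sqrt_nonneg _) (Real.sqrt_nonneg _), Real.sqrt_eq_rpow,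
      Real.sqrt_eq_rpow, ← Real.rpow_mul (sum_nonneg fun x _ => hF0 x),
      ← Real.rpow_mul (sum_nonneg fun x _ => hG0 x)]
    norm_num
  have hc : 0 ≤ (A.card : ℝ) ^ (1 / 5 : ℝ) := Real.rpow_nonneg (Nat.cast_nonneg _) _
  calc (∑ x ∈ A, (√(F x) * √(G x)) ^ (4 / 5 : ℝ)) * H
      ≤ ((∑ x ∈ A, √(F x) * √(G x)) ^ (4 / 5 : ℝ) * (A.card : ℝ) ^ (1 / 5 : ℝ)) * H :=
        mul_le_mul_of_nonneg_right h2 hH0
    _ ≤ (((∑ x ∈ A, F x) ^ (2 / 5 : ℝ) * (∑ x ∈ A, G x) ^ (2 / 5 : ℝ)) *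
        (A.card : ℝ) ^ (1 / 5 : ℝ)) * H :=
        mul_le_mul_of_nonneg_right (mul_le_mul_of_nonneg_right h5 hc) hH0
    _ = _ := by ring

/-! ### The point functions -/

/-- dominates the local `L²` norm on the neighbouring squares -/
def g2 (v : ℤ × ℤ → ℝ) (l : ℕ) (a b : ℤ) (w : ℤ × ℤ) : ℝ := MF (cut v l a b) l w ^ (1 / 2 : ℝ)

/-- dominates the local `N` norm on the neighbouring squares -/
def gN (v : ℤ × ℤ → ℝ) (l : ℕ) (a b : ℤ) (w : ℤ × ℤ) : ℝ :=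
  MF (cut v l a b) l w ^ (1 / 4 : ℝ) * MF (cut (fun w => v w ^ 2) l a b) l w ^ (1 / 8 : ℝ)

theorem g2_nonneg (v : ℤ × ℤ → ℝ) (l : ℕ) (a b : ℤ) (w : ℤ × ℤ) : 0 ≤ g2 v l a b w :=
  Real.rpow_nonneg (MF_nonneg _ _ _) _

theorem gN_nonneg (v : ℤ × ℤ → ℝ) (l : ℕ) (a b : ℤ) (w : ℤ × ℤ) : 0 ≤ gN v l a b w :=
  mul_nonneg (Real.rpow_nonneg (MF_nonneg _ _ _) _) (Real.rpow_nonneg (MF_nonneg _ _ _) _)

/-- the norms on a square in terms of `A2` -/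
theorem n2_sqr (k : ℕ) (v : ℤ × ℤ → ℝ) (s t : ℤ) :
    n2 (iv k s ×ˢ iv k t) v = A2 k v s t ^ (1 / 2 : ℝ) := by
  unfold n2 A2
  rw [Real.sqrt_eq_rpow]

theorem n4_sqr (k : ℕ) (v : ℤ × ℤ → ℝ) (s t : ℤ) :
    n4 (iv k s ×ˢ iv k t) v = A2 k (fun w => v w ^ 2) s t ^ (1 / 4 : ℝ) := by
  unfold n4 A2
  rw [Real.sqrt_eq_rpow, Real.sqrt_eq_rpow, ← Real.rpow_mul (avg_four_nonneg _ _)]
  norm_num
  congr 1
  unfold avg
  congr 1
  exact sum_congr rfl fun w _ => by ring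

theorem nN_sqr (k : ℕ) (v : ℤ × ℤ → ℝ) (s t : ℤ) :
    nN (iv k s ×ˢ iv k t) v =
      A2 k v s t ^ (1 / 4 : ℝ) * A2 k (fun w => v w ^ 2) s t ^ (1 / 8 : ℝ) := by
  have h1 := A2_nonneg k v s t
  have h2 := A2_nonneg k (fun w => v w ^ 2) s t
  unfold nN
  rw [n2_sqr, n4_sqr, Real.sqrt_eq_rpow, Real.mul_rpow (Real.rpow_nonneg h1 _)
    (Real.rpow_nonneg h2 _), ← Real.rpow_mul h1, ← Real.rpow_mul h2]
  norm_num

theorem n2_le_g2 (v : ℤ × ℤ → ℝ) {k l : ℕ} (hkl : k ≤ l) {a b s t : ℤ}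
    (hs : s / 2 ^ l = a / 2 ^ l) (ht : t / 2 ^ l = b / 2 ^ l) {w : ℤ × ℤ}
    (h1 : s / 2 ^ k - 1 ≤ w.1 / 2 ^ k ∧ w.1 / 2 ^ k ≤ s / 2 ^ k + 1)
    (h2 : t / 2 ^ k - 1 ≤ w.2 / 2 ^ k ∧ w.2 / 2 ^ k ≤ t / 2 ^ k + 1) :
    n2 (iv k s ×ˢ iv k t) v ≤ g2 v l a b w := by
  rw [n2_sqr]
  exact Real.rpow_le_rpow (A2_nonneg _ _ _ _) (A2_le_MF v hkl hs ht h1 h2) (by norm_num)

theorem nN_le_gN (v : ℤ × ℤ → ℝ) {k l : ℕ} (hkl : k ≤ l) {a b s t : ℤ}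
    (hs : s / 2 ^ l = a / 2 ^ l) (ht : t / 2 ^ l = b / 2 ^ l) {w : ℤ × ℤ}
    (h1 : s / 2 ^ k - 1 ≤ w.1 / 2 ^ k ∧ w.1 / 2 ^ k ≤ s / 2 ^ k + 1)
    (h2 : t / 2 ^ k - 1 ≤ w.2 / 2 ^ k ∧ w.2 / 2 ^ k ≤ t / 2 ^ k + 1) :
    nN (iv k s ×ˢ iv k t) v ≤ gN v l a b w := by
  rw [nN_sqr]
  exact mul_le_mul
    (Real.rpow_le_rpow (A2_nonneg _ _ _ _) (A2_le_MF v hkl hs ht h1 h2) (by norm_num))
    (Real.rpow_le_rpow (A2_nonneg _ _ _ _) (A2_le_MF (fun w => v w ^ 2) hkl hs ht h1 h2)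
      (by norm_num)) (Real.rpow_nonneg (A2_nonneg _ _ _ _) _)
    (Real.rpow_nonneg (MF_nonneg _ _ _) _)

theorem rpow_const {c r : ℝ} {m : ℕ} (hm : 0 < m) (hc : 0 ≤ c) (hr : 0 ≤ r) {j : ℕ}
    (h : c ^ j ≤ r ^ m) : c ^ ((j : ℝ) / m) ≤ r := by
  have hm' : (m : ℝ) ≠ 0 := by exact_mod_cast hm.ne'
  have h1 : (c ^ ((j : ℝ) / m)) ^ m ≤ r ^ m := by
    rw [← Real.rpow_natCast (c ^ ((j : ℝ) / m)) m, ← Real.rpow_mul hc, div_mul_cancel₀ _ hm',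
      Real.rpow_natCast]
    exact h
  exact le_of_pow_le_pow_left₀ hm.ne' hr h1

theorem sum_g2_le (v : ℤ × ℤ → ℝ) (l : ℕ) (a b : ℤ) :
    (∑ x ∈ bl l (a / 2 ^ l), ∑ y ∈ bl l (b / 2 ^ l), g2 v l a b (x, y) ^ (5 / 3 : ℝ)) ^
        (3 / 5 : ℝ) ≤ 29 * (4 ^ l : ℝ) ^ (3 / 5 : ℝ) * n2 (iv l a ×ˢ iv l b) v := by
  have h := sum_MF_le (e := 1 / 6) (by norm_num) (by norm_num) v l a b
  have e1 : ∑ x ∈ bl l (a / 2 ^ l), ∑ y ∈ bl l (b / 2 ^ l), g2 v l a b (x, y) ^ (5 / 3 : ℝ) =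
      ∑ w ∈ bl l (a / 2 ^ l) ×ˢ bl l (b / 2 ^ l), MF (cut v l a b) l w ^ (1 - 1 / 6 : ℝ) := by
    rw [sum_product]
    refine sum_congr rfl fun x _ => sum_congr rfl fun y _ => ?_
    unfold g2
    rw [← Real.rpow_mul (MF_nonneg _ _ _)]
    norm_num
  have hA := A2_nonneg l v a b
  rw [e1]
  have h0 : 0 ≤ ∑ w ∈ bl l (a / 2 ^ l) ×ˢ bl l (b / 2 ^ l),
      MF (cut v l a b) l w ^ (1 - 1 / 6 : ℝ) :=
    sum_nonneg fun _ _ => Real.rpow_nonneg (MF_nonneg _ _ _) _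
  refine (Real.rpow_le_rpow h0 h (by norm_num)).trans ?_
  rw [n2_sqr, Real.mul_rpow (by positivity) (Real.rpow_nonneg hA _),
    Real.mul_rpow (by norm_num) (by positivity), ← Real.rpow_mul hA]
  have h29 : (45 / (1 / 6) : ℝ) ^ (3 / 5 : ℝ) ≤ 29 := by
    have := rpow_const (c := 45 / (1 / 6)) (r := 29) (m := 5) (j := 3) (by norm_num)
      (by norm_num) (by norm_num) (by norm_num)
    norm_num at this ⊢
    exact this
  have h4 : 0 ≤ (4 ^ l : ℝ) ^ (3 / 5 : ℝ) := Real.rpow_nonneg (by positivity) _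
  rw [show ((1 - 1 / 6) * (3 / 5) : ℝ) = 1 / 2 by norm_num]
  have h5 := Real.rpow_nonneg hA (1 / 2)
  gcongr

theorem sum_gN_le (v : ℤ × ℤ → ℝ) (l : ℕ) (a b : ℤ) :
    (∑ x ∈ bl l (a / 2 ^ l), ∑ y ∈ bl l (b / 2 ^ l), gN v l a b (x, y) ^ (5 / 2 : ℝ)) ^
        (2 / 5 : ℝ) ≤ 14 * (4 ^ l : ℝ) ^ (2 / 5 : ℝ) * nN (iv l a ×ˢ iv l b) v := by
  set T := bl l (a / 2 ^ l) ×ˢ bl l (b / 2 ^ l) with hT
  have h := sum_MF_le (e := 1 / 16) (by norm_num) (by norm_num) v l a b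
  have h' := sum_MF_le (e := 1 / 16) (by norm_num) (by norm_num) (fun w => v w ^ 2) l a b
  rw [← hT] at h h'
  set S2 := ∑ w ∈ T, MF (cut v l a b) l w ^ (1 - 1 / 16 : ℝ) with hS2
  set S4 := ∑ w ∈ T, MF (cut (fun w => v w ^ 2) l a b) l w ^ (1 - 1 / 16 : ℝ) with hS4
  have hS20 : 0 ≤ S2 := sum_nonneg fun _ _ => Real.rpow_nonneg (MF_nonneg _ _ _) _
  have hS40 : 0 ≤ S4 := sum_nonneg fun _ _ => Real.rpow_nonneg (MF_nonneg _ _ _) _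
  have e1 : ∑ x ∈ bl l (a / 2 ^ l), ∑ y ∈ bl l (b / 2 ^ l), gN v l a b (x, y) ^ (5 / 2 : ℝ) ≤
      S2 ^ (2 / 3 : ℝ) * S4 ^ (1 / 3 : ℝ) := by
    have e2 : ∑ x ∈ bl l (a / 2 ^ l), ∑ y ∈ bl l (b / 2 ^ l), gN v l a b (x, y) ^ (5 / 2 : ℝ) =
        ∑ w ∈ T, MF (cut v l a b) l w ^ (5 / 8 : ℝ) *
          MF (cut (fun w => v w ^ 2) l a b) l w ^ (5 / 16 : ℝ) := by
      rw [hT, sum_product]
      refine sum_congr rfl fun x _ => sum_congr rfl fun y _ => ?_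
      unfold gN
      rw [Real.mul_rpow (Real.rpow_nonneg (MF_nonneg _ _ _) _)
        (Real.rpow_nonneg (MF_nonneg _ _ _) _), ← Real.rpow_mul (MF_nonneg _ _ _),
        ← Real.rpow_mul (MF_nonneg _ _ _)]
      norm_num
    rw [e2]
    refine (holder32 T (fun w _ => Real.rpow_nonneg (MF_nonneg _ _ _) _)
      (fun w _ => Real.rpow_nonneg (MF_nonneg _ _ _) _)).trans (le_of_eq ?_)
    have e3 : ∑ w ∈ T, (MF (cut v l a b) l w ^ (5 / 8 : ℝ)) ^ (3 / 2 : ℝ) = S2 := by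
      refine sum_congr rfl fun w _ => ?_
      rw [← Real.rpow_mul (MF_nonneg _ _ _)]
      norm_num
    have e4 : ∑ w ∈ T, (MF (cut (fun w => v w ^ 2) l a b) l w ^ (5 / 16 : ℝ)) ^ (3 : ℝ) = S4 := by
      refine sum_congr rfl fun w _ => ?_
      rw [← Real.rpow_mul (MF_nonneg _ _ _)]
      norm_num
    rw [e3, e4]
  have hA := A2_nonneg l v a b
  have hA4 := A2_nonneg l (fun w => v w ^ 2) a b
  have hc : (45 / (1 / 16) : ℝ) = 720 := by norm_num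
  rw [hc] at h h'
  have e5 : S2 ^ (2 / 3 : ℝ) * S4 ^ (1 / 3 : ℝ) ≤
      (720 * 4 ^ l) * (A2 l v a b ^ (5 / 8 : ℝ) * A2 l (fun w => v w ^ 2) a b ^ (5 / 16 : ℝ)) := by
    have p1 := Real.rpow_le_rpow hS20 h (z := 2 / 3) (by norm_num)
    have p2 := Real.rpow_le_rpow hS40 h' (z := 1 / 3) (by norm_num)
    refine (mul_le_mul p1 p2 (Real.rpow_nonneg hS40 _) (Real.rpow_nonneg (by positivity) _)).trans
      (le_of_eq ?_)
    rw [Real.mul_rpow (by positivity) (Real.rpow_nonneg hA _),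
      Real.mul_rpow (by positivity) (Real.rpow_nonneg hA4 _), ← Real.rpow_mul hA,
      ← Real.rpow_mul hA4]
    have e6 : (720 * 4 ^ l : ℝ) ^ (2 / 3 : ℝ) * (720 * 4 ^ l : ℝ) ^ (1 / 3 : ℝ) = 720 * 4 ^ l := by
      rw [← Real.rpow_add (by positivity)]
      norm_num
    calc _ = ((720 * 4 ^ l : ℝ) ^ (2 / 3 : ℝ) * (720 * 4 ^ l : ℝ) ^ (1 / 3 : ℝ)) *
          (A2 l v a b ^ ((1 - 1 / 16) * (2 / 3) : ℝ) *
            A2 l (fun w => v w ^ 2) a b ^ ((1 - 1 / 16) * (1 / 3) : ℝ)) := by ring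
      _ = _ := by rw [e6]; norm_num
  have h0 : 0 ≤ ∑ x ∈ bl l (a / 2 ^ l), ∑ y ∈ bl l (b / 2 ^ l),
      gN v l a b (x, y) ^ (5 / 2 : ℝ) :=
    sum_nonneg fun _ _ => sum_nonneg fun _ _ => Real.rpow_nonneg (gN_nonneg _ _ _ _ _) _
  refine (Real.rpow_le_rpow h0 (e1.trans e5) (by norm_num)).trans ?_
  rw [nN_sqr, Real.mul_rpow (by positivity) (mul_nonneg (Real.rpow_nonneg hA _)
    (Real.rpow_nonneg hA4 _)), Real.mul_rpow (by norm_num) (by positivity),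
    Real.mul_rpow (Real.rpow_nonneg hA _) (Real.rpow_nonneg hA4 _), ← Real.rpow_mul hA,
    ← Real.rpow_mul hA4]
  have h14 : (720 : ℝ) ^ (2 / 5 : ℝ) ≤ 14 := by
    have := rpow_const (c := 720) (r := 14) (m := 5) (j := 2) (by norm_num)
      (by norm_num) (by norm_num) (by norm_num)
    norm_num at this ⊢
    exact this
  have h4 : 0 ≤ (4 ^ l : ℝ) ^ (2 / 5 : ℝ) := Real.rpow_nonneg (by positivity) _
  rw [show (5 / 8 * (2 / 5) : ℝ) = 1 / 4 by norm_num, show (5 / 16 * (2 / 5) : ℝ) = 1 / 8 by norm_num]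
  have h5 := Real.rpow_nonneg hA (1 / 4)
  have h6 := Real.rpow_nonneg hA4 (1 / 8)
  gcongr

end

end Vale.Agent.P141.H922
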