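import Vale.Agent.P141.H703.U4P

/-!
# P141, line CE: (U4) in the pair weight, all heights of the vector edge

`G` is `d`-uniform on a box `A × B × C` against the pair weight (`UnifB`), line averages of `G²` at
most `L`.  `u x y` is a vector valued edge function with `‖u‖ ≤ 1`, `w` its operator potential at
every `x`.  The columns `c` have masses `m c = avg_x ‖u x c‖²`.  No flatness of `u` is assumed: the
column is cut at the dyadic heights `2⁻ʲ`, `j < N`, after the pairs have been ordered by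
`‖u x y‖ ≤ ‖u x c‖`, so that the height drops out of each of the three terms.

* `u4_col`: one column `c` and any truncation `t` supported on `‖u x y‖ ≤ ‖u x c‖`;
* `u4_sum`: the sum over the columns, bound `(1024 N (N+1) L³ u4T d w M + 4 (N+1) L² 4⁻ᴺ) avg ‖u‖²`;
* `u4_sum_deg`: the same with degrees: `m c ≤ r`, `m c = 0` off a set of density `ε`.
-/

namespace Vale.Agent.P141.H922

noncomputable section

open scoped BigOperators
open Finset
open Vale.Agent.P141.PL.H315 (avg avg_nonneg)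
open Vale.Agent.P141.H550 (avg_prod avg_comm avg_const avg_congr avg_mono avg_mul_left
  avg_mul_right avg_add abs_avg_le abs_avg_le_of avg_mul_sq_le)
open Vale.Agent.P141.H944 (UnifB)
open Vale.Agent.P141.H703

variable {V : Type*} [NormedAddCommGroup V] [InnerProductSpace ℝ V]

/-- averages of finite sums -/
theorem avg_sumF {X ι : Type*} (Q : Finset X) (s : Finset ι) (f : ι → X → ℝ) :
    avg Q (fun x => ∑ i ∈ s, f i x) = ∑ i ∈ s, avg Q (f i) := by
  unfold avg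
  rw [Finset.sum_comm, Finset.mul_sum]

/-- the indicator of the height class `2^{-(j+1)} < ‖u x c‖ ≤ 2^{-j}` -/
def hcl (u : ℤ → ℤ → V) (c : ℤ) (j : ℕ) (x : ℤ) : ℝ :=
  if (1 / 2 : ℝ) ^ (j + 1) < ‖u x c‖ ∧ ‖u x c‖ ≤ (1 / 2 : ℝ) ^ j then 1 else 0

/-- the indicator of the floor `‖u x c‖ ≤ 2^{-N}` -/
def hfl (u : ℤ → ℤ → V) (c : ℤ) (N : ℕ) (x : ℤ) : ℝ :=
  if ‖u x c‖ ≤ (1 / 2 : ℝ) ^ N then 1 else 0

omit [InnerProductSpace ℝ V] in
theorem hcl_eq (u : ℤ → ℤ → V) (c : ℤ) (j : ℕ) (x : ℤ) :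
    hcl u c j x = hfl u c j x - hfl u c (j + 1) x := by
  unfold hcl hfl
  have h : (1 / 2 : ℝ) ^ (j + 1) ≤ (1 / 2 : ℝ) ^ j :=
    pow_le_pow_of_le_one (by norm_num) (by norm_num) (Nat.le_succ j)
  by_cases h1 : ‖u x c‖ ≤ (1 / 2 : ℝ) ^ (j + 1)
  · rw [if_pos h1, if_pos (h1.trans h), if_neg (by rintro ⟨h2, _⟩; linarith)]; ring
  · by_cases h2 : ‖u x c‖ ≤ (1 / 2 : ℝ) ^ j
    · rw [if_neg h1, if_pos h2, if_pos ⟨not_le.1 h1, h2⟩]; ring
    · rw [if_neg h1, if_neg h2, if_neg (by rintro ⟨_, h3⟩; exact h2 h3)]; ring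

omit [InnerProductSpace ℝ V] in
theorem sum_hcl (u : ℤ → ℤ → V) {c x : ℤ} (h : ‖u x c‖ ≤ 1) (N : ℕ) :
    (∑ j ∈ range N, hcl u c j x) + hfl u c N x = 1 := by
  have e : ∀ j ∈ range N, hcl u c j x = hfl u c j x - hfl u c (j + 1) x :=
    fun j _ => hcl_eq u c j x
  rw [Finset.sum_congr rfl e, Finset.sum_range_sub']
  have h0 : hfl u c 0 x = 1 := by unfold hfl; rw [pow_zero, if_pos h]
  rw [h0]; ring

/-- the height drops out of `col3` -/
theorem col3_scale {d W L s h : ℝ} (hW : 0 ≤ W) (hL : 0 ≤ L) (hs : 0 ≤ s) (hh : 0 < h) :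
    h ^ 4 * col3 d (W * (h⁻¹ ^ 4 * s)) (L * (h⁻¹ ^ 2 * s)) = col3 d (W * s) (L * s) := by
  have hi : 0 < h⁻¹ := inv_pos.2 hh
  have key : ∀ r q : ℝ, 4 * r + 2 * q = 4 →
      h ^ 4 * ((W * (h⁻¹ ^ 4 * s)) ^ r * (L * (h⁻¹ ^ 2 * s)) ^ q) = (W * s) ^ r * (L * s) ^ q := by
    intro r q hrq
    have e1 : W * (h⁻¹ ^ 4 * s) = h⁻¹ ^ 4 * (W * s) := by ring
    have e2 : L * (h⁻¹ ^ 2 * s) = h⁻¹ ^ 2 * (L * s) := by ring
    rw [e1, e2, Real.mul_rpow (x := h⁻¹ ^ 4) (y := W * s) (by positivity) (by positivity),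
      Real.mul_rpow (x := h⁻¹ ^ 2) (y := L * s) (by positivity) (by positivity)]
    have e3 : (h⁻¹ ^ 4 : ℝ) ^ r * (h⁻¹ ^ 2 : ℝ) ^ q = h⁻¹ ^ 4 := by
      rw [← Real.rpow_natCast h⁻¹ 4, ← Real.rpow_natCast h⁻¹ 2, ← Real.rpow_mul hi.le,
        ← Real.rpow_mul hi.le, ← Real.rpow_add hi]
      congr 1
    have e4 : h ^ 4 * h⁻¹ ^ 4 = 1 := by rw [← mul_pow, mul_inv_cancel₀ hh.ne', one_pow]
    calc h ^ 4 * ((h⁻¹ ^ 4 : ℝ) ^ r * (W * s) ^ r * ((h⁻¹ ^ 2 : ℝ) ^ q * (L * s) ^ q))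
        = h ^ 4 * ((h⁻¹ ^ 4 : ℝ) ^ r * (h⁻¹ ^ 2 : ℝ) ^ q) * ((W * s) ^ r * (L * s) ^ q) := by ring
      _ = _ := by rw [e3, e4, one_mul]
  unfold col3
  have k1 := key (7 / 12) (5 / 6) (by norm_num)
  have k2 := key (3 / 5) (4 / 5) (by norm_num)
  have k3 := key (2 / 3) (2 / 3) (by norm_num)
  calc _ = d ^ (5 / 3 : ℝ) * (h ^ 4 * ((W * (h⁻¹ ^ 4 * s)) ^ (7 / 12 : ℝ) *
          (L * (h⁻¹ ^ 2 * s)) ^ (5 / 6 : ℝ))) +
        d ^ (8 / 5 : ℝ) * (h ^ 4 * ((W * (h⁻¹ ^ 4 * s)) ^ (3 / 5 : ℝ) *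
          (L * (h⁻¹ ^ 2 * s)) ^ (4 / 5 : ℝ))) +
        d ^ (4 / 3 : ℝ) * (h ^ 4 * ((W * (h⁻¹ ^ 4 * s)) ^ (2 / 3 : ℝ) *
          (L * (h⁻¹ ^ 2 * s)) ^ (2 / 3 : ℝ))) := by ring
    _ = _ := by rw [k1, k2, k3]

theorem col3_mono {d n n' E E' : ℝ} (hd : 0 ≤ d) (hn : 0 ≤ n) (hE : 0 ≤ E) (h1 : n ≤ n')
    (h2 : E ≤ E') : col3 d n E ≤ col3 d n' E' := by
  unfold col3
  have g : ∀ r : ℝ, 0 ≤ r → n ^ r ≤ n' ^ r := fun r hr => Real.rpow_le_rpow hn h1 hr
  have g' : ∀ r : ℝ, 0 ≤ r → E ^ r ≤ E' ^ r := fun r hr => Real.rpow_le_rpow hE h2 hr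
  have hn' := hn.trans h1
  have hE' := hE.trans h2
  have a1 := g (7 / 12) (by norm_num)
  have a2 := g (3 / 5) (by norm_num)
  have a3 := g (2 / 3) (by norm_num)
  have b1 := g' (5 / 6) (by norm_num)
  have b2 := g' (4 / 5) (by norm_num)
  have b3 := g' (2 / 3) (by norm_num)
  gcongr

/-- the truncated column sum -/
def colT (A : Finset ℤ) (G : ℤ × ℤ × ℤ → ℝ) (u : ℤ → ℤ → V) (c : ℤ) (t : ℤ → ℤ → ℝ)
    (y z : ℤ) : ℝ :=
  avg A fun x => t y x * inner ℝ (u x y) (u x c) * (G (x, y, z) * G (x, c, z))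

/-- **One height class of one column.** -/
theorem u4_class {d L : ℝ} (hd : 0 < d) (hL : 1 ≤ L) {A B C : Finset ℤ}
    {G : ℤ × ℤ × ℤ → ℝ} (hU : UnifB d A B C G)
    (h1 : ∀ y ∈ B, ∀ z ∈ C, (avg A fun x => G (x, y, z) ^ 2) ≤ L)
    (h2 : ∀ x ∈ A, ∀ z ∈ C, (avg B fun y => G (x, y, z) ^ 2) ≤ L)
    (h3 : ∀ x ∈ A, ∀ y ∈ B, (avg C fun z => G (x, y, z) ^ 2) ≤ L)
    (u : ℤ → ℤ → V) {w : ℝ} (hw : 0 ≤ w)
    (hop : ∀ x ∈ A, ∀ v : V, (avg B fun y => (inner ℝ (u x y) v) ^ 2) ≤ w * ‖v‖ ^ 2)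
    {c : ℤ} (hc : c ∈ B) (t : ℤ → ℤ → ℝ) (ht : ∀ y ∈ B, ∀ x ∈ A, |t y x| ≤ 1)
    (hto : ∀ y ∈ B, ∀ x ∈ A, t y x ≠ 0 → ‖u x y‖ ≤ ‖u x c‖) (j : ℕ) :
    (avg B fun y => avg C fun z => (colT A G u c (fun y x => hcl u c j x * t y x) y z) ^ 2) ≤
      16 * L ^ 2 * col3 d (w * (4 * avg A fun x => ‖u x c‖ ^ 2))
        (L * (4 * avg A fun x => ‖u x c‖ ^ 2)) := by
  classical
  set h : ℝ := (1 / 2 : ℝ) ^ j with hh
  have hpos : 0 < h := by positivity
  have hL0 : 0 ≤ L := by linarith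
  have hhalf : (1 / 2 : ℝ) ^ (j + 1) = h / 2 := by rw [pow_succ, ← hh]; ring
  have hcl01 : ∀ x, 0 ≤ hcl u c j x ∧ hcl u c j x ≤ 1 := by
    intro x; unfold hcl; split_ifs <;> norm_num
  set ξ : ℝ := avg A (hcl u c j) with hξ
  have hξ0 : 0 ≤ ξ := avg_nonneg fun x _ => (hcl01 x).1
  set m : ℝ := avg A fun x => ‖u x c‖ ^ 2 with hm
  have hm0 : 0 ≤ m := avg_nonneg fun _ _ => sq_nonneg _
  have hξm : h ^ 2 * ξ ≤ 4 * m := by
    rw [hξ, hm, ← avg_mul_left, ← avg_mul_left]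
    refine avg_mono fun x _ => ?_
    unfold hcl
    split_ifs with h0
    · have := h0.1
      rw [hhalf] at this
      nlinarith [norm_nonneg (u x c)]
    · nlinarith [sq_nonneg ‖u x c‖]
  let a : ℤ → ℤ → ℝ := fun y x => hcl u c j x * t y x *
    (h⁻¹ * inner ℝ (u x y) (‖u x c‖⁻¹ • u x c))
  let b : ℤ → ℝ := fun x => hcl u c j x * (h⁻¹ * ‖u x c‖)
  have hunit : ∀ x, ‖(‖u x c‖⁻¹ • u x c)‖ ≤ 1 := by
    intro x
    by_cases h0 : ‖u x c‖ = 0
    · rw [h0]; simp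
    · rw [norm_smul, norm_inv, norm_norm, inv_mul_cancel₀ h0]
  have hb : ∀ x ∈ A, |b x| ≤ 1 := by
    intro x _
    simp only [b]
    by_cases h0 : (1 / 2 : ℝ) ^ (j + 1) < ‖u x c‖ ∧ ‖u x c‖ ≤ (1 / 2 : ℝ) ^ j
    · have e : hcl u c j x = 1 := by unfold hcl; rw [if_pos h0]
      rw [e, one_mul, abs_mul, abs_of_pos (inv_pos.2 hpos), abs_norm, inv_mul_le_iff₀ hpos, mul_one]
      exact h0.2
    · have e : hcl u c j x = 0 := by unfold hcl; rw [if_neg h0]
      rw [e]; norm_num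
  have ha : ∀ y ∈ B, ∀ x ∈ A, |a y x| ≤ 1 := by
    intro y hy x hx
    simp only [a]
    by_cases h0 : (1 / 2 : ℝ) ^ (j + 1) < ‖u x c‖ ∧ ‖u x c‖ ≤ (1 / 2 : ℝ) ^ j
    · by_cases h00 : t y x = 0
      · rw [h00]; norm_num
      have e : hcl u c j x = 1 := by unfold hcl; rw [if_pos h0]
      rw [e, one_mul, abs_mul, abs_mul, abs_of_pos (inv_pos.2 hpos)]
      have i1 : |inner ℝ (u x y) (‖u x c‖⁻¹ • u x c)| ≤ h :=
        (abs_real_inner_le_norm _ _).trans (by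
          calc ‖u x y‖ * ‖(‖u x c‖⁻¹ • u x c)‖ ≤ h * 1 :=
                mul_le_mul ((hto y hy x hx h00).trans h0.2) (hunit x) (norm_nonneg _) hpos.le
            _ = h := mul_one _)
      calc |t y x| * (h⁻¹ * |inner ℝ (u x y) (‖u x c‖⁻¹ • u x c)|) ≤ 1 * (h⁻¹ * h) :=
            mul_le_mul (ht y hy x hx) (mul_le_mul_of_nonneg_left i1 (inv_pos.2 hpos).le)
              (by positivity) zero_le_one
        _ = 1 := by rw [inv_mul_cancel₀ hpos.ne', one_mul]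
    · have e : hcl u c j x = 0 := by unfold hcl; rw [if_neg h0]
      rw [e]; norm_num
  have key := u4P_center (n := w * (h⁻¹ ^ 4 * (h ^ 2 * ξ))) (E := L * (h⁻¹ ^ 2 * (h ^ 2 * ξ)))
    hd hL hU h1 h2 hc a b ha hb
    (by
      have e0 : w * (h⁻¹ ^ 4 * (h ^ 2 * ξ)) = (w * h⁻¹ ^ 2) * ξ := by
        have : h⁻¹ ^ 4 * (h ^ 2 * ξ) = h⁻¹ ^ 2 * ξ := by field_simp
        rw [this]; ring
      rw [avg_comm, e0, hξ, ← avg_mul_left]
      refine avg_mono fun x hx => ?_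
      have hvx : (avg B fun y => (inner ℝ (u x y) (‖u x c‖⁻¹ • u x c)) ^ 2) ≤ w := by
        refine (hop x hx _).trans ?_
        calc w * ‖(‖u x c‖⁻¹ • u x c)‖ ^ 2 ≤ w * 1 :=
              mul_le_mul_of_nonneg_left (pow_le_one₀ (norm_nonneg _) (hunit x)) hw
          _ = w := mul_one _
      have hpt : ∀ y ∈ B, a y x ^ 2 ≤ (hcl u c j x * h⁻¹ ^ 2) *
          (inner ℝ (u x y) (‖u x c‖⁻¹ • u x c)) ^ 2 := by
        intro y hy
        simp only [a]
        have ht2 : t y x ^ 2 ≤ 1 := by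
          rw [← sq_abs]; exact pow_le_one₀ (abs_nonneg _) (ht y hy x hx)
        have hc2 : hcl u c j x ^ 2 ≤ hcl u c j x := by
          have := hcl01 x; nlinarith
        calc (hcl u c j x * t y x * (h⁻¹ * inner ℝ (u x y) (‖u x c‖⁻¹ • u x c))) ^ 2
            = (hcl u c j x ^ 2 * t y x ^ 2) *
              (h⁻¹ ^ 2 * (inner ℝ (u x y) (‖u x c‖⁻¹ • u x c)) ^ 2) := by ring
          _ ≤ (hcl u c j x * 1) *
              (h⁻¹ ^ 2 * (inner ℝ (u x y) (‖u x c‖⁻¹ • u x c)) ^ 2) := by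
              refine mul_le_mul_of_nonneg_right ?_ (by positivity)
              exact mul_le_mul hc2 ht2 (sq_nonneg _) (hcl01 x).1
          _ = _ := by ring
      refine (avg_mono hpt).trans ?_
      rw [avg_mul_left]
      calc hcl u c j x * h⁻¹ ^ 2 * (avg B fun y => (inner ℝ (u x y) (‖u x c‖⁻¹ • u x c)) ^ 2)
          ≤ hcl u c j x * h⁻¹ ^ 2 * w :=
            mul_le_mul_of_nonneg_left hvx (mul_nonneg (hcl01 x).1 (by positivity))
        _ = w * h⁻¹ ^ 2 * hcl u c j x := by ring)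
    (by
      have e0 : L * (h⁻¹ ^ 2 * (h ^ 2 * ξ)) = L * ξ := by field_simp
      rw [e0, hξ, ← avg_mul_left]
      refine avg_mono fun x hx => ?_
      have e1 : (avg C fun z => (b x * G (x, c, z)) ^ 2) =
          b x ^ 2 * avg C fun z => G (x, c, z) ^ 2 := by
        rw [← avg_mul_left]
        exact avg_congr fun z _ => by ring
      have hb2 : b x ^ 2 ≤ hcl u c j x := by
        have e2 : b x = hcl u c j x * b x := by
          simp only [b]
          unfold hcl; split_ifs <;> ring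
        have hb1 : b x ^ 2 ≤ 1 := by
          rw [← sq_abs]; exact pow_le_one₀ (abs_nonneg _) (hb x hx)
        have hc2 : hcl u c j x ^ 2 ≤ hcl u c j x := by
          have := hcl01 x; nlinarith
        calc b x ^ 2 = hcl u c j x ^ 2 * b x ^ 2 := by
              conv_lhs => rw [e2]
              ring
          _ ≤ hcl u c j x * 1 := mul_le_mul hc2 hb1 (sq_nonneg _) (hcl01 x).1
          _ = _ := mul_one _
      rw [e1]
      calc b x ^ 2 * (avg C fun z => G (x, c, z) ^ 2) ≤ hcl u c j x * L :=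
            mul_le_mul hb2 (h3 x hx c hc) (avg_nonneg fun _ _ => sq_nonneg _) (hcl01 x).1
        _ = L * hcl u c j x := mul_comm _ _)
  -- the column matrix is `h²` times `colM`
  have hcol : ∀ y z, colT A G u c (fun y x => hcl u c j x * t y x) y z =
      h ^ 2 * colM A G c a b y z := by
    intro y z
    unfold colT colM
    rw [← avg_mul_left]
    refine avg_congr fun x _ => ?_
    simp only [a, b]
    have hsq : hcl u c j x * hcl u c j x = hcl u c j x := by unfold hcl; split_ifs <;> ring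
    have hin : inner ℝ (u x y) (u x c) =
        inner ℝ (u x y) (‖u x c‖⁻¹ • u x c) * ‖u x c‖ := by
      by_cases h0 : ‖u x c‖ = 0
      · rw [h0, norm_eq_zero.1 h0, inner_zero_right]; ring
      · rw [inner_smul_right]
        field_simp
    rw [hin]
    have hhi : h ^ 2 * (h⁻¹ * h⁻¹) = 1 := by field_simp
    calc hcl u c j x * t y x * (inner ℝ (u x y) (‖u x c‖⁻¹ • u x c) * ‖u x c‖) *
          (G (x, y, z) * G (x, c, z))
        = (h ^ 2 * (h⁻¹ * h⁻¹)) * ((hcl u c j x * hcl u c j x) * t y x *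
          (inner ℝ (u x y) (‖u x c‖⁻¹ • u x c) * ‖u x c‖) * (G (x, y, z) * G (x, c, z))) := by
            rw [hhi, hsq, one_mul]
      _ = _ := by ring
  have e : (avg B fun y => avg C fun z =>
      (colT A G u c (fun y x => hcl u c j x * t y x) y z) ^ 2) =
      h ^ 4 * avg B fun y => avg C fun z => colM A G c a b y z ^ 2 := by
    rw [← avg_mul_left]
    refine avg_congr fun y _ => ?_
    rw [← avg_mul_left]
    refine avg_congr fun z _ => ?_
    rw [hcol]; ring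
  rw [e]
  have hs0 : 0 ≤ h ^ 2 * ξ := by positivity
  calc h ^ 4 * (avg B fun y => avg C fun z => colM A G c a b y z ^ 2)
      ≤ h ^ 4 * (16 * L ^ 2 * col3 d (w * (h⁻¹ ^ 4 * (h ^ 2 * ξ)))
          (L * (h⁻¹ ^ 2 * (h ^ 2 * ξ)))) := mul_le_mul_of_nonneg_left key (by positivity)
    _ = 16 * L ^ 2 * (h ^ 4 * col3 d (w * (h⁻¹ ^ 4 * (h ^ 2 * ξ)))
          (L * (h⁻¹ ^ 2 * (h ^ 2 * ξ)))) := by ring
    _ = 16 * L ^ 2 * col3 d (w * (h ^ 2 * ξ)) (L * (h ^ 2 * ξ)) := by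
        rw [col3_scale hw hL0 hs0 hpos]
    _ ≤ _ := by
        refine mul_le_mul_of_nonneg_left ?_ (by positivity)
        exact col3_mono hd.le (by positivity) (by positivity)
          (mul_le_mul_of_nonneg_left hξm hw) (mul_le_mul_of_nonneg_left hξm hL0)

/-- **The floor of one column.** -/
theorem u4_floor {L : ℝ} (hL : 1 ≤ L) {A B C : Finset ℤ}
    {G : ℤ × ℤ × ℤ → ℝ}
    (h1 : ∀ y ∈ B, ∀ z ∈ C, (avg A fun x => G (x, y, z) ^ 2) ≤ L)
    (h3 : ∀ x ∈ A, ∀ y ∈ B, (avg C fun z => G (x, y, z) ^ 2) ≤ L)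
    (u : ℤ → ℤ → V)
    {c : ℤ} (hc : c ∈ B) (t : ℤ → ℤ → ℝ) (ht : ∀ y ∈ B, ∀ x ∈ A, |t y x| ≤ 1)
    (hto : ∀ y ∈ B, ∀ x ∈ A, t y x ≠ 0 → ‖u x y‖ ≤ ‖u x c‖) (N : ℕ) :
    (avg B fun y => avg C fun z => (colT A G u c (fun y x => hfl u c N x * t y x) y z) ^ 2) ≤
      L ^ 2 * ((1 / 4 : ℝ) ^ N * avg A fun x => ‖u x c‖ ^ 2) := by
  have hL0 : 0 ≤ L := by linarith
  set m : ℝ := avg A fun x => ‖u x c‖ ^ 2 with hm
  have hm0 : 0 ≤ m := avg_nonneg fun _ _ => sq_nonneg _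
  have hy : ∀ y ∈ B, (avg C fun z =>
      (colT A G u c (fun y x => hfl u c N x * t y x) y z) ^ 2) ≤ L ^ 2 * ((1 / 4 : ℝ) ^ N * m) := by
    intro y hy
    have hz : ∀ z ∈ C, (colT A G u c (fun y x => hfl u c N x * t y x) y z) ^ 2 ≤
        L * avg A fun x => ((1 / 4 : ℝ) ^ N * ‖u x c‖ ^ 2) * G (x, c, z) ^ 2 := by
      intro z hz
      have e1 : colT A G u c (fun y x => hfl u c N x * t y x) y z =
          avg A fun x => G (x, y, z) *
            (hfl u c N x * t y x * inner ℝ (u x y) (u x c) * G (x, c, z)) := by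
        unfold colT
        exact avg_congr fun x _ => by ring
      rw [e1]
      refine (avg_mul_sq_le _ _ _).trans ?_
      refine mul_le_mul (h1 y hy z hz) (avg_mono fun x hx => ?_)
        (avg_nonneg fun _ _ => sq_nonneg _) hL0
      rw [mul_pow]
      refine mul_le_mul_of_nonneg_right ?_ (sq_nonneg _)
      by_cases h0 : ‖u x c‖ ≤ (1 / 2 : ℝ) ^ N
      · by_cases h00 : t y x = 0
        · rw [h00]; simp only [mul_zero, zero_mul, ne_eq, OfNat.ofNat_ne_zero, not_false_eq_true,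
            zero_pow]; positivity
        have e2 : hfl u c N x = 1 := by unfold hfl; rw [if_pos h0]
        rw [e2, one_mul, mul_pow]
        have ht2 : t y x ^ 2 ≤ 1 := by
          rw [← sq_abs]; exact pow_le_one₀ (abs_nonneg _) (ht y hy x hx)
        have hin : (inner ℝ (u x y) (u x c)) ^ 2 ≤ (1 / 4 : ℝ) ^ N * ‖u x c‖ ^ 2 := by
          have i1 : |inner ℝ (u x y) (u x c)| ≤ (1 / 2 : ℝ) ^ N * ‖u x c‖ :=
            (abs_real_inner_le_norm _ _).trans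
              (mul_le_mul_of_nonneg_right ((hto y hy x hx h00).trans h0) (norm_nonneg _))
          calc (inner ℝ (u x y) (u x c)) ^ 2 = |inner ℝ (u x y) (u x c)| ^ 2 := (sq_abs _).symm
            _ ≤ ((1 / 2 : ℝ) ^ N * ‖u x c‖) ^ 2 := pow_le_pow_left₀ (abs_nonneg _) i1 2
            _ = (1 / 4 : ℝ) ^ N * ‖u x c‖ ^ 2 := by
                rw [mul_pow, ← pow_mul, mul_comm N 2, pow_mul]
                norm_num
        calc t y x ^ 2 * (inner ℝ (u x y) (u x c)) ^ 2 ≤ 1 * ((1 / 4 : ℝ) ^ N * ‖u x c‖ ^ 2) :=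
              mul_le_mul ht2 hin (sq_nonneg _) zero_le_one
          _ = _ := one_mul _
      · have e2 : hfl u c N x = 0 := by unfold hfl; rw [if_neg h0]
        rw [e2]; simp only [zero_mul, ne_eq, OfNat.ofNat_ne_zero, not_false_eq_true, zero_pow]
        positivity
    refine (avg_mono hz).trans ?_
    rw [avg_mul_left, avg_comm]
    have : (avg A fun x => avg C fun z => ((1 / 4 : ℝ) ^ N * ‖u x c‖ ^ 2) * G (x, c, z) ^ 2) ≤
        L * ((1 / 4 : ℝ) ^ N * m) := by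
      rw [hm, ← avg_mul_left, ← avg_mul_left]
      refine avg_mono fun x hx => ?_
      rw [avg_mul_left, mul_comm]
      exact mul_le_mul_of_nonneg_right (h3 x hx c hc) (by positivity)
    calc L * _ ≤ L * (L * ((1 / 4 : ℝ) ^ N * m)) := mul_le_mul_of_nonneg_left this hL0
      _ = _ := by ring
  refine (avg_mono hy).trans ?_
  rw [avg_const ⟨c, hc⟩]

/-- **(U4), one column**, all heights: any truncation `t` supported on `‖u x y‖ ≤ ‖u x c‖`. -/
theorem u4_col {d L : ℝ} (hd : 0 < d) (hL : 1 ≤ L) {A B C : Finset ℤ}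
    {G : ℤ × ℤ × ℤ → ℝ} (hU : UnifB d A B C G)
    (h1 : ∀ y ∈ B, ∀ z ∈ C, (avg A fun x => G (x, y, z) ^ 2) ≤ L)
    (h2 : ∀ x ∈ A, ∀ z ∈ C, (avg B fun y => G (x, y, z) ^ 2) ≤ L)
    (h3 : ∀ x ∈ A, ∀ y ∈ B, (avg C fun z => G (x, y, z) ^ 2) ≤ L)
    (u : ℤ → ℤ → V) {w : ℝ} (hw : 0 ≤ w)
    (hop : ∀ x ∈ A, ∀ v : V, (avg B fun y => (inner ℝ (u x y) v) ^ 2) ≤ w * ‖v‖ ^ 2)
    {c : ℤ} (hc : c ∈ B) (hu : ∀ x ∈ A, ‖u x c‖ ≤ 1)
    (t : ℤ → ℤ → ℝ) (ht : ∀ y ∈ B, ∀ x ∈ A, |t y x| ≤ 1)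
    (hto : ∀ y ∈ B, ∀ x ∈ A, t y x ≠ 0 → ‖u x y‖ ≤ ‖u x c‖) (N : ℕ) :
    (avg B fun y => avg C fun z => (colT A G u c t y z) ^ 2) ≤
      (N + 1) * (16 * N * L ^ 2 * col3 d (w * (4 * avg A fun x => ‖u x c‖ ^ 2))
        (L * (4 * avg A fun x => ‖u x c‖ ^ 2)) +
        L ^ 2 * ((1 / 4 : ℝ) ^ N * avg A fun x => ‖u x c‖ ^ 2)) := by
  have hsplit : ∀ y z, colT A G u c t y z =
      (∑ j ∈ range N, colT A G u c (fun y x => hcl u c j x * t y x) y z) +
        colT A G u c (fun y x => hfl u c N x * t y x) y z := by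
    intro y z
    unfold colT avg
    rw [← Finset.mul_sum, ← mul_add, Finset.sum_comm, ← Finset.sum_add_distrib]
    congr 1
    refine Finset.sum_congr rfl fun x hx => ?_
    have e := sum_hcl u (hu x hx) N
    have e2 : ∑ j ∈ range N, hcl u c j x * t y x * inner ℝ (u x y) (u x c) *
        (G (x, y, z) * G (x, c, z)) = (∑ j ∈ range N, hcl u c j x) *
          (t y x * inner ℝ (u x y) (u x c) * (G (x, y, z) * G (x, c, z))) := by
      rw [Finset.sum_mul]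
      exact Finset.sum_congr rfl fun j _ => by ring
    rw [e2]
    calc t y x * inner ℝ (u x y) (u x c) * (G (x, y, z) * G (x, c, z))
        = 1 * (t y x * inner ℝ (u x y) (u x c) * (G (x, y, z) * G (x, c, z))) := by ring
      _ = ((∑ j ∈ range N, hcl u c j x) + hfl u c N x) *
          (t y x * inner ℝ (u x y) (u x c) * (G (x, y, z) * G (x, c, z))) := by rw [e]
      _ = _ := by ring
  have hcs : ∀ y z, (colT A G u c t y z) ^ 2 ≤ (N + 1) *
      ((∑ j ∈ range N, (colT A G u c (fun y x => hcl u c j x * t y x) y z) ^ 2) +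
        (colT A G u c (fun y x => hfl u c N x * t y x) y z) ^ 2) := by
    intro y z
    let q : ℕ → ℝ := fun j => if j < N then colT A G u c (fun y x => hcl u c j x * t y x) y z
      else colT A G u c (fun y x => hfl u c N x * t y x) y z
    have s1 : ∑ j ∈ range (N + 1), q j = colT A G u c t y z := by
      rw [Finset.sum_range_succ, hsplit y z]
      congr 1
      · refine Finset.sum_congr rfl fun j hj => ?_
        simp only [q]; rw [if_pos (Finset.mem_range.1 hj)]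
      · simp only [q]; rw [if_neg (lt_irrefl N)]
    have s2 : ∑ j ∈ range (N + 1), q j ^ 2 =
        (∑ j ∈ range N, (colT A G u c (fun y x => hcl u c j x * t y x) y z) ^ 2) +
        (colT A G u c (fun y x => hfl u c N x * t y x) y z) ^ 2 := by
      rw [Finset.sum_range_succ]
      congr 1
      · refine Finset.sum_congr rfl fun j hj => ?_
        simp only [q]; rw [if_pos (Finset.mem_range.1 hj)]
      · simp only [q]; rw [if_neg (lt_irrefl N)]
    have s3 := sq_sum_le_card_mul_sum_sq (s := range (N + 1)) (f := q)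
    rw [s1, s2, Finset.card_range] at s3
    push_cast at s3
    exact s3
  set T : ℝ := 16 * L ^ 2 * col3 d (w * (4 * avg A fun x => ‖u x c‖ ^ 2))
        (L * (4 * avg A fun x => ‖u x c‖ ^ 2)) with hT
  have hcl : ∀ j ∈ range N, (avg B fun y => avg C fun z =>
      (colT A G u c (fun y x => hcl u c j x * t y x) y z) ^ 2) ≤ T :=
    fun j _ => u4_class hd hL hU h1 h2 h3 u hw hop hc t ht hto j
  have hfl := u4_floor hL h1 h3 u hc t ht hto N
  have hN1 : (0 : ℝ) ≤ N + 1 := by positivity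
  refine (avg_mono fun y _ => avg_mono fun z _ => hcs y z).trans ?_
  have e : (avg B fun y => avg C fun z => ((N : ℝ) + 1) *
      ((∑ j ∈ range N, (colT A G u c (fun y x => H922.hcl u c j x * t y x) y z) ^ 2) +
        (colT A G u c (fun y x => H922.hfl u c N x * t y x) y z) ^ 2)) =
      (N + 1) * ((∑ j ∈ range N, avg B fun y => avg C fun z =>
        (colT A G u c (fun y x => H922.hcl u c j x * t y x) y z) ^ 2) +
        avg B fun y => avg C fun z =>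
          (colT A G u c (fun y x => H922.hfl u c N x * t y x) y z) ^ 2) := by
    have e1 : ∀ y, (avg C fun z => ((N : ℝ) + 1) *
      ((∑ j ∈ range N, (colT A G u c (fun y x => H922.hcl u c j x * t y x) y z) ^ 2) +
        (colT A G u c (fun y x => H922.hfl u c N x * t y x) y z) ^ 2)) =
        (N + 1) * ((∑ j ∈ range N, avg C fun z =>
          (colT A G u c (fun y x => H922.hcl u c j x * t y x) y z) ^ 2) +
          avg C fun z => (colT A G u c (fun y x => H922.hfl u c N x * t y x) y z) ^ 2) := by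
      intro y
      rw [avg_mul_left, avg_add, avg_sumF]
    rw [avg_congr fun y _ => e1 y, avg_mul_left, avg_add, avg_sumF]
  rw [e]
  refine mul_le_mul_of_nonneg_left (add_le_add ?_ hfl) hN1
  refine (Finset.sum_le_sum hcl).trans (le_of_eq ?_)
  rw [Finset.sum_const, Finset.card_range, nsmul_eq_mul, hT]; ring

theorem col3_le_u4T {d L w m M : ℝ} (hd : 0 ≤ d) (hL : 1 ≤ L) (hw : 0 ≤ w) (hm : 0 ≤ m)
    (hmM : m ≤ M) : col3 d (w * (4 * m)) (L * (4 * m)) ≤ 16 * L * u4T d w M * m := by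
  have hM : 0 ≤ M := hm.trans hmM
  have hL4 : 1 ≤ 4 * L := by linarith
  have q1 := pow_pair (w := w) (L := 4 * L) (K := 4) hw hL4 (by norm_num) hm hmM (r := 7 / 12)
    (s := 5 / 6) (by norm_num) (by norm_num) (by norm_num) (by norm_num)
  have q2 := pow_pair (w := w) (L := 4 * L) (K := 4) hw hL4 (by norm_num) hm hmM (r := 3 / 5)
    (s := 4 / 5) (by norm_num) (by norm_num) (by norm_num) (by norm_num)
  have q3 := pow_pair (w := w) (L := 4 * L) (K := 4) hw hL4 (by norm_num) hm hmM (r := 2 / 3)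
    (s := 2 / 3) (by norm_num) (by norm_num) (by norm_num) (by norm_num)
  norm_num at q1 q2 q3
  have eL : L * (4 * m) = 4 * L * m := by ring
  rw [eL]
  unfold col3 u4T
  have r1 := mul_le_mul_of_nonneg_left q1 (Real.rpow_nonneg hd (5 / 3 : ℝ))
  have r2 := mul_le_mul_of_nonneg_left q2 (Real.rpow_nonneg hd (8 / 5 : ℝ))
  have r3 := mul_le_mul_of_nonneg_left q3 (Real.rpow_nonneg hd (4 / 3 : ℝ))
  calc _ ≤ _ := add_le_add (add_le_add r1 r2) r3
    _ = _ := by ring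

/-- **(U4) in the pair weight, sum over the columns, all heights, no flatness.**  `M` bounds the
masses of the columns, the bound is linear in the mass of `u`. -/
theorem u4_sum {d L : ℝ} (hd : 0 < d) (hL : 1 ≤ L) {A B C : Finset ℤ}
    {G : ℤ × ℤ × ℤ → ℝ} (hU : UnifB d A B C G)
    (h1 : ∀ y ∈ B, ∀ z ∈ C, (avg A fun x => G (x, y, z) ^ 2) ≤ L)
    (h2 : ∀ x ∈ A, ∀ z ∈ C, (avg B fun y => G (x, y, z) ^ 2) ≤ L)
    (h3 : ∀ x ∈ A, ∀ y ∈ B, (avg C fun z => G (x, y, z) ^ 2) ≤ L)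
    (u : ℤ → ℤ → V) (hu : ∀ x ∈ A, ∀ y ∈ B, ‖u x y‖ ≤ 1) {w M : ℝ} (hw : 0 ≤ w)
    (hop : ∀ x ∈ A, ∀ v : V, (avg B fun y => (inner ℝ (u x y) v) ^ 2) ≤ w * ‖v‖ ^ 2)
    (hM : ∀ c ∈ B, (avg A fun x => ‖u x c‖ ^ 2) ≤ M) (N : ℕ) :
    (avg B fun c => avg B fun y => avg C fun z =>
      (avg A fun x => inner ℝ (u x y) (u x c) * (G (x, y, z) * G (x, c, z))) ^ 2) ≤
      (1024 * (N * (N + 1)) * L ^ 3 * u4T d w M + 4 * (N + 1) * (L ^ 2 * (1 / 4 : ℝ) ^ N)) *
        avg B fun c => avg A fun x => ‖u x c‖ ^ 2 := by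
  classical
  let t1 : ℤ → ℤ → ℤ → ℝ := fun c y x => if ‖u x y‖ ≤ ‖u x c‖ then 1 else 0
  let t3 : ℤ → ℤ → ℤ → ℝ := fun c y x => if ‖u x y‖ < ‖u x c‖ then 1 else 0
  have hL0 : 0 ≤ L := by linarith
  have b1 : ∀ c ∈ B, ∀ t : ℤ → ℤ → ℝ, (∀ y ∈ B, ∀ x ∈ A, |t y x| ≤ 1) →
      (∀ y ∈ B, ∀ x ∈ A, t y x ≠ 0 → ‖u x y‖ ≤ ‖u x c‖) →
      (avg B fun y => avg C fun z => (colT A G u c t y z) ^ 2) ≤
        (256 * (N * (N + 1)) * L ^ 3 * u4T d w M + (N + 1) * (L ^ 2 * (1 / 4 : ℝ) ^ N)) *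
          avg A fun x => ‖u x c‖ ^ 2 := by
    intro c hc t ht hto
    refine (u4_col hd hL hU h1 h2 h3 u hw hop hc (fun x hx => hu x hx c hc) t ht hto N).trans ?_
    set m : ℝ := avg A fun x => ‖u x c‖ ^ 2 with hm
    have hm0 : 0 ≤ m := avg_nonneg fun _ _ => sq_nonneg _
    have h := col3_le_u4T hd.le hL hw hm0 (hM c hc)
    have h' : 16 * N * L ^ 2 * col3 d (w * (4 * m)) (L * (4 * m)) ≤
        16 * N * L ^ 2 * (16 * L * u4T d w M * m) := mul_le_mul_of_nonneg_left h (by positivity)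
    calc ((N : ℝ) + 1) * (16 * N * L ^ 2 * col3 d (w * (4 * m)) (L * (4 * m)) +
          L ^ 2 * ((1 / 4 : ℝ) ^ N * m)) ≤ (N + 1) * (16 * N * L ^ 2 * (16 * L * u4T d w M * m) +
          L ^ 2 * ((1 / 4 : ℝ) ^ N * m)) :=
          mul_le_mul_of_nonneg_left (add_le_add h' le_rfl) (by positivity)
      _ = _ := by ring
  have c1 : ∀ c ∈ B, (avg B fun y => avg C fun z => (colT A G u c (t1 c) y z) ^ 2) ≤
      (256 * (N * (N + 1)) * L ^ 3 * u4T d w M + (N + 1) * (L ^ 2 * (1 / 4 : ℝ) ^ N)) *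
          avg A fun x => ‖u x c‖ ^ 2 := by
    intro c hc
    refine b1 c hc (t1 c) (fun y _ x _ => ?_) (fun y _ x _ h => ?_)
    · simp only [t1]; split_ifs <;> norm_num
    · by_contra hcon
      exact h (by simp only [t1]; rw [if_neg hcon])
  have c3 : ∀ c ∈ B, (avg B fun y => avg C fun z => (colT A G u c (t3 c) y z) ^ 2) ≤
      (256 * (N * (N + 1)) * L ^ 3 * u4T d w M + (N + 1) * (L ^ 2 * (1 / 4 : ℝ) ^ N)) *
          avg A fun x => ‖u x c‖ ^ 2 := by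
    intro c hc
    refine b1 c hc (t3 c) (fun y _ x _ => ?_) (fun y _ x _ h => ?_)
    · simp only [t3]; split_ifs <;> norm_num
    · by_contra hcon
      exact h (by simp only [t3]; rw [if_neg (fun h' => hcon h'.le)])
  -- the two halves
  have hpt : ∀ c y z, (avg A fun x => inner ℝ (u x y) (u x c) * (G (x, y, z) * G (x, c, z))) ^ 2 ≤
      2 * (colT A G u c (t1 c) y z) ^ 2 + 2 * (colT A G u y (t3 y) c z) ^ 2 := by
    intro c y z
    have e : (avg A fun x => inner ℝ (u x y) (u x c) * (G (x, y, z) * G (x, c, z))) =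
        colT A G u c (t1 c) y z + colT A G u y (t3 y) c z := by
      unfold colT
      rw [← avg_add]
      refine avg_congr fun x _ => ?_
      simp only [t1, t3]
      rw [real_inner_comm (u x y) (u x c)]
      by_cases h : ‖u x y‖ ≤ ‖u x c‖
      · rw [if_pos h, if_neg (not_lt.2 h)]; ring
      · rw [if_neg h, if_pos (not_le.1 h)]; ring
    rw [e]
    nlinarith [sq_nonneg (colT A G u c (t1 c) y z - colT A G u y (t3 y) c z)]
  refine (avg_mono fun c _ => avg_mono fun y _ => avg_mono fun z _ => hpt c y z).trans ?_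
  have e : (avg B fun c => avg B fun y => avg C fun z =>
      2 * (colT A G u c (t1 c) y z) ^ 2 + 2 * (colT A G u y (t3 y) c z) ^ 2) =
      2 * (avg B fun c => avg B fun y => avg C fun z => (colT A G u c (t1 c) y z) ^ 2) +
        2 * (avg B fun c => avg B fun y => avg C fun z => (colT A G u y (t3 y) c z) ^ 2) := by
    rw [← avg_mul_left, ← avg_mul_left, ← avg_add]
    refine avg_congr fun c _ => ?_
    rw [← avg_mul_left, ← avg_mul_left, ← avg_add]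
    refine avg_congr fun y _ => ?_
    rw [← avg_mul_left, ← avg_mul_left, ← avg_add]
  rw [e, avg_comm B B (fun c y => avg C fun z => (colT A G u y (t3 y) c z) ^ 2)]
  set K : ℝ := 256 * (N * (N + 1)) * L ^ 3 * u4T d w M + (N + 1) * (L ^ 2 * (1 / 4 : ℝ) ^ N)
    with hK
  have f1 : (avg B fun c => avg B fun y => avg C fun z => (colT A G u c (t1 c) y z) ^ 2) ≤
      K * avg B fun c => avg A fun x => ‖u x c‖ ^ 2 := by
    rw [← avg_mul_left]; exact avg_mono c1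
  have f3 : (avg B fun c => avg B fun y => avg C fun z => (colT A G u c (t3 c) y z) ^ 2) ≤
      K * avg B fun c => avg A fun x => ‖u x c‖ ^ 2 := by
    rw [← avg_mul_left]; exact avg_mono c3
  calc _ ≤ 2 * (K * avg B fun c => avg A fun x => ‖u x c‖ ^ 2) +
        2 * (K * avg B fun c => avg A fun x => ‖u x c‖ ^ 2) :=
        add_le_add (mul_le_mul_of_nonneg_left f1 zero_le_two)
          (mul_le_mul_of_nonneg_left f3 zero_le_two)
    _ = _ := by rw [hK]; ring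

omit [InnerProductSpace ℝ V] in
/-- the mass of an edge from the degrees: columns of mass at most `r`, zero off `B'` -/
theorem mass_le_deg {A B B' : Finset ℤ} (u : ℤ → ℤ → V) {r ε : ℝ} (hr : 0 ≤ r) (hε : 0 ≤ ε)
    (hB' : ((B.filter fun c => c ∈ B').card : ℝ) ≤ ε * B.card)
    (h0 : ∀ c ∈ B, c ∉ B' → ∀ x ∈ A, u x c = 0)
    (hM : ∀ c ∈ B, (avg A fun x => ‖u x c‖ ^ 2) ≤ r) :
    (avg B fun c => avg A fun x => ‖u x c‖ ^ 2) ≤ ε * r := by
  classical
  rcases B.eq_empty_or_nonempty with hB | hB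
  · subst hB
    simp only [avg, Finset.sum_empty, mul_zero]
    positivity
  have hc : (0 : ℝ) < B.card := by exact_mod_cast hB.card_pos
  have h1 : (∑ c ∈ B, avg A fun x => ‖u x c‖ ^ 2) ≤ ∑ c ∈ B, if c ∈ B' then r else 0 := by
    refine Finset.sum_le_sum fun c hcB => ?_
    split_ifs with h
    · exact hM c hcB
    · have : (avg A fun x => ‖u x c‖ ^ 2) = avg A fun _ => (0 : ℝ) :=
        avg_congr fun x hx => by rw [h0 c hcB h x hx, norm_zero]; ring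
      rw [this]
      simp [avg]
  rw [← Finset.sum_filter, Finset.sum_const, nsmul_eq_mul] at h1
  show (B.card : ℝ)⁻¹ * _ ≤ _
  rw [inv_mul_le_iff₀ hc]
  calc _ ≤ ((B.filter fun c => c ∈ B').card : ℝ) * r := h1
    _ ≤ ε * B.card * r := mul_le_mul_of_nonneg_right hB' hr
    _ = _ := by ring

/-- **(U4) with degrees** (row 8577 (1)): the columns have mass at most `r` and vanish off a set of
density `ε`, potential `w`: bound `ε r u4T d w r`, i.e. the three terms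
`ε d^(5/3) w^(7/12) r^(17/12)`, `ε d^(8/5) w^(3/5) r^(7/5)`, `ε d^(4/3) w^(2/3) r^(4/3)`. -/
theorem u4_sum_deg {d L : ℝ} (hd : 0 < d) (hL : 1 ≤ L) {A B B' C : Finset ℤ}
    {G : ℤ × ℤ × ℤ → ℝ} (hU : UnifB d A B C G)
    (h1 : ∀ y ∈ B, ∀ z ∈ C, (avg A fun x => G (x, y, z) ^ 2) ≤ L)
    (h2 : ∀ x ∈ A, ∀ z ∈ C, (avg B fun y => G (x, y, z) ^ 2) ≤ L)
    (h3 : ∀ x ∈ A, ∀ y ∈ B, (avg C fun z => G (x, y, z) ^ 2) ≤ L)
    (u : ℤ → ℤ → V) (hu : ∀ x ∈ A, ∀ y ∈ B, ‖u x y‖ ≤ 1) {w r ε : ℝ} (hw : 0 ≤ w) (hr : 0 ≤ r)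
    (hε : 0 ≤ ε)
    (hop : ∀ x ∈ A, ∀ v : V, (avg B fun y => (inner ℝ (u x y) v) ^ 2) ≤ w * ‖v‖ ^ 2)
    (hB' : ((B.filter fun c => c ∈ B').card : ℝ) ≤ ε * B.card)
    (h0 : ∀ c ∈ B, c ∉ B' → ∀ x ∈ A, u x c = 0)
    (hM : ∀ c ∈ B, (avg A fun x => ‖u x c‖ ^ 2) ≤ r) (N : ℕ) :
    (avg B fun c => avg B fun y => avg C fun z =>
      (avg A fun x => inner ℝ (u x y) (u x c) * (G (x, y, z) * G (x, c, z))) ^ 2) ≤
      (1024 * (N * (N + 1)) * L ^ 3 * u4T d w r + 4 * (N + 1) * (L ^ 2 * (1 / 4 : ℝ) ^ N)) *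
        (ε * r) := by
  refine (u4_sum hd hL hU h1 h2 h3 u hu hw hop hM N).trans ?_
  refine mul_le_mul_of_nonneg_left (mass_le_deg u hr hε hB' h0 hM) ?_
  have hL0 : 0 ≤ L := by linarith
  have := u4T_nonneg hd.le hw hr
  positivity

end

end Vale.Agent.P141.H922

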